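import Vale.Agent.P046.Full.Defs

/-!
Short cycles: a root whose ball is not a tree lies in a small vertex set `W` carrying
`2|W| - 2` surviving edges, and the weighted number of such sets is a supermartingale.
-/

namespace Vale.Agent.P046.Full

open Finset

noncomputable section

section Walks

variable {α : Type*} [DecidableEq α]

/-- A non-backtracking walk from `e₀`: hyperedges in reverse order, and the exit point. -/
inductive Walk (E : Finset (Finset α)) (e₀ : α) : List (Finset α) → α → Prop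
  | nil : Walk E e₀ [] e₀
  | cons {l : List (Finset α)} {e : α} {R : Finset α} {f : α} : Walk E e₀ l e → R ∈ E → e ∈ R →
      l.headD ∅ ≠ R → f ∈ R → f ≠ e → Walk E e₀ (R :: l) f

/-- Two different walks with the same last hyperedge. -/
def Clash (E : Finset (Finset α)) (e₀ : α) (N : ℕ) : Prop :=
  ∃ (l l' : List (Finset α)) (f f' : α), Walk E e₀ l f ∧ Walk E e₀ l' f' ∧
    l.headD ∅ = l'.headD ∅ ∧ l ≠ l' ∧ l.length + l'.length ≤ N

variable {V : Finset α} {E : Finset (Finset α)} {e₀ : α}

lemma ball_walk (h : Lin V E) : ∀ (j : ℕ) (l : List (Finset α)) (e : α), Walk E e₀ l e →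
    ∀ U ∈ ball E j (l.headD ∅) e, ∃ (m : List (Finset α)) (R : Finset α) (f : α),
      e ∈ R ∧ R ≠ l.headD ∅ ∧ Walk E e₀ (m ++ R :: l) f ∧
      (m ++ R :: l).headD ∅ = U ∧ m.length < j
  | 0, l, e, _, U, hU => absurd hU (by simp [ball])
  | j + 1, l, e, hw, U, hU => by
      simp only [ball, mem_biUnion, mem_filter, mem_erase] at hU
      obtain ⟨R, ⟨⟨hne, hR⟩, he⟩, hU⟩ := hU
      rcases mem_insert.1 hU with rfl | hU
      · obtain ⟨f, hf, hfe⟩ := exists_mem_ne (s := U) (by rw [h.three _ hR]; omega) e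
        exact ⟨[], U, f, he, hne, hw.cons hR he hne.symm hf hfe, rfl, Nat.succ_pos _⟩
      · obtain ⟨f, hf, hU⟩ := mem_biUnion.1 hU
        obtain ⟨hfe, hf⟩ := mem_erase.1 hf
        obtain ⟨m, R', f', -, -, hw', hh, hlen⟩ :=
          ball_walk h j (R :: l) f (hw.cons hR he hne.symm hf hfe) U hU
        refine ⟨m ++ [R'], R, f', he, hne, ?_, ?_, ?_⟩
        · simpa using hw'
        · simpa using hh
        · simp; omega

lemma branch_walk (h : Lin V E) {j : ℕ} {l : List (Finset α)} {e : α} (hw : Walk E e₀ l e)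
    {R U : Finset α} (hR : R ∈ E) (he : e ∈ R) (hne : R ≠ l.headD ∅)
    (hU : U ∈ insert R ((R.erase e).biUnion fun f => ball E j R f)) :
    ∃ (m : List (Finset α)) (f : α), Walk E e₀ (m ++ R :: l) f ∧
      (m ++ R :: l).headD ∅ = U ∧ m.length ≤ j := by
  rcases mem_insert.1 hU with rfl | hU
  · obtain ⟨f, hf, hfe⟩ := exists_mem_ne (s := U) (by rw [h.three _ hR]; omega) e
    exact ⟨[], f, hw.cons hR he hne.symm hf hfe, rfl, Nat.zero_le _⟩
  · obtain ⟨f, hf, hU⟩ := mem_biUnion.1 hU
    obtain ⟨hfe, hf⟩ := mem_erase.1 hf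
    obtain ⟨m, R', f', -, -, hw', hh, hlen⟩ :=
      ball_walk h j (R :: l) f (hw.cons hR he hne.symm hf hfe) U hU
    refine ⟨m ++ [R'], f', ?_, ?_, ?_⟩
    · simpa using hw'
    · simpa using hh
    · simp; omega

lemma clash_of_not_treeBall (h : Lin V E) : ∀ (j : ℕ) (l : List (Finset α)) (e : α),
    Walk E e₀ l e → ¬ TreeBall E j (l.headD ∅) e → Clash E e₀ (2 * (l.length + j))
  | 0, l, e, _, hn => absurd trivial hn
  | j + 1, l, e, hw, hn => by
      by_contra hc
      apply hn
      simp only [TreeBall]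
      refine ⟨fun hX => ?_, fun R hR => ?_, fun R hR S hS hne => ?_⟩
      · obtain ⟨m, R, f, -, -, hw', hh, hlen⟩ := ball_walk h (j + 1) l e hw _ hX
        refine hc ⟨m ++ R :: l, l, f, e, hw', hw, hh, fun hl => ?_, ?_⟩
        · have := congrArg List.length hl
          simp at this
          omega
        · simp; omega
      · simp only [mem_filter, mem_erase] at hR
        obtain ⟨⟨hne, hR⟩, he⟩ := hR
        have hwR : ∀ f ∈ R.erase e, Walk E e₀ (R :: l) f := fun f hf =>
          hw.cons hR he hne.symm (mem_erase.1 hf).2 (mem_erase.1 hf).1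
        refine ⟨fun f hf => ⟨?_, fun hX => ?_⟩, fun f hf g hg hfg => ?_⟩
        · by_contra ht
          apply hc
          obtain ⟨a, b, x, y, h1, h2, h3, h4, h5⟩ :=
            clash_of_not_treeBall h j (R :: l) f (hwR f hf) ht
          exact ⟨a, b, x, y, h1, h2, h3, h4, h5.trans (le_of_eq (by simp; ring))⟩
        · obtain ⟨m, R', x, -, -, hw', hh, hlen⟩ := ball_walk h j (R :: l) f (hwR f hf) R hX
          refine hc ⟨m ++ R' :: R :: l, R :: l, x, f, hw', hwR f hf, by simpa using hh,
            fun hl => ?_, ?_⟩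
          · have := congrArg List.length hl
            simp at this
            omega
          · simp; omega
        · rw [disjoint_left]
          intro U hUf hUg
          obtain ⟨m, A, x, hfA, hA, hw1, hh1, hl1⟩ := ball_walk h j (R :: l) f (hwR f hf) U hUf
          obtain ⟨m', B, y, hgB, -, hw2, hh2, hl2⟩ := ball_walk h j (R :: l) g (hwR g hg) U hUg
          refine hc ⟨_, _, x, y, hw1, hw2, hh1.trans hh2.symm, fun hl => ?_, ?_⟩
          · have hl' : m ++ [A] = m' ++ [B] := by
              apply List.append_cancel_right (bs := R :: l)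
              simpa using hl
            have hAB : A = B := by
              have := congrArg List.getLast? hl'
              simpa using this
            have hAE : A ∈ E := by
              clear hh1 hl hl'
              induction m generalizing x with
              | nil => cases hw1; assumption
              | cons a m ih =>
                cases hw1 with
                | cons hw1' => exact ih _ hw1' (Nat.lt_of_succ_lt hl1)
            have := h.inter A hAE R hR (by simpa using hA)
            have : 2 ≤ (A ∩ R).card :=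
              one_lt_card.2 ⟨f, mem_inter.2 ⟨hfA, (mem_erase.1 hf).2⟩, g,
                mem_inter.2 ⟨hAB ▸ hgB, (mem_erase.1 hg).2⟩, hfg⟩
            omega
          · simp; omega
      · simp only [mem_filter, mem_erase] at hR hS
        rw [disjoint_left]
        intro U hUR hUS
        obtain ⟨m, x, hw1, hh1, hl1⟩ := branch_walk h hw hR.1.2 hR.2 hR.1.1 hUR
        obtain ⟨m', y, hw2, hh2, hl2⟩ := branch_walk h hw hS.1.2 hS.2 hS.1.1 hUS
        refine hc ⟨_, _, x, y, hw1, hw2, hh1.trans hh2.symm, fun hl => hne ?_, ?_⟩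
        · have hl' : m ++ [R] = m' ++ [S] := by
            apply List.append_cancel_right (bs := l)
            simpa using hl
          have := congrArg List.getLast? hl'
          simpa using this
        · simp; omega

/-- The hyperedges of `H` form a hypertree rooted at `e₀`, with parent map `p`. -/
structure Birth (H : Finset (Finset α)) (p : Finset α → α) (e₀ : α) : Prop where
  root : ∀ R ∈ H, e₀ ∈ R → e₀ = p R
  child : ∀ R ∈ H, ∀ S ∈ H, R ≠ S → ∀ x ∈ R, x ∈ S → x ≠ p R → x = p S

lemma Birth.exit {H : Finset (Finset α)} {p : Finset α → α} (hb : Birth H p e₀)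
    {l : List (Finset α)} {e : α} (hw : Walk E e₀ l e) : (∀ R ∈ l, R ∈ H) →
      ∀ R l', l = R :: l' → e ∈ R ∧ e ≠ p R ∧ ∀ e', Walk E e₀ l' e' → e' ∈ R →
        l'.headD ∅ ≠ R → e' = p R := by
  induction hw with
  | nil => intro _ R l' h; simp at h
  | @cons l e R f hw hR he hne hf hfe ih =>
    intro hH R' l' heq
    obtain ⟨rfl, rfl⟩ : R = R' ∧ l = l' := by simpa using heq
    have key : ∀ e', Walk E e₀ l e' → e' ∈ R →
        (∀ S l₂, l = S :: l₂ → e' ∈ S ∧ e' ≠ p S) → e' = p R := by
      intro e' hw' he' hi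
      cases l with
      | nil => cases hw'; exact hb.root R (hH R (by simp)) he'
      | cons S l₂ =>
        have h1 := hi S l₂ rfl
        exact hb.child S (hH S (by simp)) R (hH R (by simp)) (by simpa using hne) e' h1.1 he' h1.2
    have heR : e = p R := key e hw he fun S l₂ h =>
      ⟨(ih (fun T hT => hH T (List.mem_cons_of_mem _ hT)) S l₂ h).1,
        (ih (fun T hT => hH T (List.mem_cons_of_mem _ hT)) S l₂ h).2.1⟩
    refine ⟨hf, heR ▸ hfe, fun e' hw' he' _ => ?_⟩
    cases l with
    | nil => cases hw'; exact hb.root R (hH R (by simp)) he'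
    | cons S l₂ =>
      by_contra hne'
      cases hw' with
      | @cons _ e₁ _ _ hw₁ hS he₁ hne₁ hf₁ hfe₁ =>
        have h1 := ih (fun T hT => hH T (List.mem_cons_of_mem _ hT)) S l₂ rfl
        have : e₁ = p S := h1.2.2 e₁ hw₁ he₁ hne₁
        exact hne' (hb.child S (hH S (by simp)) R (hH R (by simp)) (by simpa using hne) e' hf₁ he'
          (this ▸ hfe₁))

lemma Birth.unique {H : Finset (Finset α)} {p : Finset α → α} (hb : Birth H p e₀)
    (hE : ∅ ∉ E) : ∀ (l l' : List (Finset α)) (f f' : α), Walk E e₀ l f → Walk E e₀ l' f' →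
      (∀ R ∈ l, R ∈ H) → (∀ R ∈ l', R ∈ H) → l.headD ∅ = l'.headD ∅ → l = l'
  | [], [], _, _, _, _, _, _, _ => rfl
  | [], R :: l', _, _, _, hw', _, _, hh => by
      cases hw' with
      | cons _ hR => exact absurd ((by simpa using hh : ∅ = R) ▸ hR) hE
  | R :: l, [], _, _, hw, _, _, _, hh => by
      cases hw with
      | cons _ hR => exact absurd ((by simpa using hh : R = ∅) ▸ hR) hE
  | R :: l, R' :: l', f, f', hw, hw', hH, hH', hh => by
      obtain rfl : R = R' := by simpa using hh
      obtain ⟨-, -, hpar⟩ := hb.exit hw hH R l rfl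
      obtain ⟨-, -, hpar'⟩ := hb.exit hw' hH' R l' rfl
      cases hw with
      | @cons _ e _ _ hw₁ hR he hne =>
        cases hw' with
        | @cons _ e' _ _ hw₁' _ he' hne' =>
          have hee : e = e' := (hpar e hw₁ he hne).trans (hpar' e' hw₁' he' hne').symm
          subst hee
          have h1 : ∀ T ∈ l, T ∈ H := fun T hT => hH T (List.mem_cons_of_mem _ hT)
          have h2 : ∀ T ∈ l', T ∈ H := fun T hT => hH' T (List.mem_cons_of_mem _ hT)
          congr 1
          refine hb.unique hE l l' e e hw₁ hw₁' h1 h2 ?_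
          cases l with
          | nil =>
            cases l' with
            | nil => rfl
            | cons S l₂ =>
              cases hw₁
              obtain ⟨a, b, -⟩ := hb.exit hw₁' h2 S l₂ rfl
              exact absurd (hb.root S (h2 S (by simp)) a) b
          | cons S l₂ =>
            obtain ⟨a, b, -⟩ := hb.exit hw₁ h1 S l₂ rfl
            cases l' with
            | nil =>
              cases hw₁'
              exact absurd (hb.root S (h1 S (by simp)) a) b
            | cons S' l₂' =>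
              obtain ⟨a', b', -⟩ := hb.exit hw₁' h2 S' l₂' rfl
              by_contra hSS
              exact b' (hb.child S (h1 S (by simp)) S' (h2 S' (by simp))
                (by simpa using hSS) e a a' b)

end Walks

variable {n : ℕ}

/-- A small vertex set with one edge more than a 2-tree. -/
def Excess (G : Finset (Finset (Fin n))) (e₀ : Finset (Fin n)) (N : ℕ) : Prop :=
  ∃ W : Finset (Fin n), e₀ ⊆ W ∧ W.card ≤ N ∧
    ∃ S ⊆ G, S ⊆ W.powersetCard 2 ∧ S.card + 2 = 2 * W.card

lemma Excess.mono {G : Finset (Finset (Fin n))} {e₀ : Finset (Fin n)} {N M : ℕ}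
    (h : Excess G e₀ N) (hNM : N ≤ M) : Excess G e₀ M :=
  let ⟨W, h1, h2, h3⟩ := h; ⟨W, h1, h2.trans hNM, h3⟩

/-- A 2-tree grown from `e₀` inside `G`. -/
structure Grown (G : Finset (Finset (Fin n))) (e₀ : Finset (Fin n)) (W : Finset (Fin n))
    (S : Finset (Finset (Fin n))) (H : Finset (Finset (Finset (Fin n))))
    (p : Finset (Finset (Fin n)) → Finset (Fin n)) : Prop where
  card : S.card + 3 = 2 * W.card
  subG : S ⊆ G
  subW : S ⊆ W.powersetCard 2
  root : e₀ ∈ S
  mem : ∀ R ∈ H, R ⊆ S
  tri : ∀ T : Finset (Fin n), T.card = 3 → T.powersetCard 2 ⊆ S → T.powersetCard 2 ∈ H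
  birth : Birth H p e₀

lemma Grown.step {G : Finset (Finset (Fin n))} {e₀ W S H p} (h : Grown G e₀ W S H p)
    {R : Finset (Finset (Fin n))} (hR : R ∈ triHyper G) {e : Finset (Fin n)} (heR : e ∈ R)
    (heS : e ∈ S) :
    Excess G e₀ W.card ∨ ∃ W' S' H' p', Grown G e₀ W' S' H' p' ∧ H ⊆ H' ∧ R ∈ H' ∧ S ⊆ S' ∧
      W'.card ≤ W.card + 1 := by
  classical
  obtain ⟨T, hT, rfl⟩ := mem_image.1 hR
  have hT3 := card_triangle hT
  have hTG : T.powersetCard 2 ⊆ G := (mem_filter.1 hT).2
  by_cases hRS : T.powersetCard 2 ⊆ S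
  · exact .inr ⟨W, S, H, p, h, Subset.rfl, h.tri T hT3 hRS, Subset.rfl, Nat.le_succ _⟩
  obtain ⟨heT, he2⟩ := mem_powersetCard.1 heR
  have heW := (mem_powersetCard.1 (h.subW heS)).1
  by_cases hTW : T ⊆ W
  · left
    obtain ⟨f, hfR, hfS⟩ := not_subset.1 hRS
    refine ⟨W, (mem_powersetCard.1 (h.subW h.root)).1, le_rfl, insert f S,
      insert_subset (hTG hfR) h.subG, insert_subset (powersetCard_mono hTW hfR) h.subW, ?_⟩
    rw [card_insert_of_notMem hfS]
    have := h.card
    omega
  right
  obtain ⟨z, hzT, hzW⟩ := not_subset.1 hTW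
  have hze : z ∉ e := fun hz => hzW (heW hz)
  have hTe : T = insert z e := (eq_of_subset_of_card_le (insert_subset hzT heT)
    (by rw [card_insert_of_notMem hze, hT3, he2])).symm
  have hint : S ∩ T.powersetCard 2 = {e} := by
    ext x
    simp only [mem_inter, mem_singleton]
    refine ⟨fun ⟨hx, hxT⟩ => ?_, fun hx => hx ▸ ⟨heS, heR⟩⟩
    obtain ⟨hxT, hx2⟩ := mem_powersetCard.1 hxT
    refine eq_of_subset_of_card_le (fun y hy => ?_) (by omega)
    have hy' := hxT hy
    rw [hTe, mem_insert] at hy'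
    rcases hy' with rfl | hy'
    · exact absurd ((mem_powersetCard.1 (h.subW hx)).1 hy) hzW
    · exact hy'
  have honly : ∀ x ∈ T.powersetCard 2, x ∈ S → x = e := fun x hx hxS => by
    have hx' := mem_inter.2 ⟨hxS, hx⟩
    rwa [hint, mem_singleton] at hx'
  refine ⟨insert z W, S ∪ T.powersetCard 2, insert (T.powersetCard 2) H,
    Function.update p (T.powersetCard 2) e, ⟨?_, union_subset h.subG hTG, ?_,
      mem_union_left _ h.root, ?_, ?_, ?_, ?_⟩, subset_insert _ _, mem_insert_self _ _,
      subset_union_left, by rw [card_insert_of_notMem hzW]⟩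
  · have := card_union_add_card_inter S (T.powersetCard 2)
    rw [hint, card_powersetCard, hT3, card_singleton] at this
    have h3 : Nat.choose 3 2 = 3 := by decide
    rw [card_insert_of_notMem hzW]
    have := h.card
    omega
  · refine union_subset (h.subW.trans (powersetCard_mono (subset_insert _ _))) ?_
    refine powersetCard_mono ?_
    rw [hTe]
    exact insert_subset_insert _ heW
  · intro R' hR'
    rcases mem_insert.1 hR' with rfl | hR'
    · exact subset_union_right
    · exact (h.mem R' hR').trans subset_union_left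
  · intro T' hT' hsub
    by_cases hz : z ∈ T'
    · have : T' ⊆ T := by
        intro w hw
        by_cases hwz : w = z
        · exact hwz ▸ hzT
        · have hx : ({z, w} : Finset (Fin n)) ∈ T'.powersetCard 2 :=
            mem_powersetCard.2 ⟨by simp [insert_subset_iff, hz, hw], card_pair (Ne.symm hwz)⟩
          rcases mem_union.1 (hsub hx) with hx | hx
          · exact absurd ((mem_powersetCard.1 (h.subW hx)).1 (by simp)) hzW
          · exact (mem_powersetCard.1 hx).1 (by simp)
      rw [eq_of_subset_of_card_le this (by omega)]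
      exact mem_insert_self _ _
    · refine mem_insert_of_mem (h.tri T' hT' fun x hx => ?_)
      rcases mem_union.1 (hsub hx) with hx' | hx'
      · exact hx'
      · have : x = e := by
          obtain ⟨hxT, hx2⟩ := mem_powersetCard.1 hx'
          refine eq_of_subset_of_card_le (fun y hy => ?_) (by omega)
          have hy' := hxT hy
          rw [hTe, mem_insert] at hy'
          rcases hy' with rfl | hy'
          · exact absurd ((mem_powersetCard.1 hx).1 hy) hz
          · exact hy'
        exact this ▸ heS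
  · intro R' hR' h0
    by_cases hR'T : R' = T.powersetCard 2
    · subst hR'T
      rw [Function.update_self]
      exact honly e₀ h0 h.root
    · rw [Function.update_of_ne hR'T]
      exact h.birth.root R' ((mem_insert.1 hR').resolve_left hR'T) h0
  · intro A hA B hB hAB x hxA hxB hxp
    by_cases hAT : A = T.powersetCard 2
    · subst hAT
      rw [Function.update_self] at hxp
      exact absurd (honly x hxA (h.mem B ((mem_insert.1 hB).resolve_left (Ne.symm hAB)) hxB)) hxp
    · have hA' := (mem_insert.1 hA).resolve_left hAT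
      rw [Function.update_of_ne hAT] at hxp
      by_cases hBT : B = T.powersetCard 2
      · subst hBT
        rw [Function.update_self]
        exact honly x hxB (h.mem A hA' hxA)
      · rw [Function.update_of_ne hBT]
        exact h.birth.child A hA' B ((mem_insert.1 hB).resolve_left hBT) hAB x hxA hxB hxp

lemma Grown.walk {G : Finset (Finset (Fin n))} {e₀ W S H p} (h : Grown G e₀ W S H p)
    {l : List (Finset (Finset (Fin n)))} {f : Finset (Fin n)}
    (hw : Walk (triHyper G) e₀ l f) :
    Excess G e₀ (W.card + l.length) ∨ ∃ W' S' H' p', Grown G e₀ W' S' H' p' ∧ H ⊆ H' ∧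
      (∀ R ∈ l, R ∈ H') ∧ f ∈ S' ∧ W'.card ≤ W.card + l.length := by
  induction hw with
  | nil => exact .inr ⟨W, S, H, p, h, Subset.rfl, by simp, h.root, le_rfl⟩
  | @cons l e R f hw hR he hne hf hfe ih =>
    rcases ih with hx | ⟨W', S', H', p', h', hH, hl, he', hc⟩
    · exact .inl (hx.mono (by simp))
    rcases h'.step hR he he' with hx | ⟨W'', S'', H'', p'', h'', hH', hR', hS, hc'⟩
    · exact .inl (hx.mono (by simp; omega))
    refine .inr ⟨W'', S'', H'', p'', h'', hH.trans hH', ?_, h''.mem R hR' hf, by simp; omega⟩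
    intro R' hR'm
    rcases List.mem_cons.1 hR'm with rfl | hR'm
    · exact hR'
    · exact hH' (hl R' hR'm)

/-- A root without a tree ball lies in a small set with too many edges. -/
lemma excess_of_not_treeBall {G : Finset (Finset (Fin n))} {e : Finset (Fin n)} (heG : e ∈ G)
    (he : e.card = 2) {k : ℕ} (hn : ¬ TreeBall (triHyper G) k ∅ e) :
    Excess G e (2 * k + 3) := by
  have h0 : Grown G e e {e} ∅ fun _ => e := by
    refine ⟨by rw [card_singleton, he], by simpa using heG,
      by simp [mem_powersetCard, he], mem_singleton_self e, by simp, fun T hT hsub => ?_,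
      ⟨by simp, by simp⟩⟩
    have := card_le_card hsub
    rw [card_powersetCard, hT, card_singleton] at this
    exact absurd this (by decide)
  have hE : ∅ ∉ triHyper G := fun h => by simpa using (triHyper_lin G).three ∅ h
  obtain ⟨l, l', f, f', hw, hw', hh, hne, hlen⟩ :=
    clash_of_not_treeBall (triHyper_lin G) k [] e Walk.nil hn
  simp only [List.length_nil, zero_add] at hlen
  rcases h0.walk hw with hx | ⟨W₁, S₁, H₁, p₁, h₁, -, hl, -, hc⟩
  · exact hx.mono (by omega)
  rcases h₁.walk hw' with hx | ⟨W₂, S₂, H₂, p₂, h₂, hH, hl', -, -⟩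
  · exact hx.mono (by omega)
  exact absurd (h₂.birth.unique hE l l' f f' hw hw' (fun R hR => hH (hl R hR)) hl' hh) hne

/-- Weighted count of small vertex sets with one edge more than a 2-tree. -/
def conf (V0 : ℕ) (b Dend : ℝ) (G : Finset (Finset (Fin n))) (D : ℝ) : ℝ :=
  ∑ v ∈ Icc 2 V0, ∑ W ∈ (univ : Finset (Fin n)).powersetCard v,
    ∑ S ∈ (W.powersetCard 2).powersetCard (2 * v - 2),
      if S ⊆ G then (v : ℝ) ^ 2 * (Dend / D) ^ (b * ((2 * v - 2 : ℕ) : ℝ)) else 0

lemma conf_nonneg {V0 : ℕ} {b Dend : ℝ} (G : Finset (Finset (Fin n))) {D : ℝ} (hDe : 0 ≤ Dend)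
    (hD : 0 ≤ D) : 0 ≤ conf V0 b Dend G D :=
  sum_nonneg fun v _ => sum_nonneg fun W _ => sum_nonneg fun S _ => by
    split_ifs
    · exact mul_nonneg (by positivity) (Real.rpow_nonneg (div_nonneg hDe hD) _)
    · exact le_rfl

/-- At a small reference degree the weighted count dominates the defects. -/
lemma defects_le_conf {G : Finset (Finset (Fin n))} (hG : G ⊆ completeEdges n) {k : ℕ}
    {b Dend D : ℝ} (hD : 0 < D) (hDe : D ≤ Dend) (hb : 0 ≤ b) :
    ((defects G (triHyper G) k).card : ℝ) ≤ conf (2 * k + 3) b Dend G D := by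
  classical
  set P := (Icc 2 (2 * k + 3)).sigma fun v =>
    ((univ : Finset (Fin n)).powersetCard v).sigma fun W =>
      ((W.powersetCard 2).powersetCard (2 * v - 2)).filter fun S => S ⊆ G with hP
  have hsub : defects G (triHyper G) k ⊆ P.biUnion fun x => x.2.1.powersetCard 2 := by
    intro e he
    obtain ⟨heG, hn⟩ := mem_filter.1 he
    have he2 : e.card = 2 := (mem_powersetCard.1 (hG heG)).2
    obtain ⟨W, heW, hW, S, hSG, hSW, hS⟩ := excess_of_not_treeBall heG he2 hn
    have : 2 ≤ W.card := he2 ▸ card_le_card heW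
    refine mem_biUnion.2 ⟨⟨W.card, W, S⟩, ?_, mem_powersetCard.2 ⟨heW, he2⟩⟩
    rw [hP]
    simp only [mem_sigma, mem_Icc, mem_powersetCard, mem_filter]
    refine ⟨⟨this, hW⟩, ⟨subset_univ _, trivial⟩, ⟨hSW, ?_⟩, hSG⟩
    omega
  calc ((defects G (triHyper G) k).card : ℝ)
      ≤ ∑ x ∈ P, ((x.2.1.powersetCard 2).card : ℝ) := by
        exact_mod_cast (card_le_card hsub).trans card_biUnion_le
    _ ≤ ∑ x ∈ P, (x.1 : ℝ) ^ 2 * (Dend / D) ^ (b * ((2 * x.1 - 2 : ℕ) : ℝ)) := by
        refine sum_le_sum fun x hx => ?_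
        rw [hP] at hx
        simp only [mem_sigma, mem_powersetCard] at hx
        rw [card_powersetCard, hx.2.1.2]
        have h1 : (Nat.choose x.1 2 : ℝ) ≤ (x.1 : ℝ) ^ 2 := by
          exact_mod_cast Nat.choose_le_pow x.1 2
        refine h1.trans (le_mul_of_one_le_right (by positivity) ?_)
        exact Real.one_le_rpow (by rw [le_div_iff₀ hD]; linarith) (by positivity)
    _ = _ := by
        rw [hP, sum_sigma]
        refine sum_congr rfl fun v _ => ?_
        rw [sum_sigma]
        exact sum_congr rfl fun W _ => (sum_filter _ _)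

lemma meet_ge {α : Type*} [DecidableEq α] {V : Finset α} {E : Finset (Finset α)} (h : Lin V E)
    {lo : ℝ} (S : Finset α) (hlo : ∀ e ∈ S, lo ≤ (deg E e : ℝ)) :
    (S.card : ℝ) * (lo - S.card) ≤ ((E.filter fun T => ¬ Disjoint T S).card : ℝ) := by
  classical
  induction S using Finset.induction_on with
  | empty => simp
  | @insert e S heS ih =>
    have ih' := ih fun f hf => hlo f (mem_insert_of_mem hf)
    have h1 : (E.filter fun T => e ∈ T ∧ ¬ Disjoint T S).card ≤ S.card := by
      calc _ ≤ (S.biUnion fun f => E.filter fun T => e ∈ T ∧ f ∈ T).card := card_le_card (by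
            intro T hT
            simp only [mem_filter] at hT
            obtain ⟨f, hf1, hf2⟩ := not_disjoint_iff.1 hT.2.2
            exact mem_biUnion.2 ⟨f, hf2, mem_filter.2 ⟨hT.1, hT.2.1, hf1⟩⟩)
        _ ≤ ∑ f ∈ S, (E.filter fun T => e ∈ T ∧ f ∈ T).card := card_biUnion_le
        _ ≤ ∑ _f ∈ S, 1 := by
            refine sum_le_sum fun f hf => card_le_one.2 fun A hA B hB => ?_
            simp only [mem_filter] at hA hB
            by_contra hne
            have := h.inter A hA.1 B hB.1 hne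
            have : 2 ≤ (A ∩ B).card :=
              one_lt_card.2 ⟨e, mem_inter.2 ⟨hA.2.1, hB.2.1⟩, f, mem_inter.2 ⟨hA.2.2, hB.2.2⟩,
                fun hef => heS (hef ▸ hf)⟩
            omega
        _ = S.card := by simp
    have h2 : (E.filter fun T => ¬ Disjoint T (insert e S)).card
        + (E.filter fun T => e ∈ T ∧ ¬ Disjoint T S).card
        = deg E e + (E.filter fun T => ¬ Disjoint T S).card := by
      unfold deg
      rw [← card_union_add_card_inter (E.filter fun R => e ∈ R)]
      congr 1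
      · congr 1; ext T
        simp only [mem_union, mem_filter, disjoint_insert_right]
        tauto
      · congr 1; ext T
        simp only [mem_inter, mem_filter]
        tauto
    have h2' : ((E.filter fun T => ¬ Disjoint T (insert e S)).card : ℝ)
        + ((E.filter fun T => e ∈ T ∧ ¬ Disjoint T S).card : ℝ)
        = deg E e + ((E.filter fun T => ¬ Disjoint T S).card : ℝ) := by exact_mod_cast h2
    have h1' : ((E.filter fun T => e ∈ T ∧ ¬ Disjoint T S).card : ℝ) ≤ S.card := by
      exact_mod_cast h1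
    have := hlo e (mem_insert_self e S)
    rw [card_insert_of_notMem heS]
    push_cast
    nlinarith [Nat.cast_nonneg (α := ℝ) S.card]

/-- In a near-regular state the weighted count is a supermartingale. -/
lemma conf_step {V0 : ℕ} {b Dend D lo : ℝ} {G : Finset (Finset (Fin n))} (hD : 0 < D)
    (hDe : 0 ≤ Dend) (hb : 0 ≤ b) (hQ : 0 < (triHyper G).card)
    (hlo : ∀ e ∈ G, lo ≤ (deg (triHyper G) e : ℝ)) (hroom : 2 * b * D + 2 * V0 ≤ lo) :
    ∑ T ∈ triHyper G, conf V0 b Dend (G \ T) (nextD (triHyper G) D)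
      ≤ (triHyper G).card * conf V0 b Dend G D := by
  classical
  set E := triHyper G with hE
  set Q : ℝ := (E.card : ℝ) with hQdef
  have hQ0 : 0 < Q := by rw [hQdef]; exact_mod_cast hQ
  unfold conf
  rw [sum_comm, mul_sum]
  refine sum_le_sum fun v hv => ?_
  rw [sum_comm, mul_sum]
  refine sum_le_sum fun W _ => ?_
  rw [sum_comm, mul_sum]
  refine sum_le_sum fun S hS => ?_
  obtain ⟨-, hSc⟩ := mem_powersetCard.1 hS
  by_cases hSG : S ⊆ G
  swap
  · rw [if_neg hSG, mul_zero]
    refine le_of_eq (sum_eq_zero fun T _ => if_neg fun h => hSG (h.trans sdiff_subset))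
  rw [if_pos hSG]
  set s : ℝ := ((2 * v - 2 : ℕ) : ℝ) with hs
  have hs0 : 0 ≤ s := Nat.cast_nonneg _
  have hsV : s ≤ 2 * V0 := by
    rw [hs]
    have : v ≤ V0 := (mem_Icc.1 hv).2
    calc ((2 * v - 2 : ℕ) : ℝ) ≤ ((2 * V0 : ℕ) : ℝ) := by exact_mod_cast (by omega)
      _ = 2 * V0 := by push_cast; ring
  set a := 2 * D / Q with ha
  have ha0 : 0 ≤ a := by positivity
  have hnD : nextD E D = D / (1 + a) := rfl
  have hsurv : ∑ T ∈ E, (if S ⊆ G \ T then (v : ℝ) ^ 2 * (Dend / nextD E D) ^ (b * s) else 0)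
      = ((E.filter fun T => Disjoint T S).card : ℝ)
        * ((v : ℝ) ^ 2 * (Dend / nextD E D) ^ (b * s)) := by
    rw [← sum_filter, sum_const, nsmul_eq_mul]
    congr 3
    ext T
    simp only [mem_filter, subset_sdiff]
    exact ⟨fun h => ⟨h.1, h.2.2.symm⟩, fun h => ⟨h.1, hSG, h.2.symm⟩⟩
  rw [hsurv]
  have hpow : (Dend / nextD E D) ^ (b * s) = (Dend / D) ^ (b * s) * (1 + a) ^ (b * s) := by
    rw [hnD, div_div_eq_mul_div, mul_div_right_comm,
      Real.mul_rpow (by positivity) (by linarith)]
  have hexp : (1 + a) ^ (b * s) ≤ Real.exp (a * (b * s)) := by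
    rw [Real.exp_mul]
    exact Real.rpow_le_rpow (by linarith) (by linarith [Real.add_one_le_exp a]) (by positivity)
  have hcount : ((E.filter fun T => Disjoint T S).card : ℝ) * Real.exp (a * (b * s)) ≤ Q := by
    have h1 := meet_ge (triHyper_lin G) S fun e he => hlo e (hSG he)
    rw [hSc, ← hs] at h1
    have h2 : ((E.filter fun T => Disjoint T S).card : ℝ)
        + ((E.filter fun T => ¬ Disjoint T S).card : ℝ) = Q := by
      rw [hQdef]
      exact_mod_cast card_filter_add_card_filter_not (s := E) fun T => Disjoint T S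
    have h3 : 2 * b * D * s ≤ s * (lo - s) := by nlinarith
    have h4 : ((E.filter fun T => Disjoint T S).card : ℝ) ≤ Q * Real.exp (-(a * (b * s))) := by
      have h5 := mul_le_mul_of_nonneg_left (Real.add_one_le_exp (-(a * (b * s)))) hQ0.le
      have h6 : Q * (a * (b * s)) = 2 * b * D * s := by rw [ha]; field_simp
      nlinarith
    calc _ ≤ Q * Real.exp (-(a * (b * s))) * Real.exp (a * (b * s)) := by gcongr
      _ = Q := by rw [mul_assoc, ← Real.exp_add]; simp
  rw [hpow]
  calc ((E.filter fun T => Disjoint T S).card : ℝ)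
        * ((v : ℝ) ^ 2 * ((Dend / D) ^ (b * s) * (1 + a) ^ (b * s)))
      = ((E.filter fun T => Disjoint T S).card : ℝ) * (1 + a) ^ (b * s)
        * ((v : ℝ) ^ 2 * (Dend / D) ^ (b * s)) := by ring
    _ ≤ ((E.filter fun T => Disjoint T S).card : ℝ) * Real.exp (a * (b * s))
        * ((v : ℝ) ^ 2 * (Dend / D) ^ (b * s)) := by gcongr
    _ ≤ Q * ((v : ℝ) ^ 2 * (Dend / D) ^ (b * s)) := by gcongr

open Filter in
/-- At the start the weighted count is at most `n ^ (5/4)`. -/
lemma conf_init (K : ℝ) (hK : 0 < K) : ∃ n₀ : ℕ, ∀ n ≥ n₀, ∀ k : ℕ,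
    (k : ℝ) ≤ K * Real.log (Real.log n) →
    conf (2 * k + 3) ((1 - 1 / Real.log n) / 2) (Real.log n ^ 9000) (completeEdges n)
      ((n : ℝ) - 2) ≤ (n : ℝ) ^ (5 / 4 : ℝ) := by
  set C : ℝ := 9010 * (2 * K + 5) with hC
  have hev : ∀ᶠ l : ℝ in atTop, C * Real.log l ^ 2 ≤ l / 4 ∧ (2 * K + 5) * Real.log l ≤ l ∧
      9 ≤ l ∧ 1 ≤ Real.log l := by
    have h1 : ∀ᶠ l : ℝ in atTop, ‖Real.log l ^ 2‖ ≤ 1 / (4 * C) * ‖id l‖ :=
      Real.isLittleO_pow_log_id_atTop.bound (by positivity)
    have h2 : ∀ᶠ l : ℝ in atTop, ‖Real.log l‖ ≤ 1 / (2 * K + 5) * ‖id l‖ :=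
      Real.isLittleO_log_id_atTop.bound (by positivity)
    filter_upwards [h1, h2, eventually_ge_atTop 9,
      Real.tendsto_log_atTop.eventually_ge_atTop 1] with l a b c d
    refine ⟨?_, ?_, c, d⟩
    · rw [Real.norm_eq_abs, Real.norm_eq_abs, abs_of_nonneg (by positivity), id,
        abs_of_nonneg (by linarith), div_mul_eq_mul_div, le_div_iff₀ (by positivity)] at a
      linarith
    · rw [Real.norm_eq_abs, Real.norm_eq_abs, abs_of_nonneg (by linarith), id,
        abs_of_nonneg (by linarith), div_mul_eq_mul_div, le_div_iff₀ (by positivity)] at b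
      linarith
  obtain ⟨N, hN⟩ := eventually_atTop.1
    ((Real.tendsto_log_atTop.comp tendsto_natCast_atTop_atTop).eventually hev)
  refine ⟨max N 3, fun n hn k hk => ?_⟩
  obtain ⟨hl1, hl2, hl9, hll⟩ := hN n (le_trans (le_max_left _ _) hn)
  simp only [Function.comp] at hl1 hl2 hl9 hll
  have hn3 : (3 : ℝ) ≤ n := by exact_mod_cast le_trans (le_max_right N 3) hn
  set l := Real.log (n : ℝ) with hl
  set V0 := 2 * k + 3 with hV0
  have hV0r : (V0 : ℝ) ≤ (2 * K + 5) * Real.log l := by
    rw [hV0]; push_cast; nlinarith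
  have hV0l : (V0 : ℝ) ≤ l := hV0r.trans hl2
  have hV1 : (1 : ℝ) ≤ V0 := by exact_mod_cast (by omega : 1 ≤ V0)
  set M : ℝ := 9 * l ^ 9000 * (V0 : ℝ) ^ 7 with hM
  have hM1 : 1 ≤ M := by
    have h1 : (1:ℝ) ≤ l ^ 9000 := one_le_pow₀ (by linarith)
    have h2 : (1:ℝ) ≤ (V0 : ℝ) ^ 7 := one_le_pow₀ hV1
    rw [hM]
    nlinarith
  -- one term
  have hterm : ∀ v ∈ Icc 2 V0, ∑ W ∈ (univ : Finset (Fin n)).powersetCard v,
      ∑ S ∈ (W.powersetCard 2).powersetCard (2 * v - 2),
        (if S ⊆ completeEdges n then (v : ℝ) ^ 2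
          * (l ^ 9000 / ((n : ℝ) - 2)) ^ (((1 - 1 / l) / 2) * ((2 * v - 2 : ℕ) : ℝ)) else 0)
      ≤ n * (9 * l ^ 9000 * (V0 : ℝ) ^ 6) ^ V0 := by
    intro v hv
    obtain ⟨hv2, hvV⟩ := mem_Icc.1 hv
    set w := (l ^ 9000 / ((n : ℝ) - 2)) ^ (((1 - 1 / l) / 2) * ((2 * v - 2 : ℕ) : ℝ)) with hw
    have hb : 0 ≤ 1 - 1 / l := by
      rw [sub_nonneg, div_le_one (by linarith)]; linarith
    have hbase : 0 ≤ l ^ 9000 / ((n : ℝ) - 2) := div_nonneg (by positivity) (by linarith)
    have hw0 : 0 ≤ w := Real.rpow_nonneg hbase _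
    have hexp : ((1 - 1 / l) / 2) * ((2 * v - 2 : ℕ) : ℝ) = (1 - 1 / l) * ((v : ℝ) - 1) := by
      rw [Nat.cast_sub (by omega)]; push_cast; ring
    have hv1 : (0:ℝ) ≤ (v : ℝ) - 1 := by
      have : (2:ℝ) ≤ v := by exact_mod_cast hv2
      linarith
    -- the weight
    have hwle : w * (n : ℝ) ^ (v - 1) ≤ (9 * l ^ 9000) ^ V0 := by
      have h1 : (l ^ 9000 / ((n : ℝ) - 2)) ≤ 3 * l ^ 9000 / n := by
        rw [div_le_div_iff₀ (by linarith) (by linarith)]
        nlinarith [pow_pos (show (0:ℝ) < l by linarith) 9000]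
      have h2 : w ≤ (3 * l ^ 9000 / n) ^ ((1 - 1 / l) * ((v : ℝ) - 1)) := by
        rw [hw, hexp]
        exact Real.rpow_le_rpow hbase h1 (mul_nonneg hb hv1)
      have h3 : (3 * l ^ 9000 / (n : ℝ)) ^ ((1 - 1 / l) * ((v : ℝ) - 1))
          = (3 * l ^ 9000) ^ ((1 - 1 / l) * ((v : ℝ) - 1))
            / ((n : ℝ) ^ ((v : ℝ) - 1) / Real.exp 1 ^ ((v : ℝ) - 1)) := by
        rw [Real.div_rpow (by positivity) (by linarith)]
        congr 1
        rw [Real.rpow_def_of_pos (by linarith), Real.rpow_def_of_pos (by linarith),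
          Real.exp_one_rpow, ← Real.exp_sub, ← hl]
        congr 1
        field_simp
      have h4 : (n : ℝ) ^ (v - 1) = (n : ℝ) ^ ((v : ℝ) - 1) := by
        rw [← Real.rpow_natCast, Nat.cast_sub (by omega)]; norm_num
      calc w * (n : ℝ) ^ (v - 1)
          ≤ (3 * l ^ 9000 / (n : ℝ)) ^ ((1 - 1 / l) * ((v : ℝ) - 1)) * (n : ℝ) ^ (v - 1) := by
            gcongr
        _ = (3 * l ^ 9000) ^ ((1 - 1 / l) * ((v : ℝ) - 1)) * Real.exp 1 ^ ((v : ℝ) - 1) := by
            rw [h3, h4]
            field_simp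
        _ ≤ (3 * l ^ 9000) ^ ((V0 : ℝ)) * (3 : ℝ) ^ ((V0 : ℝ)) := by
            have hone : 1 ≤ 3 * l ^ 9000 := by
              linarith [one_le_pow₀ (n := 9000) (show (1:ℝ) ≤ l by linarith)]
            have hvV' : (v : ℝ) ≤ V0 := by exact_mod_cast hvV
            gcongr
            · have : 0 ≤ 1 / l := by positivity
              nlinarith
            · calc Real.exp 1 ^ ((v : ℝ) - 1) ≤ (3 : ℝ) ^ ((v : ℝ) - 1) :=
                    Real.rpow_le_rpow (Real.exp_pos 1).le Real.exp_one_lt_three.le hv1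
                _ ≤ _ := Real.rpow_le_rpow_of_exponent_le (by norm_num) (by linarith)
        _ = _ := by
            rw [Real.rpow_natCast, Real.rpow_natCast, ← mul_pow]; ring
    calc _ ≤ ∑ W ∈ (univ : Finset (Fin n)).powersetCard v,
          ∑ _S ∈ (W.powersetCard 2).powersetCard (2 * v - 2), (v : ℝ) ^ 2 * w := by
          refine sum_le_sum fun W _ => sum_le_sum fun S _ => ?_
          split_ifs
          · exact le_rfl
          · positivity
      _ = (Nat.choose n v : ℝ) * ((Nat.choose (Nat.choose v 2) (2 * v - 2) : ℝ)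
          * ((v : ℝ) ^ 2 * w)) := by
          rw [sum_congr rfl (g := fun _ => (Nat.choose (Nat.choose v 2) (2 * v - 2) : ℝ)
              * ((v : ℝ) ^ 2 * w)) fun W hW => by
            rw [sum_const, nsmul_eq_mul, card_powersetCard, card_powersetCard,
              (mem_powersetCard.1 hW).2]]
          rw [sum_const, nsmul_eq_mul, card_powersetCard, card_univ, Fintype.card_fin]
      _ ≤ (n : ℝ) ^ v * (((v : ℝ) ^ 2) ^ (2 * v - 2) * ((v : ℝ) ^ 2 * w)) := by
          gcongr
          · exact_mod_cast Nat.choose_le_pow n v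
          · exact_mod_cast le_trans (Nat.choose_le_pow _ _)
              (Nat.pow_le_pow_left (Nat.choose_le_pow v 2) _)
      _ = n * ((v : ℝ) ^ (2 * (2 * v - 2) + 2) * (w * (n : ℝ) ^ (v - 1))) := by
          rw [← pow_mul, show (n : ℝ) ^ v = n * (n : ℝ) ^ (v - 1) by
            rw [← pow_succ']; congr 1; omega]
          ring
      _ ≤ n * ((V0 : ℝ) ^ (6 * V0) * (9 * l ^ 9000) ^ V0) := by
          gcongr
          calc (v : ℝ) ^ (2 * (2 * v - 2) + 2) ≤ (V0 : ℝ) ^ (2 * (2 * v - 2) + 2) := by
                gcongr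
            _ ≤ _ := pow_le_pow_right₀ hV1 (by omega)
      _ = _ := by rw [pow_mul, ← mul_pow]; ring
  unfold conf
  refine (sum_le_sum hterm).trans ?_
  rw [sum_const, nsmul_eq_mul, Nat.card_Icc]
  have hcount : ((V0 + 1 - 2 : ℕ) : ℝ) ≤ (V0 : ℝ) ^ V0 := by
    calc ((V0 + 1 - 2 : ℕ) : ℝ) ≤ (V0 : ℝ) := by exact_mod_cast (by omega)
      _ ≤ _ := le_self_pow₀ hV1 (by omega)
  calc ((V0 + 1 - 2 : ℕ) : ℝ) * (n * (9 * l ^ 9000 * (V0 : ℝ) ^ 6) ^ V0)
      ≤ (V0 : ℝ) ^ V0 * (n * (9 * l ^ 9000 * (V0 : ℝ) ^ 6) ^ V0) := by gcongr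
    _ = n * M ^ (V0 : ℝ) := by
        rw [Real.rpow_natCast, hM, mul_left_comm, ← mul_pow]
        ring
    _ ≤ n * Real.exp (l / 4) := by
        gcongr
        have hlogM : Real.log M ≤ 9008 * Real.log l := by
          have : M ≤ l ^ 9008 := by
            calc M ≤ l * l ^ 9000 * l ^ 7 := by rw [hM]; gcongr
              _ = l ^ 9008 := by ring
          calc Real.log M ≤ Real.log (l ^ 9008) := Real.log_le_log (by linarith) this
            _ = _ := by rw [Real.log_pow]; norm_num
        rw [Real.rpow_def_of_pos (by linarith), Real.exp_le_exp]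
        calc Real.log M * (V0 : ℝ) ≤ 9008 * Real.log l * ((2 * K + 5) * Real.log l) := by
              gcongr
          _ ≤ C * Real.log l ^ 2 := by
              rw [hC]; nlinarith [sq_nonneg (Real.log l)]
          _ ≤ l / 4 := hl1
    _ = (n : ℝ) ^ (5 / 4 : ℝ) := by
        rw [Real.rpow_def_of_pos (by linarith) (5 / 4 : ℝ), ← hl,
          show l * (5 / 4) = l + l / 4 by ring, Real.exp_add, hl, Real.exp_log (by linarith)]

end

end Vale.Agent.P046.Full
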