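import Vale.Agent.P046.Full.Stage.Defs

/-!
# Counting in the triangle removal step
-/

namespace Vale.Agent.P046.Full.Stage

open Finset

noncomputable section

variable {n : ℕ} {G : Finset (Finset (Fin n))}

lemma rmTri_sub (T : Finset (Fin n)) : rmTri G T ⊆ G := sdiff_subset

lemma mem_rmTri {T : Finset (Fin n)} {e : Finset (Fin n)} (hG : G ⊆ completeEdges n) :
    e ∈ rmTri G T ↔ e ∈ G ∧ ¬ e ⊆ T := by
  unfold rmTri
  rw [mem_sdiff]
  exact and_congr_right fun he => by simp [mem_powersetCard, card_edge hG he]

lemma card_filter_tri (hG : G ⊆ completeEdges n) {e : Finset (Fin n)} (he : e ∈ G) :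
    ((triangles G).filter fun T => e ⊆ T).card = (cn G e).card := by
  obtain ⟨a, b, -, rfl⟩ := edge_eq he hG
  rw [← card_two_mem_le hG he]
  exact congrArg card (filter_congr fun T _ => by simp [insert_subset_iff])

lemma triHyper_rmTri (T : Finset (Fin n)) :
    triHyper (rmTri G T) = nextE (triHyper G) (T.powersetCard 2) := triHyper_next G T

lemma triCount_eq : triCount G = (triHyper G).card := by rw [card_triHyper]; rfl

lemma nextD_eq (D : ℝ) : nextD (triHyper G) D = stepD G D := by
  unfold nextD stepD; rw [triCount_eq]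

/-- Three times the number of triangles is the sum of the edge degrees. -/
lemma sum_deg_tri : ∑ e ∈ G, (deg (triHyper G) e : ℝ) = 3 * triCount G := by
  rw [triCount_eq]; exact_mod_cast (triHyper_lin G).sum_deg

/-- Twice the number of triangles at a vertex is the sum of the degrees of its edges. -/
lemma card_tri_vertex (hG : G ⊆ completeEdges n) (x : Fin n) :
    2 * (((triangles G).filter fun T => x ∈ T).card : ℝ)
      = ∑ e ∈ G.filter (fun e => x ∈ e), (deg (triHyper G) e : ℝ) := by
  have h1 : ∀ e ∈ G.filter (fun e => x ∈ e), (deg (triHyper G) e : ℝ)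
      = ∑ T ∈ triangles G, if e ⊆ T then (1 : ℝ) else 0 := by
    intro e he
    have := (mem_filter.1 he).1
    rw [deg_eq_card_cn hG this, ← card_filter_tri hG this, sum_boole]
  rw [sum_congr rfl h1, sum_comm]
  have h2 : ∀ T ∈ triangles G, (∑ e ∈ G.filter (fun e => x ∈ e), if e ⊆ T then (1 : ℝ) else 0)
      = if x ∈ T then 2 else 0 := by
    intro T hT
    rw [sum_boole]
    have hT3 := card_triangle hT
    by_cases hx : x ∈ T
    · rw [if_pos hx]
      have : (G.filter fun e => x ∈ e).filter (fun e => e ⊆ T)
          = (T.erase x).image fun v => ({x, v} : Finset (Fin n)) := by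
        ext f
        simp only [mem_filter, mem_image, mem_erase]
        constructor
        · rintro ⟨⟨hf, hxf⟩, hfT⟩
          obtain ⟨v, hvf, hvx⟩ := exists_mem_ne (s := f) (by rw [card_edge hG hf]; norm_num) x
          refine ⟨v, ⟨hvx, hfT hvf⟩, eq_of_subset_of_card_le (by simp [insert_subset_iff, hxf, hvf]) ?_⟩
          rw [card_edge hG hf, card_pair hvx.symm]
        · rintro ⟨v, ⟨hvx, hvT⟩, rfl⟩
          exact ⟨⟨(mem_filter.1 hT).2 (pair_mem_powerset.2 ⟨hx, hvT, hvx.symm⟩), by simp⟩,
            by simp [insert_subset_iff, hx, hvT]⟩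
      rw [this, card_image_of_injOn, card_erase_of_mem hx, hT3]
      · norm_num
      · intro v hv w hw h
        have hvx := (mem_erase.1 hv).1
        have : v ∈ ({x, w} : Finset (Fin n)) := by
          rw [← show ({x, v} : Finset (Fin n)) = {x, w} from h]; simp
        simpa [hvx] using this
    · rw [if_neg hx, filter_eq_empty_iff.2 fun f hf hfT => hx (hfT (mem_filter.1 hf).2)]
      simp
  rw [sum_congr rfl h2, ← sum_filter, sum_const, nsmul_eq_mul, mul_comm]

/-- The degree sum. -/
lemma sum_degv (hG : G ⊆ completeEdges n) : ∑ x : Fin n, (degv G x : ℝ) = 2 * G.card := by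
  have : ∑ x : Fin n, degv G x = 2 * G.card := by
    unfold degv
    simp only [card_filter]
    rw [sum_comm, sum_congr rfl (g := fun _ => 2) fun e he => ?_, sum_const, smul_eq_mul, mul_comm]
    rw [← card_filter, filter_univ_mem, card_edge hG he]
  exact_mod_cast this

end

end Vale.Agent.P046.Full.Stage
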