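import Vale.Agent.P046.Full.Stage.Tri

/-!
One step of the concentration of common neighbourhoods of three vertices.
-/

namespace Vale.Agent.P046.Full

open Finset

noncomputable section

variable {n : ℕ} {G : Finset (Finset (Fin n))}

/-- The predicted number of common neighbours of three vertices at reference degree `D`. -/
def tripleRef (n : ℕ) (D : ℝ) : ℝ := D * √(D / n)

/-- Normalised deviation of the number of common neighbours of `S`. -/
def tripleDev (G : Finset (Finset (Fin n))) (D : ℝ) (S : Finset (Fin n)) : ℝ :=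
  (((cn G S).card : ℝ) - tripleRef n D) / (√(tripleRef n D) + 1)

lemma tripleRef_nonneg (n : ℕ) {D : ℝ} (hD : 0 ≤ D) : 0 ≤ tripleRef n D := by
  unfold tripleRef; positivity

lemma tripleRef_le (n : ℕ) {D : ℝ} (hD : 0 ≤ D) (hn : D ≤ n) : tripleRef n D ≤ D := by
  unfold tripleRef
  refine mul_le_of_le_one_right hD ?_
  rw [Real.sqrt_le_one]
  exact div_le_one_of_le₀ hn (Nat.cast_nonneg n)

lemma tripleRef_next (n : ℕ) (D : ℝ) {a : ℝ} (ha : 0 ≤ a) :
    tripleRef n (D / (1 + a)) = tripleRef n D / ((1 + a) * √(1 + a)) := by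
  unfold tripleRef
  rw [div_right_comm D (1 + a) (n : ℝ), Real.sqrt_div' _ (by linarith : (0:ℝ) ≤ 1 + a),
    div_mul_div_comm]

lemma shrink_bounds {a : ℝ} (ha : 0 ≤ a) (ha1 : a ≤ 1 / 2) :
    1 - 3 / 2 * a ≤ 1 / ((1 + a) * √(1 + a)) ∧
    1 / ((1 + a) * √(1 + a)) ≤ 1 - 3 / 2 * a + 4 * a ^ 2 := by
  have hs0 : (0:ℝ) < √(1 + a) := Real.sqrt_pos.2 (by linarith)
  have u1 : √(1 + a) ≤ 1 + a / 2 := by
    rw [Real.sqrt_le_left (by linarith)]; nlinarith
  have u2 : 1 + a / 2 - a ^ 2 / 8 ≤ √(1 + a) := by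
    refine Real.le_sqrt_of_sq_le ?_
    nlinarith [pow_nonneg ha 3, pow_nonneg ha 4]
  constructor
  · rw [le_div_iff₀ (by positivity)]
    have h1 : 0 ≤ 1 - 3 / 2 * a := by linarith
    have h2 := mul_le_mul_of_nonneg_left u1 (by positivity : 0 ≤ (1 - 3 / 2 * a) * (1 + a))
    nlinarith [pow_nonneg ha 3]
  · rw [div_le_iff₀ (by positivity)]
    have h1 : 0 ≤ 1 - 3 / 2 * a + 4 * a ^ 2 := by nlinarith
    have h2 := mul_le_mul_of_nonneg_left u2
      (by positivity : 0 ≤ (1 - 3 / 2 * a + 4 * a ^ 2) * (1 + a))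
    have h3 : a ^ 3 ≤ a ^ 2 / 2 := by nlinarith
    have h4 : a ^ 4 ≤ a ^ 2 / 4 := by nlinarith
    nlinarith [pow_nonneg ha 3, pow_nonneg ha 4, pow_nonneg ha 5]

/-- The scalar facts of one triple step. -/
lemma triple_scalar {N P a B : ℝ} (hN : 0 ≤ N) (hP : 0 ≤ P) (ha : 0 ≤ a) (ha1 : a ≤ 1 / 4)
    (hB : 0 ≤ B) (hNle : N ≤ P + B * (√P + 1)) (haNP : a * (N + P) ≤ 1 / 4) :
    let P' := P / ((1 + a) * √(1 + a))
    let δ := P * (1 - 3 / 2 * a) - P'
    let ρ := (√P + 1) / (√P' + 1)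
    |δ| ≤ 4 * a ^ 2 * P ∧ 3 / 4 * a ≤ 1 - ρ * (1 - 3 / 2 * a) ∧
      1 - ρ * (1 - 3 / 2 * a) ≤ 3 / 2 * a ∧
      0 ≤ ρ ∧ ρ / (√P + 1) ≤ 2 / (√P + 1) ∧ N / (√P + 1) ≤ √P + B ∧
      P / (√P + 1) ≤ √P ∧ (N + P) / (√P + 1) ^ 2 ≤ 2 + B ∧
      ∀ l : ℝ, 0 ≤ l → l ≤ 3 →
        |ρ / (√P + 1) * (3 / 2 * a * N - l + δ)| ≤ 8 ∧
        (ρ / (√P + 1) * (3 / 2 * a * N - l + δ)) ^ 2
          ≤ 4 / (√P + 1) ^ 2 * (6 * l + 8 * a * (N + P)) := by
  intro P' δ ρ
  obtain ⟨sb1, sb2⟩ := shrink_bounds ha (by linarith)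
  have hP'1 : P * (1 - 3 / 2 * a) ≤ P' := by
    simp only [P']; rw [← mul_one_div P]; exact mul_le_mul_of_nonneg_left sb1 hP
  have hP'2 : P' ≤ P * (1 - 3 / 2 * a + 4 * a ^ 2) := by
    simp only [P']; rw [← mul_one_div P]; exact mul_le_mul_of_nonneg_left sb2 hP
  have hP'0 : 0 ≤ P' := by simp only [P']; positivity
  have hδ : |δ| ≤ 4 * a ^ 2 * P := by
    have : 0 ≤ 4 * a ^ 2 * P := by positivity
    simp only [δ]
    rw [abs_le]; constructor <;> linarith
  have hq := Real.mul_self_sqrt hP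
  have hr := Real.sqrt_nonneg P
  have hr' := Real.sqrt_nonneg P'
  have hs : 1 ≤ √P + 1 := by linarith
  have hs0 : 0 < √P + 1 := by linarith
  have hs'0 : 0 < √P' + 1 := by linarith
  have hρ0 : 0 ≤ ρ := by simp only [ρ]; positivity
  have hρ2 : ρ ≤ 1 + 3 / 4 * a := by
    simp only [ρ]
    rw [div_le_iff₀ hs'0]
    have h1 : √P ≤ (1 + 3 / 4 * a) * √P' := by
      rw [Real.sqrt_le_iff]
      refine ⟨by positivity, ?_⟩
      rw [mul_pow, Real.sq_sqrt hP'0]
      simp only [P']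
      rw [mul_div_assoc', le_div_iff₀ (by positivity)]
      have u1 : √(1 + a) ≤ 1 + a / 2 := by
        rw [Real.sqrt_le_left (by linarith)]; nlinarith
      have h3 := mul_le_mul_of_nonneg_left u1 (by linarith : (0:ℝ) ≤ 1 + a)
      have h2 : (1 + a) * √(1 + a) ≤ (1 + 3 / 4 * a) ^ 2 := by nlinarith [sq_nonneg a]
      linarith [mul_le_mul_of_nonneg_left h2 hP]
    linarith [mul_nonneg ha (show (0:ℝ) ≤ 1 by norm_num)]
  have hd : ρ / (√P + 1) ≤ 2 / (√P + 1) := div_le_div_of_nonneg_right (by linarith) hs0.le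
  have hρ1 : 1 ≤ ρ := by
    simp only [ρ]
    rw [one_le_div hs'0]
    have h1 : P' ≤ P := by
      simp only [P']
      exact div_le_self hP (one_le_mul_of_one_le_of_one_le (by linarith)
        (Real.one_le_sqrt.2 (by linarith)))
    linarith [Real.sqrt_le_sqrt h1]
  refine ⟨hδ, ?_, ?_, hρ0, hd, ?_, ?_, ?_, ?_⟩
  · have h1 : ρ * (1 - 3 / 2 * a) ≤ (1 + 3 / 4 * a) * (1 - 3 / 2 * a) :=
      mul_le_mul_of_nonneg_right hρ2 (by linarith)
    nlinarith [sq_nonneg a]
  · have : 1 * (1 - 3 / 2 * a) ≤ ρ * (1 - 3 / 2 * a) :=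
      mul_le_mul_of_nonneg_right hρ1 (by linarith)
    linarith
  · rw [div_le_iff₀ hs0]; nlinarith
  · rw [div_le_iff₀ hs0]; nlinarith
  · rw [div_le_iff₀ (by positivity)]
    have h2 : B * (√P + 1) ≤ B * (√P + 1) ^ 2 :=
      mul_le_mul_of_nonneg_left (by nlinarith) hB
    nlinarith
  · intro l hl0 hl3
    have hr1 : |3 / 2 * a * N + δ| ≤ 2 * a * (N + P) := by
      obtain ⟨d1, d2⟩ := abs_le.1 hδ
      have h0 := mul_le_mul_of_nonneg_right ha1 (mul_nonneg ha hP)
      have h4 : 0 ≤ a * N := by positivity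
      have h5 : 0 ≤ a * P := by positivity
      have h3 : 4 * a ^ 2 * P ≤ a * P := by linarith
      rw [abs_le]; constructor <;> linarith
    obtain ⟨r1, r2⟩ := abs_le.1 hr1
    constructor
    · rw [abs_mul, abs_of_nonneg (by positivity)]
      have h1 : ρ / (√P + 1) ≤ 2 := hd.trans (div_le_self (by norm_num) hs)
      calc ρ / (√P + 1) * |3 / 2 * a * N - l + δ| ≤ 2 * 4 := by
            refine mul_le_mul h1 ?_ (abs_nonneg _) (by norm_num)
            rw [abs_le]; constructor <;> linarith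
        _ = 8 := by norm_num
    · rw [mul_pow, show 3 / 2 * a * N - l + δ = (3 / 2 * a * N + δ) - l by ring]
      refine mul_le_mul ?_ ?_ (sq_nonneg _) (by positivity)
      · calc (ρ / (√P + 1)) ^ 2 ≤ (2 / (√P + 1)) ^ 2 := pow_le_pow_left₀ (by positivity) hd 2
          _ = _ := by rw [div_pow]; norm_num
      · have h6 : (3 / 2 * a * N + δ) ^ 2 ≤ (2 * a * (N + P)) ^ 2 := sq_le_sq' r1 r2
        have h7 := mul_le_mul_of_nonneg_right haNP
          (by positivity : (0:ℝ) ≤ a * (N + P))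
        have h8 : l ^ 2 ≤ 3 * l := by
          rw [sq]; exact mul_le_mul_of_nonneg_right hl3 hl0
        have h9 : 0 ≤ a * (N + P) := by positivity
        linarith [sq_nonneg ((3 / 2 * a * N + δ) + l)]

/-- One step of a triple coordinate: contraction at rate at least `3/4 · 2D/Q`, small drift,
bounded jumps of small variance. -/
theorem tripleDev_step (hG : G ⊆ completeEdges n) {S : Finset (Fin n)} (hS : S.card = 3)
    {D μ B : ℝ} (hD : 1 ≤ D) (hn : D ≤ n) (hμ0 : 0 ≤ μ) (hμ : μ ≤ 1)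
    (hdev : ∀ e ∈ G, |dev (triHyper G) D e| ≤ μ)
    (hX : |tripleDev G D S| ≤ B)
    (hbig : 16 * D * (D + B * (√D + 1)) ≤ (triHyper G).card) :
    ∃ c : ℝ, 3 / 2 * D / (triHyper G).card ≤ c ∧ c ≤ 3 * D / (triHyper G).card ∧ ∃ J : Finset (Fin n) → ℝ,
      (∀ U ∈ triangles G,
        tripleDev (G \ U.powersetCard 2) (nextD (triHyper G) D) S
            = (1 - c) * tripleDev G D S + J U ∧
        |J U| ≤ 8) ∧
      |∑ U ∈ triangles G, J U|
        ≤ D * (2 * ((√(tripleRef n D) + B) * (3 * μ + 4 / D)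
            + 8 * (2 * D / (triHyper G).card) * √(tripleRef n D))) ∧
      ∑ U ∈ triangles G, J U ^ 2 ≤ D * (400 * (2 + B)) := by
  have hD0 : (0:ℝ) < D := by linarith
  have hB : 0 ≤ B := (abs_nonneg _).trans hX
  set P := tripleRef n D with hPdef
  have hP0 : 0 ≤ P := tripleRef_nonneg n hD0.le
  have hPD : P ≤ D := tripleRef_le n hD0.le hn
  set N : ℝ := ((cn G S).card : ℝ) with hNdef
  have hN0 : 0 ≤ N := Nat.cast_nonneg _
  set s := √P + 1 with hsdef
  have hs : 1 ≤ s := le_add_of_nonneg_left (Real.sqrt_nonneg _)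
  have hs0 : 0 < s := by linarith
  have hsP : √P ≤ s := by linarith
  have hP2 : √P * √P = P := Real.mul_self_sqrt hP0
  have hNle : N ≤ P + B * s := by
    have h1 := (abs_le.1 hX).2
    unfold tripleDev at h1
    rw [← hPdef, ← hNdef, ← hsdef, div_le_iff₀ hs0] at h1
    linarith
  set Q : ℝ := ((triHyper G).card : ℝ) with hQdef
  have hQtri : ((triangles G).card : ℝ) = Q := by rw [hQdef, card_triHyper]
  have hBD : 0 ≤ B * (√D + 1) := by positivity
  have hQ0 : 0 < Q := by nlinarith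
  set a := 2 * D / Q with hadef
  have ha : 0 ≤ a := by positivity
  have haQ : a * Q = 2 * D := by rw [hadef]; field_simp
  have haNP : a * (N + P) ≤ 1 / 4 := by
    rw [hadef, div_mul_eq_mul_div, div_le_iff₀ hQ0]
    have : s ≤ √D + 1 := by rw [hsdef]; gcongr
    have h1 : B * s ≤ B * (√D + 1) := mul_le_mul_of_nonneg_left this hB
    have h2 : N + P ≤ 2 * (D + B * (√D + 1)) := by linarith
    have := mul_le_mul_of_nonneg_left h2 (by linarith : (0:ℝ) ≤ 2 * D)
    linarith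
  have ha1 : a ≤ 1 / 4 := by
    rw [hadef, div_le_iff₀ hQ0]; nlinarith
  have hnD : nextD (triHyper G) D = D / (1 + a) := rfl
  have hP'e : tripleRef n (D / (1 + a)) = P / ((1 + a) * √(1 + a)) :=
    tripleRef_next n D ha
  obtain ⟨hδ, hc1, hc2, hρ0, hρs, hNs, hPs, hNP, hlim⟩ :=
    triple_scalar hN0 hP0 ha ha1 hB (by rw [← hsdef]; exact hNle) haNP
  set P' := P / ((1 + a) * √(1 + a)) with hP'def
  set δ := P * (1 - 3 / 2 * a) - P' with hδdef
  set ρ := (√P + 1) / (√P' + 1) with hρdef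
  rw [← hsdef] at hρs hNs hPs hNP hlim
  set lv : Finset (Fin n) → ℝ := fun U =>
    (((cn G S).filter fun z => z ∈ U ∧ ∃ v ∈ S, v ∈ U).card : ℝ) with hlv
  have hlv3 : ∀ U ∈ triangles G, lv U ≤ 3 := by
    intro U hU
    have : ((cn G S).filter fun z => z ∈ U ∧ ∃ v ∈ S, v ∈ U).card ≤ U.card :=
      card_le_card fun z hz => (mem_filter.1 hz).2.1
    rw [card_triangle hU] at this
    simp only [hlv]; exact_mod_cast this
  have hlv0 : ∀ U, 0 ≤ lv U := fun U => Nat.cast_nonneg _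
  refine ⟨1 - ρ * (1 - 3 / 2 * a), le_of_eq_of_le (by rw [hadef]; ring) hc1,
    hc2.trans (le_of_eq (by rw [hadef]; ring)),
    fun U => ρ / s * (3 / 2 * a * N - lv U + δ), fun U hU => ?_, ?_, ?_⟩
  · refine ⟨?_, (hlim _ (hlv0 U) (hlv3 U hU)).1⟩
    have hN' : ((cn (G \ U.powersetCard 2) S).card : ℝ) = N - lv U := by
      have h := card_filter_add_card_filter_not (s := cn G S)
        (fun z => z ∈ U ∧ ∃ v ∈ S, v ∈ U)
      rw [← cn_next (U := U) (S := S) hG] at h
      have h' : lv U + ((cn (G \ U.powersetCard 2) S).card : ℝ) = N := by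
        simp only [hlv, hNdef]; exact_mod_cast h
      linarith
    have hs'0 : 0 < √P' + 1 := by positivity
    unfold tripleDev
    rw [hnD, hP'e, hN', ← hPdef, ← hNdef, hρdef, hδdef, hsdef]
    field_simp
    ring
  · obtain ⟨su, sl⟩ := sum_leave hG S
    have hY : |(∑ z ∈ cn G S, ∑ v ∈ S, ((cn G {v, z}).card : ℝ)) - 3 * D * N|
        ≤ 3 * D * μ * N := by
      have key : ∀ z ∈ cn G S, |(∑ v ∈ S, ((cn G {v, z}).card : ℝ)) - 3 * D| ≤ 3 * D * μ := by
        intro z hz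
        have : (∑ v ∈ S, ((cn G {v, z}).card : ℝ)) - 3 * D
            = ∑ v ∈ S, D * dev (triHyper G) D {v, z} := by
          rw [show 3 * D = ∑ _v ∈ S, D by rw [sum_const, hS, nsmul_eq_mul]; norm_num,
            ← sum_sub_distrib]
          refine sum_congr rfl fun v hv => ?_
          rw [dev, deg_eq_card_cn hG (mem_cn.1 hz v hv)]; field_simp
        rw [this]
        refine (abs_sum_le_sum_abs _ _).trans ?_
        calc ∑ v ∈ S, |D * dev (triHyper G) D {v, z}| ≤ ∑ _v ∈ S, D * μ := by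
              refine sum_le_sum fun v hv => ?_
              rw [abs_mul, abs_of_pos hD0]
              exact mul_le_mul_of_nonneg_left (hdev _ (mem_cn.1 hz v hv)) hD0.le
          _ = 3 * D * μ := by rw [sum_const, hS, nsmul_eq_mul]; push_cast; ring
      calc |(∑ z ∈ cn G S, ∑ v ∈ S, ((cn G {v, z}).card : ℝ)) - 3 * D * N|
          = |∑ z ∈ cn G S, ((∑ v ∈ S, ((cn G {v, z}).card : ℝ)) - 3 * D)| := by
            rw [sum_sub_distrib _ (fun _ => 3 * D), sum_const, nsmul_eq_mul, hNdef]; ring_nf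
        _ ≤ ∑ _z ∈ cn G S, 3 * D * μ := (abs_sum_le_sum_abs _ _).trans (sum_le_sum key)
        _ = _ := by rw [sum_const, nsmul_eq_mul, hNdef]; ring
    rw [hS, show (3 + 1 : ℕ).choose 3 = 4 by decide] at sl
    push_cast at sl
    have hsum : ∑ U ∈ triangles G, ρ / s * (3 / 2 * a * N - lv U + δ)
        = ρ / s * (3 * D * N - ∑ U ∈ triangles G, lv U + Q * δ) := by
      rw [← mul_sum, sum_add_distrib, sum_sub_distrib, sum_const, sum_const, nsmul_eq_mul,
        nsmul_eq_mul, hQtri]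
      congr 1
      linear_combination (3 / 2 * N) * haQ
    rw [hsum, abs_mul, abs_of_nonneg (by positivity)]
    have hQδ : |Q * δ| ≤ 8 * D * a * P := by
      rw [abs_mul, abs_of_pos hQ0]
      calc Q * |δ| ≤ Q * (4 * a ^ 2 * P) := mul_le_mul_of_nonneg_left hδ hQ0.le
        _ = 4 * a * P * (a * Q) := by ring
        _ = _ := by rw [haQ]; ring
    have hin : |3 * D * N - ∑ U ∈ triangles G, lv U + Q * δ|
        ≤ 3 * D * μ * N + 4 * N + 8 * D * a * P := by
      obtain ⟨y1, y2⟩ := abs_le.1 hY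
      obtain ⟨q1, q2⟩ := abs_le.1 hQδ
      rw [abs_le]; constructor <;> linarith
    calc ρ / s * |3 * D * N - ∑ U ∈ triangles G, lv U + Q * δ|
        ≤ 2 / s * (3 * D * μ * N + 4 * N + 8 * D * a * P) :=
          mul_le_mul hρs hin (abs_nonneg _) (by positivity)
      _ = D * (2 * (N / s * (3 * μ + 4 / D) + 8 * a * (P / s))) := by
          have h4 : D * (4 / D) = 4 := by field_simp
          calc 2 / s * (3 * D * μ * N + 4 * N + 8 * D * a * P)
              = 2 / s * (3 * D * μ * N + D * (4 / D) * N + 8 * D * a * P) := by rw [h4]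
            _ = _ := by ring
      _ ≤ D * (2 * ((√P + B) * (3 * μ + 4 / D) + 8 * a * √P)) := by
          refine mul_le_mul_of_nonneg_left (mul_le_mul_of_nonneg_left (add_le_add ?_ ?_) zero_le_two)
            hD0.le
          · exact mul_le_mul_of_nonneg_right hNs (by positivity)
          · exact mul_le_mul_of_nonneg_left hPs (by positivity)
  · obtain ⟨su, -⟩ := sum_leave hG S
    have hY2 : ∑ U ∈ triangles G, lv U ≤ 6 * D * N := by
      refine su.trans ?_
      calc ∑ z ∈ cn G S, ∑ v ∈ S, ((cn G {v, z}).card : ℝ) ≤ ∑ _z ∈ cn G S, 6 * D := by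
            refine sum_le_sum fun z hz => ?_
            calc ∑ v ∈ S, ((cn G {v, z}).card : ℝ) ≤ ∑ _v ∈ S, 2 * D := by
                  refine sum_le_sum fun v hv => ?_
                  have h1 := (abs_le.1 (hdev _ (mem_cn.1 hz v hv))).2
                  rw [dev, deg_eq_card_cn hG (mem_cn.1 hz v hv), sub_le_iff_le_add,
                    div_le_iff₀ hD0] at h1
                  have := mul_le_mul_of_nonneg_right hμ hD0.le
                  linarith
              _ = 6 * D := by rw [sum_const, hS, nsmul_eq_mul]; push_cast; ring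
        _ = 6 * D * N := by rw [sum_const, nsmul_eq_mul, hNdef]; ring
    calc ∑ U ∈ triangles G, (ρ / s * (3 / 2 * a * N - lv U + δ)) ^ 2
        ≤ ∑ U ∈ triangles G, 4 / s ^ 2 * (6 * lv U + 8 * a * (N + P)) := sum_le_sum fun U hU => (hlim _ (hlv0 U) (hlv3 U hU)).2
      _ = 4 / s ^ 2 * (6 * (∑ U ∈ triangles G, lv U) + 8 * (a * Q) * (N + P)) := by
          rw [← mul_sum, sum_add_distrib, ← mul_sum, sum_const, nsmul_eq_mul, hQtri]; ring
      _ ≤ 4 / s ^ 2 * (6 * (6 * D * N) + 8 * (2 * D) * (N + P)) := by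
          rw [haQ]
          exact mul_le_mul_of_nonneg_left (by linarith) (by positivity)
      _ ≤ 4 / s ^ 2 * (100 * D * (N + P)) :=
          mul_le_mul_of_nonneg_left
            (by linarith [mul_nonneg hD0.le hN0, mul_nonneg hD0.le hP0]) (by positivity)
      _ = D * (400 * ((N + P) / s ^ 2)) := by ring
      _ ≤ D * (400 * (2 + B)) :=
          mul_le_mul_of_nonneg_left (mul_le_mul_of_nonneg_left hNP (by norm_num)) hD0.le

end

end Vale.Agent.P046.Full
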