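import Vale.Agent.P046.Full.Defs
import Vale.Agent.P046.Full.Stage.Triple

/-!
# The self-correcting stage: coordinates, potentials, and the interface of its parts

A state is an edge set `G`, a reference degree `D` and an adapted correction `b` on vertices.
Time is measured by `clock`, half the logarithmic decrease of `D`, so that one step advances it by
exactly `hStep`.
-/

namespace Vale.Agent.P046.Full.Stage

open Finset

noncomputable section

variable {n : ℕ}

/-- `log n`. -/
def ell (n : ℕ) : ℝ := Real.log n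

/-- `n` is large. -/
def Big (n : ℕ) : Prop := (1000000 : ℝ) ≤ ell n

/-- The graph after removing the triangle `T`. -/
def rmTri (G : Finset (Finset (Fin n))) (T : Finset (Fin n)) : Finset (Finset (Fin n)) :=
  G \ T.powersetCard 2

/-- The number of triangles. -/
def triCount (G : Finset (Finset (Fin n))) : ℝ := (triangles G).card

/-- The reference degree after one step. -/
def stepD (G : Finset (Finset (Fin n))) (D : ℝ) : ℝ := D / (1 + 2 * D / triCount G)

/-- The advance of the clock in one step. -/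
def hStep (G : Finset (Finset (Fin n))) (D : ℝ) : ℝ := Real.log (1 + 2 * D / triCount G) / 2

/-- The clock. -/
def clock (n : ℕ) (D : ℝ) : ℝ := Real.log (((n : ℝ) - 2) / D) / 2

/-- The probability that the vertex `x` lies in the chosen triangle. -/
def hitProb (G : Finset (Finset (Fin n))) (x : Fin n) : ℝ :=
  ((triangles G).filter fun T => x ∈ T).card / triCount G

/-- The correction after removing `T`. -/
def stepb (G : Finset (Finset (Fin n))) (D : ℝ) (b : Fin n → ℝ) (T : Finset (Fin n))
    (x : Fin n) : ℝ :=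
  Real.exp (-hStep G D) * b x
    - 2 / √((n : ℝ) * D) * ((if x ∈ T then 1 else 0) - hitProb G x)

/-- Degree of a vertex. -/
def degv (G : Finset (Finset (Fin n))) (x : Fin n) : ℕ := (G.filter fun e => x ∈ e).card

/-- Scaled deviation of a vertex degree. -/
def xZ (G : Finset (Finset (Fin n))) (D : ℝ) (x : Fin n) : ℝ :=
  √D * ((degv G x : ℝ) / √((n : ℝ) * D) - 1)

/-- Scaled correction. -/
def xb (D : ℝ) (b : Fin n → ℝ) (x : Fin n) : ℝ := √(√((n : ℝ) * D)) * b x

/-- Scaled deviation of an edge degree. -/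
def xU (G : Finset (Finset (Fin n))) (D : ℝ) (e : Finset (Fin n)) : ℝ :=
  √D * dev (triHyper G) D e

/-- Sum of the corrections over the common neighbours of an edge. -/
def xB (G : Finset (Finset (Fin n))) (b : Fin n → ℝ) (e : Finset (Fin n)) : ℝ :=
  ∑ z ∈ cn G e, b z

/-- Scaled deviation of a common neighbourhood of three vertices. -/
def xN (G : Finset (Finset (Fin n))) (D : ℝ) (t : Fin n × Fin n × Fin n) : ℝ :=
  tripleDev G D {t.1, t.2.1, t.2.2}

/-- Scaled corrected neighbour deviation of an edge. -/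
def xR (G : Finset (Finset (Fin n))) (D : ℝ) (b : Fin n → ℝ) (e : Finset (Fin n)) : ℝ :=
  D * (nbrDev (triHyper G) D e - ∑ v ∈ e, b v)

/-- All triples of distinct vertices. -/
def tri3 (n : ℕ) : Finset (Fin n × Fin n × Fin n) :=
  univ.filter fun t => t.1 ≠ t.2.1 ∧ t.1 ≠ t.2.2 ∧ t.2.1 ≠ t.2.2

/-- Threshold for `xR`. -/
def thR (n : ℕ) (D : ℝ) : ℝ := ell n ^ 17 * (1 + clock n D)

/-- Two sided exponential potential. -/
def pot2 (lam th X : ℝ) : ℝ := Real.exp (lam * (X - th)) + Real.exp (lam * (-X - th))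

/-- Potential with a constant threshold `(log n)^p`. -/
def potC (n p : ℕ) (X : ℝ) : ℝ := pot2 (2 * ell n ^ 2 / ell n ^ p) (ell n ^ p) X

def potZ (G : Finset (Finset (Fin n))) (D : ℝ) : ℝ := ∑ x : Fin n, potC n 8 (xZ G D x)

def potb (D : ℝ) (b : Fin n → ℝ) : ℝ := ∑ x : Fin n, potC n 5 (xb D b x)

def potU (G : Finset (Finset (Fin n))) (D : ℝ) : ℝ := ∑ e ∈ G, potC n 6 (xU G D e)

def potB (G : Finset (Finset (Fin n))) (b : Fin n → ℝ) : ℝ := ∑ e ∈ G, potC n 13 (xB G b e)

def potN (G : Finset (Finset (Fin n))) (D : ℝ) : ℝ := ∑ t ∈ tri3 n, potC n 12 (xN G D t)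

def potR (G : Finset (Finset (Fin n))) (D : ℝ) (b : Fin n → ℝ) : ℝ :=
  ∑ e ∈ G, pot2 (4 * ell n ^ 2 / ell n ^ 17) (thR n D) (xR G D b e)

/-- The states in which every coordinate is under control. -/
structure Good (n : ℕ) (G : Finset (Finset (Fin n))) (D : ℝ) (b : Fin n → ℝ) : Prop where
  sub : G ⊆ completeEdges n
  D_lo : ell n ^ 9000 / 3 ≤ D
  D_hi : D ≤ (n : ℝ) - 2
  z_le : ∀ x, |xZ G D x| ≤ ell n ^ 8
  b_le : ∀ x, |xb D b x| ≤ ell n ^ 5
  u_le : ∀ e ∈ G, |xU G D e| ≤ ell n ^ 6
  B_le : ∀ e ∈ G, |xB G b e| ≤ ell n ^ 13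
  N_le : ∀ t ∈ tri3 n, |xN G D t| ≤ ell n ^ 12
  R_le : ∀ e ∈ G, |xR G D b e| ≤ thR n D

/-- The growth of any potential per unit of time. -/
def err (n : ℕ) : ℝ := (n : ℝ) ^ 4 * Real.exp (-(ell n ^ 2))

/-- The potential `F` grows at rate at most `err` in good states. -/
def StepOK (n : ℕ) (F : Finset (Finset (Fin n)) → ℝ → (Fin n → ℝ) → ℝ) : Prop :=
  ∀ G D b, Good n G D b →
    ∑ T ∈ triangles G, F (rmTri G T) (stepD G D) (stepb G D b T)
      ≤ triCount G * (F G D b + err n * hStep G D)

def StepZ : Prop := ∀ n, Big n → StepOK n fun G D _ => potZ G D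

def Stepb : Prop := ∀ n, Big n → StepOK n fun _ D b => potb D b

def StepU : Prop := ∀ n, Big n → StepOK n fun G D _ => potU G D

def StepB : Prop := ∀ n, Big n → StepOK n fun G _ b => potB G b

def StepN : Prop := ∀ n, Big n → StepOK n fun G D _ => potN G D

def StepR : Prop := ∀ n, Big n → StepOK n fun G D b => potR G D b

end

end Vale.Agent.P046.Full.Stage
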