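import Vale.Agent.P046.Full.Stage.Defs

/-!
# One step of an exponential potential

All families are handled by the lemmas below: a coordinate moves from `X` to `X + Δ i` with
outcome `i` in the set `S` of outcomes in which it survives, out of `Q` equally likely outcomes.
-/

namespace Vale.Agent.P046.Full.Stage

open Finset

noncomputable section

variable {ι : Type*}

/-- Moving threshold: the exponential at `X - th` grows by at most an exponentially small amount
if the drift `F` plus the noise `lam * s2` is at most the motion of the threshold whenever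
`X > th - T`. -/
lemma exp_step (S : Finset ι) (Δ : ι → ℝ) {lam X th th' T h Q F s2 C : ℝ}
    (hlam : 0 ≤ lam) (hQ : 0 ≤ Q) (hS : (S.card : ℝ) ≤ Q) (hh : 0 ≤ h) (hC : 0 ≤ C)
    (hjump : ∀ i ∈ S, |lam * Δ i| ≤ 1)
    (hmean : ∑ i ∈ S, Δ i ≤ Q * (h * F)) (hvar : ∑ i ∈ S, Δ i ^ 2 ≤ Q * (h * s2))
    (hthr : th ≤ th') (hnear : th - T < X → h * (F + lam * s2) ≤ th' - th)
    (hfar : F + lam * s2 ≤ C) (hsmall : lam * (h * C) ≤ 1) :
    ∑ i ∈ S, Real.exp (lam * (X + Δ i - th'))
      ≤ Q * (Real.exp (lam * (X - th)) + h * (2 * lam * C * Real.exp (-(lam * T)))) := by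
  set δ := th' - th with hδ
  have hd : 0 ≤ δ := sub_nonneg.2 hthr
  set μ := lam * (h * (F + lam * s2)) with hμ
  have hterm : ∀ i ∈ S, Real.exp (lam * (X + Δ i - th'))
      ≤ Real.exp (lam * (X - th)) * Real.exp (-(lam * δ))
        * (1 + lam * Δ i + lam ^ 2 * Δ i ^ 2) := by
    intro i hi
    rw [show lam * (X + Δ i - th') = lam * (X - th) + -(lam * δ) + lam * Δ i by rw [hδ]; ring,
      Real.exp_add, Real.exp_add]
    refine mul_le_mul_of_nonneg_left ?_ (by positivity)
    have := (abs_le.1 (Real.abs_exp_sub_one_sub_id_le (hjump i hi))).2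
    nlinarith
  have hsum : ∑ i ∈ S, (1 + lam * Δ i + lam ^ 2 * Δ i ^ 2) ≤ Q * Real.exp μ := by
    rw [sum_add_distrib, sum_add_distrib, sum_const, nsmul_eq_mul, mul_one, ← mul_sum, ← mul_sum]
    have h1 := mul_le_mul_of_nonneg_left hmean hlam
    have h2 := mul_le_mul_of_nonneg_left hvar (sq_nonneg lam)
    have h3 := mul_le_mul_of_nonneg_left (Real.add_one_le_exp μ) hQ
    have e : Q * (μ + 1) = lam * (Q * (h * F)) + lam ^ 2 * (Q * (h * s2)) + Q := by rw [hμ]; ring
    linarith
  have hpos : 0 ≤ Real.exp (lam * (X - th)) * Real.exp (-(lam * δ)) := by positivity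
  calc ∑ i ∈ S, Real.exp (lam * (X + Δ i - th'))
      ≤ ∑ i ∈ S, Real.exp (lam * (X - th)) * Real.exp (-(lam * δ))
          * (1 + lam * Δ i + lam ^ 2 * Δ i ^ 2) := sum_le_sum hterm
    _ ≤ Real.exp (lam * (X - th)) * Real.exp (-(lam * δ)) * (Q * Real.exp μ) := by
        rw [← mul_sum]; exact mul_le_mul_of_nonneg_left hsum hpos
    _ = Q * (Real.exp (lam * (X - th)) * Real.exp (μ - lam * δ)) := by
        rw [show μ - lam * δ = -(lam * δ) + μ by ring, Real.exp_add]; ring
    _ ≤ _ := mul_le_mul_of_nonneg_left ?_ hQ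
  have herr : 0 ≤ h * (2 * lam * C * Real.exp (-(lam * T))) := by positivity
  rcases le_or_gt X (th - T) with hX | hX
  · set t := lam * (h * C)
    have ht : 0 ≤ t := by positivity
    have hμt : μ - lam * δ ≤ t := by
      have : μ ≤ lam * (h * C) := by rw [hμ]; gcongr
      have : 0 ≤ lam * δ := by positivity
      linarith
    have he : Real.exp t ≤ 1 + 2 * t := by
      have := (abs_le.1 (Real.abs_exp_sub_one_sub_id_le (x := t)
        (by rw [abs_of_nonneg ht]; exact hsmall))).2
      nlinarith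
    have hE : Real.exp (lam * (X - th)) ≤ Real.exp (-(lam * T)) := by
      refine Real.exp_le_exp.2 ?_
      have := mul_le_mul_of_nonneg_left (show X - th ≤ -T by linarith) hlam
      linarith
    calc Real.exp (lam * (X - th)) * Real.exp (μ - lam * δ)
        ≤ Real.exp (lam * (X - th)) * (1 + 2 * t) :=
          mul_le_mul_of_nonneg_left ((Real.exp_le_exp.2 hμt).trans he) (Real.exp_pos _).le
      _ ≤ Real.exp (lam * (X - th)) + Real.exp (-(lam * T)) * (2 * t) := by
          rw [mul_add, mul_one]; gcongr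
      _ = _ := by ring
  · have : μ - lam * δ ≤ 0 := by
      have := mul_le_mul_of_nonneg_left (hnear hX) hlam
      rw [← hμ] at this; linarith
    have := mul_le_mul_of_nonneg_left (Real.exp_le_one_iff.2 this)
      (Real.exp_pos (lam * (X - th))).le
    linarith

/-- Constant threshold with mean reversion at rate `κ`, on both sides. -/
lemma pot2_step (S : Finset ι) (Δ : ι → ℝ) {lam th X h Q κ F s2 : ℝ}
    (hlam : 0 ≤ lam) (hQ : 0 ≤ Q) (hS : (S.card : ℝ) ≤ Q) (hh : 0 ≤ h) (hκ : 0 ≤ κ)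
    (hth : 0 ≤ th) (hjump : ∀ i ∈ S, |lam * Δ i| ≤ 1)
    (hup : ∑ i ∈ S, Δ i ≤ Q * (h * (-κ * X + F)))
    (hdown : -∑ i ∈ S, Δ i ≤ Q * (h * (κ * X + F)))
    (hvar : ∑ i ∈ S, Δ i ^ 2 ≤ Q * (h * s2))
    (hgap : F + lam * s2 ≤ κ * (th / 2)) (hX : |X| ≤ th)
    (hsmall : lam * (h * (2 * κ * th)) ≤ 1) :
    ∑ i ∈ S, pot2 lam th (X + Δ i)
      ≤ Q * (pot2 lam th X + h * (8 * κ * lam * th * Real.exp (-(lam * (th / 2))))) := by
  have hX' := abs_le.1 hX
  have hX1 := mul_le_mul_of_nonneg_left hX'.1 hκ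
  have hX2 := mul_le_mul_of_nonneg_left hX'.2 hκ
  have a := exp_step S Δ (th' := th) (T := th / 2) (C := 2 * κ * th) hlam hQ hS hh (by positivity)
    hjump hup hvar le_rfl (fun hn => ?_) ?_ hsmall (X := X) (th := th)
  · have b := exp_step S (fun i => -Δ i) (th' := th) (T := th / 2) (C := 2 * κ * th) (X := -X)
      (th := th) hlam hQ hS hh (by positivity) (fun i hi => by
        rw [mul_neg, abs_neg]; exact hjump i hi)
      (by rw [sum_neg_distrib]; exact hdown) (by simpa using hvar) le_rfl (fun hn => ?_) ?_ hsmall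
    · unfold pot2
      rw [sum_add_distrib]
      refine (add_le_add a (le_of_eq_of_le ?_ b)).trans (le_of_eq ?_)
      · exact sum_congr rfl fun i _ => by ring_nf
      · ring
    · have := mul_le_mul_of_nonneg_left (show th / 2 ≤ -X by linarith) hκ
      rw [sub_self]
      exact mul_nonpos_of_nonneg_of_nonpos hh (by linarith)
    · linarith [mul_nonneg hκ hth]
  · have := mul_le_mul_of_nonneg_left (show th / 2 ≤ X by linarith) hκ
    rw [sub_self]
    exact mul_nonpos_of_nonneg_of_nonpos hh (by linarith)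
  · linarith [mul_nonneg hκ hth]

/-- A potential bounds the overflow of its coordinate. -/
lemma one_le_pot2 {lam th X : ℝ} (hlam : 0 ≤ lam) (h : th ≤ |X|) : 1 ≤ pot2 lam th X := by
  unfold pot2
  rcases le_abs.1 h with h | h
  · linarith [Real.one_le_exp (mul_nonneg hlam (sub_nonneg.2 h)),
      Real.exp_pos (lam * (-X - th))]
  · linarith [Real.one_le_exp (mul_nonneg hlam (sub_nonneg.2 h)),
      Real.exp_pos (lam * (X - th))]

lemma pot2_nonneg (lam th X : ℝ) : 0 ≤ pot2 lam th X :=
  add_nonneg (Real.exp_pos _).le (Real.exp_pos _).le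

lemma pot2_le {lam th X a : ℝ} (hlam : 0 ≤ lam) (h : |X| ≤ a) :
    pot2 lam th X ≤ 2 * Real.exp (lam * (a - th)) := by
  have h1 : Real.exp (lam * (X - th)) ≤ Real.exp (lam * (a - th)) :=
    Real.exp_le_exp.2 (mul_le_mul_of_nonneg_left (by linarith [(abs_le.1 h).2]) hlam)
  have h2 : Real.exp (lam * (-X - th)) ≤ Real.exp (lam * (a - th)) :=
    Real.exp_le_exp.2 (mul_le_mul_of_nonneg_left (by linarith [(abs_le.1 h).1]) hlam)
  unfold pot2; linarith

/-- The sum over coordinates that survive, exchanged. -/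
lemma sum_survivors {β : Type*} [DecidableEq β] (A : Finset ι) (P : ι → Finset β) (U : Finset β)
    (hP : ∀ i ∈ A, P i ⊆ U) (f : ι → β → ℝ) :
    ∑ i ∈ A, ∑ e ∈ P i, f i e = ∑ e ∈ U, ∑ i ∈ A.filter (fun i => e ∈ P i), f i e := by
  simp only [sum_filter]
  rw [sum_comm]
  refine sum_congr rfl fun i hi => ?_
  rw [← sum_filter]
  refine sum_congr ?_ fun _ _ => rfl
  ext e
  simp only [mem_filter]
  exact ⟨fun h => ⟨hP i hi h, h⟩, And.right⟩

end

end Vale.Agent.P046.Full.Stage
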