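import Vale.Agent.P046.Full.Stage.Count
import Vale.Agent.P046.Full.Stage.Potential

/-!
# Numerical facts valid in every good state
-/

namespace Vale.Agent.P046.Full.Stage

open Finset

noncomputable section

variable {n : ℕ}

lemma Big.ell_ge (hn : Big n) : (1000000 : ℝ) ≤ ell n := hn

lemma Big.n_pos (hn : Big n) : (0 : ℝ) < n := by
  rcases Nat.eq_zero_or_pos n with rfl | h
  · exfalso; unfold Big ell at hn; simp at hn; linarith
  · exact_mod_cast h

lemma Big.exp_ell (hn : Big n) : Real.exp (ell n) = n := Real.exp_log hn.n_pos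

lemma Big.n_ge (hn : Big n) : (1000000 : ℝ) ≤ n := by
  rw [← hn.exp_ell]; linarith [Real.add_one_le_exp (ell n), hn.ell_ge]

lemma Big.ell_le (hn : Big n) : ell n ≤ n := by
  rw [← hn.exp_ell]; linarith [Real.add_one_le_exp (ell n)]

lemma Big.ell_sq_le (hn : Big n) : 1000 * ell n ^ 2 ≤ n := by
  rw [← hn.exp_ell]
  have h := Real.pow_div_factorial_le_exp (ell n) (by linarith [hn.ell_ge]) 3
  have : 1000 * ell n ^ 2 ≤ ell n ^ 3 / (Nat.factorial 3 : ℕ) := by
    rw [show ((Nat.factorial 3 : ℕ) : ℝ) = 6 by norm_num [Nat.factorial], le_div_iff₀ (by norm_num)]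
    have := mul_le_mul_of_nonneg_left hn.ell_ge (sq_nonneg (ell n))
    nlinarith
  linarith

lemma Big.pow_le (hn : Big n) {a b : ℕ} (h : a ≤ b) : ell n ^ a ≤ ell n ^ b :=
  pow_le_pow_right₀ (by linarith [hn.ell_ge]) h

lemma Big.pow_ge_one (hn : Big n) (a : ℕ) : 1 ≤ ell n ^ a :=
  one_le_pow₀ (by linarith [hn.ell_ge])

lemma Big.mul_pow_le (hn : Big n) {a b : ℕ} (h : a < b) {c : ℝ} (hc : c ≤ 1000000) :
    c * ell n ^ a ≤ ell n ^ b := by
  calc c * ell n ^ a ≤ ell n * ell n ^ a := by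
        have := hn.ell_ge; have := hn.pow_ge_one a; gcongr; linarith
    _ = ell n ^ (a + 1) := by ring
    _ ≤ ell n ^ b := hn.pow_le h

/-- Good states and what follows from them. -/
structure Fax (n : ℕ) (G : Finset (Finset (Fin n))) (D : ℝ) : Prop where
  D_pos : 0 < D
  sqrtD_ge : ell n ^ 4000 ≤ √D
  D_le : D ≤ n
  u_abs : ∀ e ∈ G, |dev (triHyper G) D e| ≤ ell n ^ 6 / √D
  u_half : ∀ e ∈ G, |dev (triHyper G) D e| ≤ 1 / 100
  deg_abs : ∀ x, |(degv G x : ℝ) / √((n : ℝ) * D) - 1| ≤ ell n ^ 8 / √D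
  deg_le : ∀ x, (degv G x : ℝ) ≤ 2 * √((n : ℝ) * D)
  deg_ge : ∀ x, √((n : ℝ) * D) / 2 ≤ degv G x
  m_close : |2 * (G.card : ℝ) - n * √((n : ℝ) * D)| ≤ ell n ^ 8 / √D * (n * √((n : ℝ) * D))
  Q_close : |3 * triCount G - G.card * D| ≤ ell n ^ 6 / √D * (G.card * D)
  Q_pos : 0 < triCount G
  Q_ge : (G.card : ℝ) * D / 4 ≤ triCount G
  ds_le_card : D / triCount G ≤ 12 / (n * √((n : ℝ) * D))
  ds_le_inv : D / triCount G ≤ 1 / D
  ds_le : D / triCount G ≤ 1 / 100
  hit_le : ∀ x, hitProb G x ≤ 2 * √((n : ℝ) * D) * (D / triCount G)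

lemma Good.fax {G : Finset (Finset (Fin n))} {D : ℝ} {b : Fin n → ℝ} (hn : Big n)
    (g : Good n G D b) : Fax n G D := by
  have hL := hn.ell_ge
  have hN := hn.n_ge
  have h3 : 3 * ell n ^ 8000 ≤ ell n ^ 9000 := hn.mul_pow_le (by norm_num) (by norm_num)
  have hDlo : ell n ^ 8000 ≤ D := by have := g.D_lo; linarith
  have hD : 0 < D := lt_of_lt_of_le (by positivity) hDlo
  have hsD : 0 < √D := Real.sqrt_pos.2 hD
  have hs4 : ell n ^ 4000 ≤ √D := by
    apply Real.le_sqrt_of_sq_le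
    rwa [← pow_mul]
  have hsmall : ∀ p : ℕ, p < 4000 → ell n ^ p / √D ≤ 1 / 100 := by
    intro p hp
    rw [div_le_iff₀ hsD]
    have := hn.mul_pow_le hp (c := 100) (by norm_num)
    linarith
  have hu : ∀ e ∈ G, |dev (triHyper G) D e| ≤ ell n ^ 6 / √D := by
    intro e he
    have := g.u_le e he
    rw [le_div_iff₀ hsD, mul_comm]
    rwa [xU, abs_mul, abs_of_pos hsD] at this
  have hu' : ∀ e ∈ G, |dev (triHyper G) D e| ≤ 1 / 100 := fun e he =>
    (hu e he).trans (hsmall 6 (by norm_num))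
  set d := √((n : ℝ) * D) with hd
  have hd0 : 0 < d := Real.sqrt_pos.2 (by positivity)
  have hz : ∀ x, |(degv G x : ℝ) / d - 1| ≤ ell n ^ 8 / √D := by
    intro x
    have := g.z_le x
    rw [le_div_iff₀ hsD, mul_comm]
    rwa [xZ, abs_mul, abs_of_pos hsD] at this
  have hdeg : ∀ x, d / 2 ≤ (degv G x : ℝ) ∧ (degv G x : ℝ) ≤ 2 * d := by
    intro x
    have h := abs_le.1 ((hz x).trans (hsmall 8 (by norm_num)))
    have e : (degv G x : ℝ) = (degv G x : ℝ) / d * d := by field_simp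
    constructor
    · rw [e]; have := mul_le_mul_of_nonneg_right
        (show 1 / 2 ≤ (degv G x : ℝ) / d by linarith) hd0.le
      linarith
    · rw [e]; have := mul_le_mul_of_nonneg_right
        (show (degv G x : ℝ) / d ≤ 2 by linarith) hd0.le
      linarith
  have hm : |2 * (G.card : ℝ) - n * d| ≤ ell n ^ 8 / √D * (n * d) := by
    have e : 2 * (G.card : ℝ) - n * d = ∑ x : Fin n, ((degv G x : ℝ) / d - 1) * d := by
      rw [← sum_mul, sum_sub_distrib, ← sum_div, sum_degv g.sub, sum_const, card_univ,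
        Fintype.card_fin, nsmul_eq_mul, mul_one, sub_mul, div_mul_cancel₀ _ hd0.ne']
    rw [e]
    refine (abs_sum_le_sum_abs _ _).trans ?_
    calc ∑ x : Fin n, |((degv G x : ℝ) / d - 1) * d| ≤ ∑ _x : Fin n, ell n ^ 8 / √D * d := by
          refine sum_le_sum fun x _ => ?_
          rw [abs_mul, abs_of_pos hd0]
          exact mul_le_mul_of_nonneg_right (hz x) hd0.le
      _ = _ := by rw [sum_const, card_univ, Fintype.card_fin, nsmul_eq_mul]; ring
  have hm3 : (n : ℝ) * d / 3 ≤ G.card := by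
    have := (abs_le.1 hm).1
    have := mul_le_mul_of_nonneg_right (hsmall 8 (by norm_num))
      (show (0 : ℝ) ≤ n * d by positivity)
    linarith [show (0 : ℝ) ≤ n * d by positivity]
  have hQ : |3 * triCount G - G.card * D| ≤ ell n ^ 6 / √D * (G.card * D) := by
    have e : 3 * triCount G - G.card * D = ∑ e ∈ G, dev (triHyper G) D e * D := by
      unfold dev
      rw [← sum_mul, sum_sub_distrib, ← sum_div, sum_deg_tri, sum_const, nsmul_eq_mul, mul_one,
        sub_mul, div_mul_cancel₀ _ hD.ne']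
    rw [e]
    refine (abs_sum_le_sum_abs _ _).trans ?_
    calc ∑ e ∈ G, |dev (triHyper G) D e * D| ≤ ∑ _e ∈ G, ell n ^ 6 / √D * D := by
          refine sum_le_sum fun e he => ?_
          rw [abs_mul, abs_of_pos hD]
          exact mul_le_mul_of_nonneg_right (hu e he) hD.le
      _ = _ := by rw [sum_const, nsmul_eq_mul]; ring
  have hQ4 : (G.card : ℝ) * D / 4 ≤ triCount G := by
    have := (abs_le.1 hQ).1
    have := mul_le_mul_of_nonneg_right (hsmall 6 (by norm_num))
      (show (0 : ℝ) ≤ (G.card : ℝ) * D by positivity)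
    linarith [show (0 : ℝ) ≤ (G.card : ℝ) * D by positivity]
  have hmpos : (0 : ℝ) < G.card := lt_of_lt_of_le (by positivity) hm3
  have hQ0 : 0 < triCount G := lt_of_lt_of_le (by positivity) hQ4
  have hds : D / triCount G ≤ 12 / (n * d) := by
    rw [div_le_div_iff₀ hQ0 (by positivity)]
    have : D * (n * d / 3) ≤ D * G.card := by gcongr
    linarith
  have hDn : D ≤ n := by linarith [g.D_hi]
  have hd_ge : D ≤ d := by
    apply Real.le_sqrt_of_sq_le
    rw [sq]; exact mul_le_mul_of_nonneg_right hDn hD.le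
  refine ⟨hD, hs4, hDn, hu, hu', hz, fun x => (hdeg x).2, fun x => (hdeg x).1, hm, hQ, hQ0, hQ4,
    hds, hds.trans ?_, hds.trans ?_, fun x => ?_⟩
  · rw [div_le_div_iff₀ (by positivity) hD]
    nlinarith
  · have hd1 : 1 ≤ d := by
      have : 1 ≤ D := le_trans (hn.pow_ge_one _) hDlo
      linarith
    rw [div_le_iff₀ (by positivity)]
    nlinarith
  · unfold hitProb
    rw [mul_div_assoc', div_le_div_iff_of_pos_right hQ0]
    have h2 := card_tri_vertex g.sub x
    have : ∑ e ∈ G.filter (fun e => x ∈ e), (deg (triHyper G) e : ℝ) ≤ 2 * d * (2 * D) := by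
      refine (sum_le_card_nsmul _ _ (2 * D) fun e he => ?_).trans ?_
      · have := (abs_le.1 (hu' e (mem_filter.1 he).1)).2
        have e' := one_add_dev (triHyper G) D e
        rw [eq_div_iff hD.ne'] at e'
        rw [← e']
        exact mul_le_mul_of_nonneg_right (by linarith) hD.le
      · rw [nsmul_eq_mul]
        exact mul_le_mul_of_nonneg_right (hdeg x).2 (by positivity)
    linarith

namespace Fax

variable {G : Finset (Finset (Fin n))} {D : ℝ}

lemma h_pos (f : Fax n G D) : 0 < hStep G D := by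
  have := f.D_pos; have := f.Q_pos
  unfold hStep
  exact div_pos (Real.log_pos (lt_add_of_pos_right 1 (by positivity))) two_pos

lemma h_le (f : Fax n G D) : hStep G D ≤ D / triCount G := by
  have := f.D_pos; have := f.Q_pos
  unfold hStep
  have := Real.log_le_sub_one_of_pos (show (0 : ℝ) < 1 + 2 * D / triCount G by positivity)
  rw [mul_div_assoc] at *
  linarith

lemma h_ge (f : Fax n G D) : D / triCount G * (1 - 2 * (D / triCount G)) ≤ hStep G D := by
  have := f.D_pos; have := f.Q_pos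
  set a := D / triCount G with ha
  have ha0 : 0 ≤ a := by positivity
  have h1 := Real.one_sub_inv_le_log_of_pos (show (0 : ℝ) < 1 + 2 * a by positivity)
  have h2 : 2 * a * (1 - 2 * a) ≤ 1 - (1 + 2 * a)⁻¹ := by
    rw [show 1 - (1 + 2 * a)⁻¹ = 2 * a / (1 + 2 * a) by field_simp; ring, le_div_iff₀ (by positivity)]
    nlinarith [mul_nonneg ha0 (mul_nonneg ha0 ha0)]
  unfold hStep
  rw [mul_div_assoc, ← ha]
  linarith

/-- A step is at most twice the advance of the clock. -/
lemma ds_le_two_h (f : Fax n G D) : D / triCount G ≤ 2 * hStep G D := by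
  have := f.D_pos; have := f.Q_pos
  have h1 := f.h_ge
  have h2 := f.ds_le
  have := mul_le_mul_of_nonneg_left (show (1 : ℝ) / 2 ≤ 1 - 2 * (D / triCount G) by linarith)
    (show 0 ≤ D / triCount G by positivity)
  linarith

lemma h_small (f : Fax n G D) : hStep G D ≤ 1 / 100 := f.h_le.trans f.ds_le

lemma exp_two_h (f : Fax n G D) : Real.exp (2 * hStep G D) = 1 + 2 * D / triCount G := by
  have := f.D_pos; have := f.Q_pos
  unfold hStep
  rw [mul_div_cancel₀ _ two_ne_zero, Real.exp_log (by positivity)]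

lemma stepD_eq (f : Fax n G D) : stepD G D = D * Real.exp (-(2 * hStep G D)) := by
  unfold stepD; rw [Real.exp_neg, f.exp_two_h, div_eq_mul_inv]

lemma sqrt_stepD (f : Fax n G D) : √(stepD G D) = √D * Real.exp (-hStep G D) := by
  rw [f.stepD_eq, show -(2 * hStep G D) = -hStep G D + -hStep G D by ring, Real.exp_add,
    Real.sqrt_mul f.D_pos.le, Real.sqrt_mul_self (Real.exp_pos _).le]

lemma stepD_pos (f : Fax n G D) : 0 < stepD G D := by
  rw [f.stepD_eq]; have := f.D_pos; positivity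

lemma stepD_le (f : Fax n G D) : stepD G D ≤ D := by
  rw [f.stepD_eq]
  exact mul_le_of_le_one_right f.D_pos.le (Real.exp_le_one_iff.2 (by linarith [f.h_pos]))

lemma clock_step (f : Fax n G D) (hn : (2 : ℝ) < n) :
    clock n (stepD G D) = clock n D + hStep G D := by
  have := f.D_pos
  unfold clock
  rw [Real.log_div (by linarith) f.stepD_pos.ne', Real.log_div (by linarith) this.ne',
    f.stepD_eq, Real.log_mul this.ne' (Real.exp_ne_zero _), Real.log_exp]
  ring

end Fax

/-- The additive error of a family of at most `n ^ 3` coordinates is within `err`. -/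
lemma err_ge (hn : Big n) {c : ℝ} (hc : c ≤ n ^ 3) {K : ℝ} (hK : K ≤ 1000 * ell n ^ 2)
    (hK0 : 0 ≤ K) : c * (K * Real.exp (-(ell n ^ 2))) ≤ err n := by
  have h := hn.ell_sq_le
  calc c * (K * Real.exp (-(ell n ^ 2))) ≤ (n : ℝ) ^ 3 * ((n : ℝ) * Real.exp (-(ell n ^ 2))) := by
        refine mul_le_mul hc ?_ (by positivity) (by positivity)
        exact mul_le_mul_of_nonneg_right (hK.trans h) (Real.exp_pos _).le
    _ = err n := by unfold err; ring

namespace Fax

variable {G : Finset (Finset (Fin n))} {D : ℝ}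

lemma one_le_D (f : Fax n G D) (hn : Big n) : 1 ≤ D :=
  Real.one_le_sqrt.1 ((hn.pow_ge_one _).trans f.sqrtD_ge)

lemma h_ell_sq (f : Fax n G D) (hn : Big n) : 32 * ell n ^ 2 * hStep G D ≤ 1 := by
  have hd : 1 ≤ √((n : ℝ) * D) :=
    Real.one_le_sqrt.2 (by nlinarith [hn.n_ge, f.one_le_D hn])
  have h1 : hStep G D ≤ 12 / n := by
    refine f.h_le.trans (f.ds_le_card.trans ?_)
    exact div_le_div_of_nonneg_left (by norm_num) hn.n_pos (le_mul_of_one_le_right hn.n_pos.le hd)
  calc 32 * ell n ^ 2 * hStep G D ≤ 32 * ell n ^ 2 * (12 / n) := by gcongr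
    _ ≤ 1 := by rw [mul_div_assoc', div_le_one hn.n_pos]; nlinarith [hn.ell_sq_le]

end Fax

/-- One coordinate of a family with threshold `(log n)^p`. -/
lemma potC_step {ι : Type*} {G : Finset (Finset (Fin n))} {D : ℝ} (hn : Big n) (f : Fax n G D)
    (S : Finset ι) (Δ : ι → ℝ) {p : ℕ} {X κ F s2 : ℝ} (hS : (S.card : ℝ) ≤ triCount G)
    (hκ : 0 ≤ κ) (hκ8 : κ ≤ 8) (hjump : ∀ i ∈ S, 2 * ell n ^ 2 * |Δ i| ≤ ell n ^ p)
    (hup : ∑ i ∈ S, Δ i ≤ triCount G * (hStep G D * (-κ * X + F)))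
    (hdown : -∑ i ∈ S, Δ i ≤ triCount G * (hStep G D * (κ * X + F)))
    (hvar : ∑ i ∈ S, Δ i ^ 2 ≤ triCount G * (hStep G D * s2))
    (hgap : F + 2 * ell n ^ 2 / ell n ^ p * s2 ≤ κ * (ell n ^ p / 2)) (hX : |X| ≤ ell n ^ p) :
    ∑ i ∈ S, potC n p (X + Δ i)
      ≤ triCount G * (potC n p X + hStep G D * (128 * ell n ^ 2 * Real.exp (-(ell n ^ 2)))) := by
  have hP : (0 : ℝ) < ell n ^ p := lt_of_lt_of_le one_pos (hn.pow_ge_one p)
  have hh := f.h_pos.le
  unfold potC
  refine (pot2_step S Δ (by positivity) f.Q_pos.le hS hh hκ hP.le (fun i hi => ?_) hup hdown hvar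
    hgap hX ?_).trans ?_
  · rw [abs_mul, abs_of_nonneg (by positivity), div_mul_eq_mul_div, div_le_one hP]
    exact hjump i hi
  · have e : 2 * ell n ^ 2 / ell n ^ p * (hStep G D * (2 * κ * ell n ^ p))
        = κ * (4 * ell n ^ 2 * hStep G D) := by field_simp; ring
    rw [e]
    have : κ * (4 * ell n ^ 2 * hStep G D) ≤ 8 * (4 * ell n ^ 2 * hStep G D) := by gcongr
    have := f.h_ell_sq hn
    linarith
  · have e1 : 2 * ell n ^ 2 / ell n ^ p * (ell n ^ p / 2) = ell n ^ 2 := by field_simp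
    have e2 : 8 * κ * (2 * ell n ^ 2 / ell n ^ p) * ell n ^ p = κ * (16 * ell n ^ 2) := by
      field_simp; ring
    have hQ := f.Q_pos.le
    rw [e1, e2]
    have : κ * (16 * ell n ^ 2) ≤ 128 * ell n ^ 2 := by
      calc κ * (16 * ell n ^ 2) ≤ 8 * (16 * ell n ^ 2) := by gcongr
        _ = _ := by ring
    exact mul_le_mul_of_nonneg_left (add_le_add le_rfl
      (mul_le_mul_of_nonneg_left (mul_le_mul_of_nonneg_right this (Real.exp_pos _).le) hh)) hQ

namespace Good

variable {G : Finset (Finset (Fin n))} {D : ℝ} {b : Fin n → ℝ}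

lemma clock_mem (g : Good n G D b) (hn : Big n) : 0 ≤ clock n D ∧ clock n D ≤ ell n := by
  have f := g.fax hn
  have h1 := f.one_le_D hn
  unfold clock
  constructor
  · exact div_nonneg (Real.log_nonneg (by rw [le_div_iff₀ f.D_pos, one_mul]; exact g.D_hi))
      two_pos.le
  · have : Real.log (((n : ℝ) - 2) / D) ≤ ell n := by
      refine Real.log_le_log (div_pos (by linarith [g.D_hi, f.D_pos]) f.D_pos) ?_
      rw [div_le_iff₀ f.D_pos]
      nlinarith [hn.n_pos]
    linarith [hn.ell_ge]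

lemma thR_le (g : Good n G D b) (hn : Big n) : thR n D ≤ ell n ^ 19 := by
  have := (g.clock_mem hn).2
  calc thR n D ≤ ell n ^ 17 * (2 * ell n) := by
        unfold thR
        gcongr
        · exact (zero_le_one.trans (hn.pow_ge_one 17))
        · linarith [hn.ell_ge]
    _ = 2 * ell n ^ 18 := by ring
    _ ≤ ell n ^ 19 := hn.mul_pow_le (by norm_num) (by norm_num)

lemma b_abs (g : Good n G D b) (hn : Big n) (x : Fin n) :
    |b x| ≤ ell n ^ 5 / √(√((n : ℝ) * D)) := by
  have f := g.fax hn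
  have hpos : 0 < √(√((n : ℝ) * D)) :=
    Real.sqrt_pos.2 (Real.sqrt_pos.2 (mul_pos hn.n_pos f.D_pos))
  have := g.b_le x
  rw [le_div_iff₀ hpos, mul_comm]
  rwa [xb, abs_mul, abs_of_pos hpos] at this

/-- The neighbouring deviations are small compared with `1 / √D`. -/
lemma nbrDev_abs (g : Good n G D b) (hn : Big n) {e : Finset (Fin n)} (he : e ∈ G) :
    √D * |nbrDev (triHyper G) D e| ≤ 3 * ell n ^ 5 := by
  have f := g.fax hn
  have hD := f.D_pos
  have hs : 0 < √D := Real.sqrt_pos.2 hD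
  obtain ⟨x, y, hxy, rfl⟩ := card_eq_two.1 (card_edge g.sub he)
  set r := nbrDev (triHyper G) D {x, y}
  have h1 : |r - (b x + b y)| ≤ ell n ^ 19 / D := by
    have := (g.R_le _ he).trans (g.thR_le hn)
    rw [xR, sum_pair hxy, abs_mul, abs_of_pos hD] at this
    rw [le_div_iff₀ hD, mul_comm]; exact this
  have hb : ∀ z, √D * |b z| ≤ ell n ^ 5 := by
    intro z
    refine (mul_le_mul_of_nonneg_left (g.b_abs hn z) hs.le).trans ?_
    have hq : 0 < √(√((n : ℝ) * D)) :=
      Real.sqrt_pos.2 (Real.sqrt_pos.2 (mul_pos hn.n_pos hD))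
    rw [mul_div_assoc', div_le_iff₀ hq, mul_comm]
    refine mul_le_mul_of_nonneg_left ?_ (zero_le_one.trans (hn.pow_ge_one 5))
    refine Real.sqrt_le_sqrt (Real.le_sqrt_of_sq_le ?_)
    rw [sq]; exact mul_le_mul_of_nonneg_right f.D_le hD.le
  have h2 : √D * (ell n ^ 19 / D) ≤ ell n ^ 5 := by
    refine le_trans ?_ (hn.pow_ge_one 5)
    rw [mul_div_assoc', div_le_one hD]
    calc √D * ell n ^ 19 ≤ √D * √D :=
          mul_le_mul_of_nonneg_left ((hn.pow_le (by norm_num)).trans f.sqrtD_ge) hs.le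
      _ = D := Real.mul_self_sqrt hD.le
  have h3 : |r| ≤ |r - (b x + b y)| + (|b x| + |b y|) := by
    have := abs_sub_abs_le_abs_sub r (b x + b y)
    have := abs_add_le (b x) (b y)
    linarith
  calc √D * |r| ≤ √D * |r - (b x + b y)| + (√D * |b x| + √D * |b y|) := by
        rw [← mul_add, ← mul_add]; exact mul_le_mul_of_nonneg_left h3 hs.le
    _ ≤ √D * (ell n ^ 19 / D) + (ell n ^ 5 + ell n ^ 5) :=
        add_le_add (mul_le_mul_of_nonneg_left h1 hs.le) (add_le_add (hb x) (hb y))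
    _ ≤ _ := by linarith

end Good

end

end Vale.Agent.P046.Full.Stage
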