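import Vale.Agent.P046.Full.Stage.Value

/-!
# The self-correcting stage, given its parts
-/

namespace Vale.Agent.P046.Full.Stage

open Finset Filter

noncomputable section

lemma eventually_ready (ε K : ℝ) (hε : 0 < ε) (hK : 0 < K) :
    ∀ᶠ n : ℕ in atTop, ∀ k : ℕ, (k : ℝ) ≤ K * Real.log (Real.log n) → Ready n k ε := by
  have hlog : Tendsto (fun n : ℕ => Real.log n) atTop atTop :=
    Real.tendsto_log_atTop.comp tendsto_natCast_atTop_atTop
  have h1 : ∀ᶠ n : ℕ in atTop, ‖Real.log n ^ 40000‖ ≤ 1 * ‖id (n : ℝ)‖ :=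
    tendsto_natCast_atTop_atTop.eventually (Real.isLittleO_pow_log_id_atTop.bound one_pos)
  have h2 : ∀ᶠ n : ℕ in atTop, ‖Real.log (Real.log n)‖ ≤ 1 / (4 * K) * ‖id (Real.log n)‖ :=
    hlog.eventually (Real.isLittleO_log_id_atTop.bound (by positivity))
  filter_upwards [h1, h2, hlog.eventually_ge_atTop 1000000, hlog.eventually_ge_atTop (4 / ε)]
    with n hp hl hbig heps k hk
  have hL : (0 : ℝ) < Real.log n := by linarith
  refine ⟨hbig, ?_, ?_, ?_⟩
  · show 2 * (k : ℝ) + 3 ≤ Real.log n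
    rw [id, Real.norm_eq_abs, Real.norm_eq_abs, abs_of_pos hL] at hl
    have h3 := le_trans (le_abs_self _) hl
    have h4 : K * Real.log (Real.log n) ≤ K * (1 / (4 * K) * Real.log n) :=
      mul_le_mul_of_nonneg_left h3 hK.le
    have h5 : K * (1 / (4 * K) * Real.log n) = Real.log n / 4 := by field_simp
    linarith
  · show 4 ≤ ε * Real.log n
    rw [div_le_iff₀ hε] at heps; linarith
  · show Real.log n ^ 40000 ≤ (n : ℝ)
    rw [one_mul, id, Real.norm_eq_abs, Real.norm_eq_abs, abs_of_nonneg (by positivity)] at hp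
    rwa [abs_of_nonneg (Nat.cast_nonneg n)] at hp

lemma tail_small {n : ℕ} (hn : Big n) :
    (n : ℝ) ^ 2 * (err n + 6 * err n * ell n) ≤ 1 := by
  have hL := hn.ell_ge
  have h1 : 1 + 6 * ell n ≤ n := by
    have := hn.ell_sq_le
    nlinarith
  calc (n : ℝ) ^ 2 * (err n + 6 * err n * ell n)
      = (n : ℝ) ^ 6 * (1 + 6 * ell n) * Real.exp (-(ell n ^ 2)) := by unfold err; ring
    _ ≤ (n : ℝ) ^ 6 * n * Real.exp (-(ell n ^ 2)) := by gcongr
    _ = (n : ℝ) ^ 7 * Real.exp (-(ell n ^ 2)) := by ring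
    _ = Real.exp (7 * ell n + -(ell n ^ 2)) := by
        rw [Real.exp_add, show (7 : ℝ) * ell n = ((7 : ℕ) : ℝ) * ell n by norm_num,
          Real.exp_nat_mul, hn.exp_ell]
    _ ≤ 1 := Real.exp_le_one_iff.2 (by nlinarith)

/-- The stage, from the six families and the bound at time zero. -/
theorem goalStage_of (hZ : StepZ) (hb : Stepb) (hB : StepB) (hN : StepN) (hR : StepR)
    (hinit : ∀ {n : ℕ}, Big n →
      potZ (completeEdges n) ((n : ℝ) - 2) + potb ((n : ℝ) - 2) (fun _ : Fin n => 0)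
        + potU (completeEdges n) ((n : ℝ) - 2) + potB (completeEdges n) (fun _ : Fin n => 0)
        + potN (completeEdges n) ((n : ℝ) - 2)
        + potR (completeEdges n) ((n : ℝ) - 2) (fun _ : Fin n => 0)
      ≤ (n : ℝ) ^ 4 * Real.exp (-(ell n ^ 2))) : GoalStage := by
  intro ε K hε hK
  obtain ⟨n₁, hn₁⟩ := conf_init K hK
  obtain ⟨n₂, hn₂⟩ := eventually_atTop.1 (eventually_ready ε K hε hK)
  refine ⟨max n₁ n₂, fun n hn φ hφ B c hB0 hc k hk hend => ?_⟩
  have hr := hn₂ n (le_trans (le_max_right _ _) hn) k hk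
  have hbig := hr.big
  have hcfg : cfg n k (completeEdges n) ((n : ℝ) - 2) ≤ (n : ℝ) ^ (5 / 4 : ℝ) :=
    hn₁ n (le_trans (le_max_left _ _) hn) k hk
  have hD : ell n ^ 9000 / 3 ≤ (n : ℝ) - 2 := by
    have h1 := hbig.pow_le (a := 9000) (b := 40000) (by norm_num)
    have := hr.poly
    have := hbig.n_ge
    linarith
  have hclock : clock n ((n : ℝ) - 2) = 0 := by
    unfold clock
    rw [div_self (by linarith [hbig.n_ge]), Real.log_one, zero_div]
  refine (leaveExp_le_value hr hZ hb hB hN hR hφ hB0 hc hend (completeEdges n) ((n : ℝ) - 2)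
    (fun _ => 0) Subset.rfl hD le_rfl).trans ?_
  have h1 := mul_le_mul_of_nonneg_left hcfg hc
  have h2 : (n : ℝ) ^ 2 * totPot (completeEdges n) ((n : ℝ) - 2) (fun _ : Fin n => 0) ≤ 1 := by
    refine le_trans (mul_le_mul_of_nonneg_left ?_ (by positivity)) (tail_small hbig)
    unfold totPot
    rw [hclock, sub_zero]
    exact add_le_add (hinit hbig) le_rfl
  linarith

end

end Vale.Agent.P046.Full.Stage
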