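import Vale.Agent.P046.Full.Stage.Facts

/-!
# The potentials at time zero
-/

namespace Vale.Agent.P046.Full.Stage

open Finset

noncomputable section

variable {n : ℕ}

private lemma cn_complete (S : Finset (Fin n)) : cn (completeEdges n) S = Sᶜ := by
  ext z
  rw [mem_cn, mem_compl]
  unfold completeEdges
  constructor
  · intro h hz
    have := (mem_powersetCard.1 (h z hz)).2
    simp at this
  · intro hz v hv
    refine mem_powersetCard.2 ⟨subset_univ _, card_pair ?_⟩
    rintro rfl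
    exact hz hv

private lemma degv_complete (x : Fin n) : degv (completeEdges n) x = n - 1 := by
  have : (completeEdges n).filter (fun e => x ∈ e)
      = ({x} : Finset (Fin n))ᶜ.image fun v => ({x, v} : Finset (Fin n)) := by
    ext e
    simp only [completeEdges, mem_filter, mem_powersetCard, mem_image, mem_compl, mem_singleton]
    constructor
    · rintro ⟨⟨-, he⟩, hx⟩
      obtain ⟨v, hv, hvx⟩ := exists_mem_ne (s := e) (by omega) x
      refine ⟨v, hvx, eq_of_subset_of_card_le (by simp [insert_subset_iff, hx, hv]) ?_⟩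
      rw [he, card_pair (Ne.symm hvx)]
    · rintro ⟨v, hv, rfl⟩
      exact ⟨⟨subset_univ _, card_pair (Ne.symm hv)⟩, by simp⟩
  unfold degv
  rw [this, card_image_of_injOn, card_compl, card_singleton, Fintype.card_fin]
  intro v hv w hw h
  have hvx : v ≠ x := by simpa using hv
  have : v ∈ ({x, w} : Finset (Fin n)) := by
    rw [← show ({x, v} : Finset (Fin n)) = {x, w} from h]; simp
  simpa [hvx] using this

private lemma dev_complete (hn : Big n) {e : Finset (Fin n)} (he : e ∈ completeEdges n) :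
    dev (triHyper (completeEdges n)) ((n : ℝ) - 2) e = 0 := by
  have h2 : 2 ≤ n := by exact_mod_cast (by linarith [hn.n_ge] : (2 : ℝ) ≤ n)
  unfold dev
  rw [deg_complete he, Nat.cast_sub h2, Nat.cast_ofNat,
    div_self (by linarith [hn.n_ge]), sub_self]

private lemma xZ_complete (hn : Big n) (x : Fin n) :
    |xZ (completeEdges n) ((n : ℝ) - 2) x| ≤ 1 := by
  have hN := hn.n_ge
  have h1 : 1 ≤ n := by exact_mod_cast (by linarith : (1 : ℝ) ≤ n)
  set m : ℝ := (n : ℝ) * ((n : ℝ) - 2) with hm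
  have hm1 : 1 ≤ m := by nlinarith
  have hs1 : 1 ≤ √m := Real.le_sqrt_of_sq_le (by linarith)
  have hsq := Real.mul_self_sqrt (show 0 ≤ m by linarith)
  have hc : ((n - 1 : ℕ) : ℝ) = (n : ℝ) - 1 := by rw [Nat.cast_sub h1, Nat.cast_one]
  unfold xZ
  rw [degv_complete, hc, ← hm]
  have lo : 1 ≤ ((n : ℝ) - 1) / √m := by
    rw [le_div_iff₀ (by linarith), one_mul, Real.sqrt_le_left (by linarith)]
    nlinarith
  have hi : ((n : ℝ) - 1) / √m ≤ 1 + 1 / m := by
    rw [div_le_iff₀ (by linarith)]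
    have : ((n : ℝ) - 1) ^ 2 ≤ ((1 + 1 / m) * √m) ^ 2 := by
      have e : ((1 + 1 / m) * √m) ^ 2 = m + 2 + 1 / m := by
        rw [mul_pow, sq √m, hsq]; field_simp; ring
      rw [e]
      have : 0 ≤ 1 / m := by positivity
      nlinarith
    exact (sq_le_sq₀ (by linarith) (by positivity)).1 this
  have hD : √((n : ℝ) - 2) ≤ m := by
    rw [Real.sqrt_le_left (by linarith)]
    nlinarith
  rw [abs_mul, abs_of_nonneg (Real.sqrt_nonneg _), abs_of_nonneg (by linarith)]
  calc √((n : ℝ) - 2) * (((n : ℝ) - 1) / √m - 1) ≤ m * (1 / m) :=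
        mul_le_mul hD (by linarith) (by linarith) (by linarith)
    _ = 1 := mul_one_div_cancel (by linarith)

private lemma xN_complete (hn : Big n) {t : Fin n × Fin n × Fin n} (ht : t ∈ tri3 n) :
    |xN (completeEdges n) ((n : ℝ) - 2) t| ≤ 4 := by
  obtain ⟨a, b, c⟩ := t
  simp only [tri3, mem_filter] at ht
  obtain ⟨-, hab, hac, hbc⟩ := ht
  have hN := hn.n_ge
  have h3 : 3 ≤ n := by exact_mod_cast (by linarith : (3 : ℝ) ≤ n)
  have hc : ((n - 3 : ℕ) : ℝ) = (n : ℝ) - 3 := by rw [Nat.cast_sub h3, Nat.cast_ofNat]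
  have hS : ({a, b, c} : Finset (Fin n)).card = 3 := card_eq_three.2 ⟨a, b, c, hab, hac, hbc, rfl⟩
  unfold xN tripleDev
  rw [cn_complete, card_compl, hS, Fintype.card_fin, hc]
  set P := tripleRef n ((n : ℝ) - 2) with hP
  have hP1 : P ≤ (n : ℝ) - 2 := tripleRef_le n (by linarith) (by linarith)
  have hP0 : 0 ≤ P := tripleRef_nonneg n (by linarith)
  have hP2 : (n : ℝ) - 5 ≤ P := by
    rw [hP, tripleRef]
    have hr : 1 - 2 / (n : ℝ) ≤ √(((n : ℝ) - 2) / n) := by
      refine Real.le_sqrt_of_sq_le ?_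
      rw [show ((n : ℝ) - 2) / n = 1 - 2 / n by field_simp]
      have h0 : 0 ≤ 2 / (n : ℝ) := by positivity
      have h1 : 2 / (n : ℝ) ≤ 1 := by rw [div_le_one hn.n_pos]; linarith
      nlinarith
    have h4 : 4 / (n : ℝ) ≥ 0 := by positivity
    have e : ((n : ℝ) - 2) * (1 - 2 / (n : ℝ)) = (n : ℝ) - 4 + 4 / n := by field_simp; ring
    have := mul_le_mul_of_nonneg_left hr (show (0 : ℝ) ≤ (n : ℝ) - 2 by linarith)
    linarith
  have hs := Real.sqrt_nonneg P
  rw [abs_div, abs_of_pos (show 0 < √P + 1 by linarith), div_le_iff₀ (by linarith), abs_le]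
  constructor <;> linarith

/-- At time zero every potential is exponentially small. -/
theorem init_small (hn : Big n) :
    potZ (completeEdges n) ((n : ℝ) - 2) + potb ((n : ℝ) - 2) (fun _ : Fin n => 0)
      + potU (completeEdges n) ((n : ℝ) - 2) + potB (completeEdges n) (fun _ : Fin n => 0)
      + potN (completeEdges n) ((n : ℝ) - 2)
      + potR (completeEdges n) ((n : ℝ) - 2) (fun _ : Fin n => 0)
      ≤ (n : ℝ) ^ 4 * Real.exp (-(ell n ^ 2)) := by
  have hL := hn.ell_ge
  have hN := hn.n_ge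
  set ε := 2 * Real.exp (1 - 2 * ell n ^ 2) with hε
  have hC : ∀ (p : ℕ) (X : ℝ), 5 ≤ p → |X| ≤ 4 → potC n p X ≤ ε := by
    intro p X hp hX
    have hP : 0 < ell n ^ p := by linarith [hn.pow_ge_one p]
    refine (pot2_le (by positivity) hX).trans ?_
    rw [hε]
    refine mul_le_mul_of_nonneg_left (Real.exp_le_exp.2 ?_) two_pos.le
    have e : 2 * ell n ^ 2 / ell n ^ p * (4 - ell n ^ p)
        = 8 * ell n ^ 2 / ell n ^ p - 2 * ell n ^ 2 := by field_simp; ring
    have : 8 * ell n ^ 2 / ell n ^ p ≤ 1 := by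
      rw [div_le_one hP]; exact hn.mul_pow_le (by omega) (by norm_num)
    linarith
  have hZ : potZ (completeEdges n) ((n : ℝ) - 2) ≤ n * ε := by
    refine (sum_le_card_nsmul _ _ ε fun x _ => hC 8 _ (by norm_num)
      ((xZ_complete hn x).trans (by norm_num))).trans ?_
    rw [card_univ, Fintype.card_fin, nsmul_eq_mul]
  have hb : potb ((n : ℝ) - 2) (fun _ : Fin n => 0) ≤ n * ε := by
    refine (sum_le_card_nsmul _ _ ε fun x _ => hC 5 _ (by norm_num) (by simp [xb])).trans ?_
    rw [card_univ, Fintype.card_fin, nsmul_eq_mul]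
  have hε0 : 0 ≤ ε := by positivity
  have hcard : ((completeEdges n).card : ℝ) ≤ (n : ℝ) ^ 3 := by
    have h : (completeEdges n).card ≤ n ^ 2 := by
      rw [completeEdges, card_powersetCard, card_univ, Fintype.card_fin]
      exact Nat.choose_le_pow n 2
    have h' : ((completeEdges n).card : ℝ) ≤ (n : ℝ) ^ 2 := by exact_mod_cast h
    exact h'.trans (pow_le_pow_right₀ (by linarith) (by norm_num))
  have hU : potU (completeEdges n) ((n : ℝ) - 2) ≤ (n : ℝ) ^ 3 * ε := by
    refine (sum_le_card_nsmul _ _ ε fun e he => hC 6 _ (by norm_num)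
      (by simp [xU, dev_complete hn he])).trans ?_
    rw [nsmul_eq_mul]; exact mul_le_mul_of_nonneg_right hcard hε0
  have hB : potB (completeEdges n) (fun _ : Fin n => 0) ≤ (n : ℝ) ^ 3 * ε := by
    refine (sum_le_card_nsmul _ _ ε fun e _ => hC 13 _ (by norm_num) (by simp [xB])).trans ?_
    rw [nsmul_eq_mul]; exact mul_le_mul_of_nonneg_right hcard hε0
  have hT : ((tri3 n).card : ℝ) ≤ (n : ℝ) ^ 3 := by
    have h : (tri3 n).card ≤ n ^ 3 := (card_le_univ _).trans (le_of_eq (by simp; ring))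
    exact_mod_cast h
  have hN' : potN (completeEdges n) ((n : ℝ) - 2) ≤ (n : ℝ) ^ 3 * ε := by
    refine (sum_le_card_nsmul _ _ ε fun t ht => hC 12 _ (by norm_num)
      (xN_complete hn ht)).trans ?_
    rw [nsmul_eq_mul]; exact mul_le_mul_of_nonneg_right hT hε0
  have hR0 : ∀ e ∈ completeEdges n,
      xR (completeEdges n) ((n : ℝ) - 2) (fun _ : Fin n => 0) e = 0 := by
    intro e _
    have : nbrDev (triHyper (completeEdges n)) ((n : ℝ) - 2) e = 0 := by
      unfold nbrDev
      rw [sum_eq_zero fun R hR => sum_eq_zero fun f hf => ?_, zero_div]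
      exact dev_complete hn ((triHyper_lin (completeEdges n)).sub R (mem_filter.1 hR).1
        (mem_erase.1 hf).2)
    simp [xR, this]
  have hR : potR (completeEdges n) ((n : ℝ) - 2) (fun _ : Fin n => 0) ≤ (n : ℝ) ^ 3 * ε := by
    refine (sum_le_card_nsmul _ _ ε fun e he => ?_).trans
      (by rw [nsmul_eq_mul]; exact mul_le_mul_of_nonneg_right hcard hε0)
    have hP : 0 < ell n ^ 17 := by linarith [hn.pow_ge_one 17]
    refine (pot2_le (by positivity) (a := 0) (by rw [hR0 e he, abs_zero])).trans ?_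
    rw [hε]
    refine mul_le_mul_of_nonneg_left (Real.exp_le_exp.2 ?_) two_pos.le
    have hth : ell n ^ 17 ≤ thR n ((n : ℝ) - 2) := by
      unfold thR clock
      rw [div_self (by linarith), Real.log_one, zero_div, add_zero, mul_one]
    have := mul_le_mul_of_nonneg_left hth (show 0 ≤ 4 * ell n ^ 2 / ell n ^ 17 by positivity)
    rw [div_mul_cancel₀ _ hP.ne'] at this
    nlinarith [sq_nonneg (ell n)]
  have hfin : 6 * (n : ℝ) ^ 3 * ε ≤ (n : ℝ) ^ 4 * Real.exp (-(ell n ^ 2)) := by
    have h1 : Real.exp (1 - 2 * ell n ^ 2) ≤ Real.exp (-(ell n ^ 2)) :=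
      Real.exp_le_exp.2 (by nlinarith)
    have h2 : 12 * (n : ℝ) ^ 3 ≤ (n : ℝ) ^ 4 := by
      rw [pow_succ (n : ℝ) 3, mul_comm 12]; gcongr; linarith
    calc 6 * (n : ℝ) ^ 3 * ε = 12 * (n : ℝ) ^ 3 * Real.exp (1 - 2 * ell n ^ 2) := by
          rw [hε]; ring
      _ ≤ _ := mul_le_mul h2 h1 (Real.exp_pos _).le (by positivity)
  have hn3 : (n : ℝ) * ε ≤ (n : ℝ) ^ 3 * ε :=
    mul_le_mul_of_nonneg_right (le_self_pow₀ (by linarith) (by norm_num)) hε0
  linarith

end

end Vale.Agent.P046.Full.Stage
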