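import Vale.Agent.P046.Drift

/-!
Exact one step drift of the sum of the neighbouring deviations in a linear 3-uniform hypergraph.
-/

namespace Vale.Agent.P046.Full

open Finset

noncomputable section

variable {α : Type*} [DecidableEq α]

/-- Sum of `F` over the neighbours of `e`, with multiplicity one per hyperedge. -/
def adjSum (E : Finset (Finset α)) (F : α → ℝ) (e : α) : ℝ :=
  ∑ R ∈ E.filter (fun R => e ∈ R), ∑ f ∈ R.erase e, F f

/-- Unnormalised sum of the neighbouring deviations. -/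
def devSum (E : Finset (Finset α)) (D : ℝ) (e : α) : ℝ := adjSum E (dev E D) e

/-- The quadratic loss term in the drift of `devSum`. -/
def quadSum (E : Finset (Finset α)) (D : ℝ) (e : α) : ℝ :=
  ∑ R ∈ E.filter (fun R => e ∈ R), (∑ f ∈ R.erase e, dev E D f) ^ 2

/-- Deviations at the hyperedges through `e` destroyed by `T`. -/
def killDev (E : Finset (Finset α)) (D : ℝ) (T : Finset α) (e : α) : ℝ :=
  ∑ R ∈ E.filter (fun R => e ∈ R ∧ ¬ Disjoint T R), ∑ f ∈ R.erase e, dev E D f

/-- Losses of the neighbours of `e` in the hyperedges through `e` surviving `T`. -/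
def lossSum (E : Finset (Finset α)) (T : Finset α) (e : α) : ℝ :=
  ∑ R ∈ E.filter (fun R => e ∈ R ∧ Disjoint T R), ∑ f ∈ R.erase e, (loss E T f : ℝ)

lemma lossSum_nonneg (E : Finset (Finset α)) (T : Finset α) (e : α) : 0 ≤ lossSum E T e :=
  sum_nonneg fun _ _ => sum_nonneg fun _ _ => Nat.cast_nonneg _

lemma quadSum_nonneg (E : Finset (Finset α)) (D : ℝ) (e : α) : 0 ≤ quadSum E D e :=
  sum_nonneg fun _ _ => sq_nonneg _

variable {V : Finset α} {E : Finset (Finset α)} {D : ℝ}

lemma _root_.Vale.Agent.P046.Lin.card_erase (h : Lin V E) {R : Finset α} {e : α}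
    (hR : R ∈ E.filter fun R => e ∈ R) : (R.erase e).card = 2 := by
  rw [card_erase_of_mem (mem_filter.1 hR).2, h.three R (mem_filter.1 hR).1]

lemma _root_.Vale.Agent.P046.Lin.abs_adjSum_le (h : Lin V E) {F : α → ℝ} {C : ℝ} (hF : ∀ f ∈ V, |F f| ≤ C) (e : α) :
    |adjSum E F e| ≤ 2 * C * deg E e := by
  refine (abs_sum_le_sum_abs _ _).trans ?_
  calc ∑ R ∈ E.filter (fun R => e ∈ R), |∑ f ∈ R.erase e, F f|
      ≤ ∑ _R ∈ E.filter (fun R => e ∈ R), 2 * C := by
        refine sum_le_sum fun R hR => (abs_sum_le_sum_abs _ _).trans ?_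
        calc ∑ f ∈ R.erase e, |F f| ≤ ∑ _f ∈ R.erase e, C :=
              sum_le_sum fun f hf => hF f (h.sub R (mem_filter.1 hR).1 (mem_erase.1 hf).2)
          _ = _ := by rw [sum_const, h.card_erase hR, nsmul_eq_mul]; norm_num
    _ = _ := by rw [sum_const, nsmul_eq_mul, deg]; ring

lemma adjSum_add (E : Finset (Finset α)) (F G : α → ℝ) (e : α) :
    adjSum E (fun f => F f + G f) e = adjSum E F e + adjSum E G e := by
  simp [adjSum, sum_add_distrib]

lemma adjSum_mul (E : Finset (Finset α)) (c : ℝ) (F : α → ℝ) (e : α) :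
    adjSum E (fun f => c * F f) e = c * adjSum E F e := by
  simp [adjSum, mul_sum]

lemma _root_.Vale.Agent.P046.Lin.adjSum_deg (h : Lin V E) (hD : D ≠ 0) (e : α) :
    adjSum E (fun f => (deg E f : ℝ)) e = D * (2 * deg E e + devSum E D e) := by
  have : ∀ f, (deg E f : ℝ) = D * 1 + D * dev E D f := by
    intro f; unfold dev; field_simp; ring
  rw [show (fun f => (deg E f : ℝ)) = fun f => D * 1 + D * dev E D f from funext this,
    adjSum_add, adjSum_mul, adjSum_mul]
  have : adjSum E (fun _ => (1:ℝ)) e = 2 * deg E e := by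
    unfold adjSum deg
    rw [sum_congr rfl (g := fun _ => (2:ℝ)) fun R hR => by
      rw [sum_const, h.card_erase hR]; norm_num, sum_const, nsmul_eq_mul]
    ring
  rw [this, devSum]
  ring

lemma deg_next_alive (E : Finset (Finset α)) (T : Finset α) (e : α) :
    ((E.filter fun R => e ∈ R ∧ Disjoint T R).card : ℝ) = deg E e - loss E T e := by
  have h1 : ((deg (nextE E T) e : ℕ) : ℝ) + loss E T e = deg E e := by
    exact_mod_cast deg_next E T e
  have h2 : (E.filter fun R => e ∈ R ∧ Disjoint T R).card = deg (nextE E T) e := by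
    unfold deg nextE
    rw [filter_filter]; congr 1; ext R; simp [and_comm]
  rw [h2]; linarith

/-- `devSum` after one step, exactly. -/
lemma _root_.Vale.Agent.P046.Lin.devSum_next (h : Lin V E) (hD : D ≠ 0) {a : ℝ} (ha : 0 ≤ a) (T : Finset α) (e : α) :
    devSum (nextE E T) (D / (1 + a)) e = (1 + a) * (devSum E D e - killDev E D T e)
      + 2 * a * (deg E e - loss E T e) - (1 + a) / D * lossSum E T e := by
  have hf : (nextE E T).filter (fun R => e ∈ R)
      = E.filter fun R => e ∈ R ∧ Disjoint T R := by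
    unfold nextE; rw [filter_filter]; ext R; simp [and_comm]
  have hsplit : devSum E D e - killDev E D T e
      = ∑ R ∈ E.filter (fun R => e ∈ R ∧ Disjoint T R), ∑ f ∈ R.erase e, dev E D f := by
    unfold devSum adjSum killDev
    rw [← sum_filter_add_sum_filter_not (E.filter fun R => e ∈ R) (fun R => Disjoint T R),
      filter_filter, filter_filter]
    ring
  have hv : ∀ f, dev (nextE E T) (D / (1 + a)) f
      = (1 + a) * dev E D f + a - (1 + a) / D * loss E T f := by
    intro f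
    have h1 : ((deg (nextE E T) f : ℕ) : ℝ) + loss E T f = deg E f := by
      exact_mod_cast deg_next E T f
    have : (1 + a) ≠ 0 := by positivity
    unfold dev
    rw [← h1]; field_simp; ring
  rw [hsplit, ← deg_next_alive, devSum, adjSum, hf]
  rw [sum_congr rfl (g := fun R => (1 + a) * (∑ f ∈ R.erase e, dev E D f) + 2 * a
      - (1 + a) / D * ∑ f ∈ R.erase e, (loss E T f : ℝ)) fun R hR => by
    simp only [hv, sum_add_distrib, sum_sub_distrib, ← mul_sum, sum_const, nsmul_eq_mul]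
    rw [h.card_erase (mem_filter.2 ⟨(mem_filter.1 hR).1, (mem_filter.1 hR).2.1⟩)]; norm_num]
  simp only [sum_add_distrib, sum_sub_distrib, ← mul_sum, sum_const, nsmul_eq_mul, lossSum]
  ring

lemma card_alive (E : Finset (Finset α)) (e : α) :
    ((E.filter fun T => e ∉ T).card : ℝ) = E.card - deg E e := by
  have h1 := card_filter_add_card_filter_not (s := E) (fun T => e ∈ T)
  have : ((deg E e : ℕ) : ℝ) + (E.filter fun T => e ∉ T).card = E.card := by
    unfold deg; exact_mod_cast h1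
  linarith

/-- Weighted count of destroyed hyperedges at `e`, over the choices avoiding `e`. -/
lemma _root_.Vale.Agent.P046.Lin.sum_kill (h : Lin V E) (hD : D ≠ 0) (e : α) (w : Finset α → ℝ) :
    ∑ T ∈ E.filter (fun T => e ∉ T),
        ∑ R ∈ E.filter (fun R => e ∈ R ∧ ¬ Disjoint T R), w R
      = ∑ R ∈ E.filter (fun R => e ∈ R),
          w R * (2 * D - 2 + D * ∑ f ∈ R.erase e, dev E D f) := by
  rw [sum_congr rfl fun T _ => show
    ∑ R ∈ E.filter (fun R => e ∈ R ∧ ¬ Disjoint T R), w R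
      = ∑ R ∈ E.filter (fun R => e ∈ R), if ¬ Disjoint T R then w R else 0 by
    rw [← sum_filter, filter_filter], sum_comm]
  refine sum_congr rfl fun R hR => ?_
  rw [← sum_filter, filter_filter, sum_const, nsmul_eq_mul,
    h.count_meet (mem_filter.1 hR).1 (mem_filter.1 hR).2, ← add_sum_erase _ _ (mem_filter.1 hR).2]
  have : ∀ f, (deg E f : ℝ) = D * 1 + D * dev E D f := by
    intro f; unfold dev; field_simp; ring
  rw [sum_congr rfl fun f _ => this f, sum_add_distrib, ← mul_sum, ← mul_sum, sum_const,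
    h.card_erase hR]
  norm_num; ring

lemma _root_.Vale.Agent.P046.Lin.sum_loss_at (h : Lin V E) (hD : D ≠ 0) (e : α) :
    ∑ T ∈ E.filter (fun T => e ∉ T), (loss E T e : ℝ)
      = deg E e * (2 * D - 2) + D * devSum E D e := by
  have := h.sum_kill hD e (fun _ => 1)
  simp only [one_mul, sum_const, nsmul_eq_mul, mul_one] at this
  unfold loss
  rw [this, sum_add_distrib, sum_const, nsmul_eq_mul, ← mul_sum, devSum, adjSum, deg]

lemma _root_.Vale.Agent.P046.Lin.sum_killDev (h : Lin V E) (hD : D ≠ 0) (e : α) :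
    ∑ T ∈ E.filter (fun T => e ∉ T), killDev E D T e
      = (2 * D - 2) * devSum E D e + D * quadSum E D e := by
  unfold killDev devSum adjSum quadSum
  rw [h.sum_kill hD e, mul_sum, mul_sum, ← sum_add_distrib]
  exact sum_congr rfl fun R _ => by ring

lemma card_meet_le (E : Finset (Finset α)) (R : Finset α) :
    ((E.filter fun T => ¬ Disjoint T R).card : ℝ) ≤ ∑ g ∈ R, (deg E g : ℝ) := by
  have : (E.filter fun T => ¬ Disjoint T R).card ≤ ∑ g ∈ R, deg E g := by
    refine le_trans (card_le_card ?_) card_biUnion_le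
    intro T hT
    obtain ⟨g, hg1, hg2⟩ := not_disjoint_iff.1 (mem_filter.1 hT).2
    exact mem_biUnion.2 ⟨g, hg2, mem_filter.2 ⟨(mem_filter.1 hT).1, hg1⟩⟩
  exact_mod_cast this

/-- Total loss of the neighbours of `e`, up to a lower order term. -/
lemma _root_.Vale.Agent.P046.Lin.sum_lossSum (h : Lin V E) (hD : D ≠ 0) {Δ : ℝ} (hΔ : ∀ f ∈ V, (deg E f : ℝ) ≤ Δ)
    (e : α) :
    ∑ T ∈ E.filter (fun T => e ∉ T), lossSum E T e
        ≤ D * (2 * D - 2) * (2 * deg E e + devSum E D e) + D * adjSum E (devSum E D) e ∧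
    D * (2 * D - 2) * (2 * deg E e + devSum E D e) + D * adjSum E (devSum E D) e
        - 18 * Δ * deg E e
      ≤ ∑ T ∈ E.filter (fun T => e ∉ T), lossSum E T e := by
  have hswap : ∑ T ∈ E.filter (fun T => e ∉ T), lossSum E T e
      = adjSum E (fun _ => (0:ℝ)) e + ∑ R ∈ E.filter (fun R => e ∈ R), ∑ f ∈ R.erase e,
          ∑ T ∈ E.filter (fun T => Disjoint T R), (loss E T f : ℝ) := by
    unfold lossSum
    rw [sum_congr rfl fun T _ => show
      ∑ R ∈ E.filter (fun R => e ∈ R ∧ Disjoint T R), ∑ f ∈ R.erase e, (loss E T f : ℝ)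
        = ∑ R ∈ E.filter (fun R => e ∈ R),
            if Disjoint T R then ∑ f ∈ R.erase e, (loss E T f : ℝ) else 0 by
      rw [← sum_filter, filter_filter], sum_comm]
    simp only [adjSum, sum_const_zero, zero_add]
    refine sum_congr rfl fun R hR => ?_
    rw [← sum_filter, filter_filter, sum_comm]
    refine sum_congr rfl fun f _ => sum_congr ?_ fun _ _ => rfl
    ext T
    simp only [mem_filter]
    exact ⟨fun hT => ⟨hT.1, hT.2.2⟩,
      fun hT => ⟨hT.1, fun heT => disjoint_left.1 hT.2 heT (mem_filter.1 hR).2, hT.2⟩⟩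
  have key : ∀ R ∈ E.filter (fun R => e ∈ R), ∀ f ∈ R.erase e,
      ∑ T ∈ E.filter (fun T => Disjoint T R), (loss E T f : ℝ)
        ≤ deg E f * (2 * D - 2) + D * devSum E D f ∧
      deg E f * (2 * D - 2) + D * devSum E D f - 9 * Δ
        ≤ ∑ T ∈ E.filter (fun T => Disjoint T R), (loss E T f : ℝ) := by
    intro R hR f hf
    obtain ⟨hRE, -⟩ := mem_filter.1 hR
    have hfR := (mem_erase.1 hf).2
    rw [← h.sum_loss_at hD f, ← sum_filter_add_sum_filter_not (E.filter fun T => f ∉ T)
      (fun T => Disjoint T R) (fun T => (loss E T f : ℝ)), filter_filter, filter_filter]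
    have e1 : E.filter (fun T => f ∉ T ∧ Disjoint T R) = E.filter fun T => Disjoint T R := by
      ext T
      simp only [mem_filter]
      exact ⟨fun hT => ⟨hT.1, hT.2.2⟩,
        fun hT => ⟨hT.1, fun h1 => disjoint_left.1 hT.2 h1 hfR, hT.2⟩⟩
    rw [e1]
    have h0 : 0 ≤ ∑ T ∈ E.filter (fun T => f ∉ T ∧ ¬ Disjoint T R), (loss E T f : ℝ) :=
      sum_nonneg fun _ _ => Nat.cast_nonneg _
    have h1 : ∑ T ∈ E.filter (fun T => f ∉ T ∧ ¬ Disjoint T R), (loss E T f : ℝ)
        ≤ 9 * Δ := by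
      calc ∑ T ∈ E.filter (fun T => f ∉ T ∧ ¬ Disjoint T R), (loss E T f : ℝ)
          ≤ ∑ _T ∈ E.filter (fun T => f ∉ T ∧ ¬ Disjoint T R), (3:ℝ) := by
            refine sum_le_sum fun T hT => ?_
            exact_mod_cast h.loss_le_three (mem_filter.1 hT).1 (mem_filter.1 hT).2.1
        _ = 3 * ((E.filter fun T => f ∉ T ∧ ¬ Disjoint T R).card : ℝ) := by
            rw [sum_const, nsmul_eq_mul]; ring
        _ ≤ 3 * ((E.filter fun T => ¬ Disjoint T R).card : ℝ) := by
            gcongr with T; exact fun hT => hT.2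
        _ ≤ 3 * ∑ g ∈ R, (deg E g : ℝ) := by gcongr; exact card_meet_le E R
        _ ≤ 3 * ∑ _g ∈ R, Δ := by gcongr with g hg; exact hΔ g (h.sub R hRE hg)
        _ = 9 * Δ := by rw [sum_const, h.three R hRE, nsmul_eq_mul]; norm_num; ring
    constructor <;> linarith
  rw [hswap]
  have e2 : D * (2 * D - 2) * (2 * deg E e + devSum E D e) + D * adjSum E (devSum E D) e
      = adjSum E (fun f => (deg E f : ℝ) * (2 * D - 2) + D * devSum E D f) e := by
    rw [adjSum_add, adjSum_mul,
      show (fun f => (deg E f : ℝ) * (2 * D - 2)) = fun f => (2 * D - 2) * (deg E f : ℝ) from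
        funext fun f => mul_comm _ _,
      adjSum_mul, h.adjSum_deg hD e]
    ring
  have e3 : 18 * Δ * (deg E e : ℝ) = adjSum E (fun _ => 9 * Δ) e := by
    unfold adjSum deg
    rw [sum_congr rfl (g := fun _ => 18 * Δ) fun R hR => by
      rw [sum_const, h.card_erase hR, nsmul_eq_mul]; norm_num; ring, sum_const, nsmul_eq_mul]
    ring
  rw [e2, e3]
  simp only [adjSum, sum_const_zero, zero_add, ← sum_sub_distrib]
  exact ⟨sum_le_sum fun R hR => sum_le_sum fun f hf => (key R hR f hf).1,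
    sum_le_sum fun R hR => sum_le_sum fun f hf => (key R hR f hf).2⟩

/-- The exact drift of `devSum`: decay at rate two, minus the neighbourhood average, minus the
quadratic term. -/
theorem _root_.Vale.Agent.P046.Lin.devSum_drift (h : Lin V E) {e : α} (he : e ∈ V) (hD : 1 ≤ D)
    (hQ : 2 * D ≤ E.card) (hΔ : ∀ f ∈ V, (deg E f : ℝ) ≤ 2 * D) :
    |(∑ T ∈ E.filter (fun T => e ∉ T),
        (devSum (nextE E T) (nextD E D) e - (1 - 2 * D / E.card) * devSum E D e))
      + adjSum E (devSum E D) e + D * quadSum E D e|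
      ≤ 200 * D + 200 * D ^ 3 / E.card := by
  have hD0 : (0:ℝ) < D := by linarith
  have hQ0 : (0:ℝ) < E.card := by linarith
  set a := 2 * D / (E.card : ℝ) with hadef
  have ha0 : 0 ≤ a := by positivity
  have ha1 : a ≤ 1 := by rw [hadef, div_le_one hQ0]; exact hQ
  have haQ : a * E.card = 2 * D := by rw [hadef]; field_simp
  have hnD : nextD E D = D / (1 + a) := rfl
  set Y : ℝ := (deg E e : ℝ) with hYdef
  set S := devSum E D e with hSdef
  set A := adjSum E (devSum E D) e with hAdef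
  set P := quadSum E D e with hPdef
  obtain ⟨hup, hlo⟩ := h.sum_lossSum hD0.ne' hΔ e
  set W := ∑ T ∈ E.filter (fun T => e ∉ T), lossSum E T e with hWdef
  set err := D * (2 * D - 2) * (2 * Y + S) + D * A - W with herr
  have eq : (∑ T ∈ E.filter (fun T => e ∉ T),
        (devSum (nextE E T) (D / (1 + a)) e - (1 - a) * S))
      + A + D * P
      = 2 * S + 4 * Y + 2 * S + (1 + a) * (err / D)
        + a * (-2 * Y * S - 2 * Y ^ 2 - (2 * D - 2) * S - 2 * Y * (2 * D - 2) - 2 * D * S
          - (2 * D - 2) * (2 * Y + S) - A - D * P) := by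
    simp only [h.devSum_next hD0.ne' ha0, sum_sub_distrib, sum_add_distrib, ← mul_sum, sum_const,
      nsmul_eq_mul, h.sum_loss_at hD0.ne', h.sum_killDev hD0.ne', card_alive]
    rw [← hWdef, ← hYdef, ← hSdef, ← hPdef,
      show W = D * (2 * D - 2) * (2 * Y + S) + D * A - err by rw [herr]; ring]
    field_simp
    linear_combination (2 * D * S + 2 * D * Y) * haQ
  rw [hnD, eq]
  have hY0 : 0 ≤ Y := Nat.cast_nonneg _
  have hY2 : Y ≤ 2 * D := hΔ e he
  have hu : ∀ f ∈ V, |dev E D f| ≤ 1 := by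
    intro f hf
    have h1 := hΔ f hf
    have h2 := one_add_dev E D f
    have h3 : (deg E f : ℝ) / D ≤ 2 := by rw [div_le_iff₀ hD0]; exact h1
    have h4 : 0 ≤ (deg E f : ℝ) / D := by positivity
    rw [abs_le]; constructor <;> linarith
  have hS1 : ∀ f ∈ V, |devSum E D f| ≤ 4 * D := by
    intro f hf
    refine (h.abs_adjSum_le hu f).trans ?_
    linarith [hΔ f hf]
  have hS : |S| ≤ 4 * D := hS1 e he
  have hA : |A| ≤ 16 * D ^ 2 := by
    refine (h.abs_adjSum_le hS1 e).trans ?_
    nlinarith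
  have hP0 : 0 ≤ P := quadSum_nonneg E D e
  have hP : P ≤ 8 * D := by
    refine le_trans (b := ∑ _R ∈ E.filter (fun R => e ∈ R), (4:ℝ)) ?_ ?_
    · refine sum_le_sum fun R hR => ?_
      have hb : |∑ f ∈ R.erase e, dev E D f| ≤ 2 := by
        refine (abs_sum_le_sum_abs _ _).trans ?_
        calc ∑ f ∈ R.erase e, |dev E D f| ≤ ∑ _f ∈ R.erase e, (1:ℝ) :=
              sum_le_sum fun f hf => hu f (h.sub R (mem_filter.1 hR).1 (mem_erase.1 hf).2)
          _ = 2 := by rw [sum_const, h.card_erase hR]; norm_num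
      have := sq_le_sq' (abs_le.1 hb).1 (abs_le.1 hb).2
      linarith
    · rw [sum_const, nsmul_eq_mul]
      have : ((E.filter fun R => e ∈ R).card : ℝ) = Y := rfl
      rw [this]; linarith
  have herr0 : 0 ≤ err := by rw [herr]; linarith
  have herr1 : err / D ≤ 72 * D := by
    rw [div_le_iff₀ hD0]
    have : 36 * D * Y ≤ 36 * D * (2 * D) := mul_le_mul_of_nonneg_left hY2 (by linarith)
    linarith
  have herr2 : 0 ≤ err / D := by positivity
  have hbr : |(-2 * Y * S - 2 * Y ^ 2 - (2 * D - 2) * S - 2 * Y * (2 * D - 2) - 2 * D * S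
      - (2 * D - 2) * (2 * Y + S) - A - D * P)| ≤ 100 * D ^ 2 := by
    have k1 : |Y * S| ≤ 8 * D ^ 2 := by
      rw [abs_mul, abs_of_nonneg hY0, show 8 * D ^ 2 = 2 * D * (4 * D) by ring]
      exact mul_le_mul hY2 hS (abs_nonneg _) (by linarith)
    have k2 : |(2 * D - 2) * S| ≤ 8 * D ^ 2 := by
      rw [abs_mul, abs_of_nonneg (by linarith : (0:ℝ) ≤ 2 * D - 2),
        show 8 * D ^ 2 = 2 * D * (4 * D) by ring]
      exact mul_le_mul (by linarith) hS (abs_nonneg _) (by linarith)
    have k3 : |D * S| ≤ 4 * D ^ 2 := by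
      rw [abs_mul, abs_of_pos hD0, show 4 * D ^ 2 = D * (4 * D) by ring]
      exact mul_le_mul_of_nonneg_left hS hD0.le
    have k4 : (2 * D - 2) * Y ≤ 4 * D ^ 2 := by
      rw [show 4 * D ^ 2 = 2 * D * (2 * D) by ring]
      exact mul_le_mul (by linarith) hY2 hY0 (by linarith)
    have k5 : 0 ≤ (2 * D - 2) * Y := mul_nonneg (by linarith) hY0
    have k6 : Y ^ 2 ≤ 4 * D ^ 2 := by
      rw [show 4 * D ^ 2 = 2 * D * (2 * D) by ring, sq]
      exact mul_le_mul hY2 hY2 hY0 (by linarith)
    have k7 : D * P ≤ 8 * D ^ 2 := by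
      rw [show 8 * D ^ 2 = D * (8 * D) by ring]
      exact mul_le_mul_of_nonneg_left hP hD0.le
    have k8 : 0 ≤ D * P := by positivity
    obtain ⟨a1, a2⟩ := abs_le.1 k1
    obtain ⟨b1, b2⟩ := abs_le.1 k2
    obtain ⟨c1, c2⟩ := abs_le.1 k3
    obtain ⟨d1, d2⟩ := abs_le.1 hA
    have k9 : 0 ≤ D ^ 2 := sq_nonneg D
    rw [show -2 * Y * S - 2 * Y ^ 2 - (2 * D - 2) * S - 2 * Y * (2 * D - 2) - 2 * D * S
        - (2 * D - 2) * (2 * Y + S) - A - D * P
      = -2 * (Y * S) - 2 * Y ^ 2 - 2 * ((2 * D - 2) * S) - 4 * ((2 * D - 2) * Y) - 2 * (D * S)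
        - A - D * P by ring, abs_le]
    have k10 : 0 ≤ Y ^ 2 := sq_nonneg Y
    constructor <;> linarith
  have hfin : 200 * D ^ 3 / (E.card : ℝ) = a * (100 * D ^ 2) := by rw [hadef]; field_simp; ring
  rw [hfin]
  have k9 := mul_le_mul_of_nonneg_left hbr ha0
  rw [← abs_of_nonneg ha0, ← abs_mul, abs_of_nonneg ha0] at k9
  have k10 : (1 + a) * (err / D) ≤ 144 * D := by
    rw [show 144 * D = 2 * (72 * D) by ring]
    exact mul_le_mul (by linarith) herr1 herr2 (by norm_num)
  have k11 : 0 ≤ (1 + a) * (err / D) := by positivity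
  obtain ⟨f1, f2⟩ := abs_le.1 k9
  obtain ⟨g1, g2⟩ := abs_le.1 hS
  rw [abs_le]; constructor <;> linarith

end

end Vale.Agent.P046.Full
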