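import Vale.Agent.P046.Full.Stage.Triple

/-!
Size and variance of the jumps of the neighbouring deviation sum, compensated by the vertex
filters.
-/

namespace Vale.Agent.P046.Full

open Finset

noncomputable section

variable {n : ℕ} {G : Finset (Finset (Fin n))}

lemma pair_notMem_powerset_of_left {U : Finset (Fin n)} {v z : Fin n} (h : v ∉ U) :
    ({v, z} : Finset (Fin n)) ∉ U.powersetCard 2 := fun hh => h (pair_mem_powerset.1 hh).1

lemma pair_notMem_powerset_of_right {U : Finset (Fin n)} {v z : Fin n} (h : z ∉ U) :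
    ({v, z} : Finset (Fin n)) ∉ U.powersetCard 2 := fun hh => h (pair_mem_powerset.1 hh).2.1

/-- `lossSum` in terms of vertices. -/
lemma lossSum_eq {e U : Finset (Fin n)} (hG : G ⊆ completeEdges n) (he : e ∈ G)
    (heU : e ∉ U.powersetCard 2) :
    lossSum (triHyper G) (U.powersetCard 2) e
      = ∑ z ∈ (cn G e).filter (fun z => ¬ (z ∈ U ∧ ∃ v ∈ e, v ∈ U)), ∑ v ∈ e,
          (((cn G {v, z}).filter fun t => t ∈ U ∧ ∃ u ∈ ({v, z} : Finset (Fin n)), u ∈ U).card
            : ℝ) := by
  unfold lossSum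
  rw [← filter_filter, sum_filter, sum_at hG he, sum_filter]
  refine sum_congr rfl fun z hz => ?_
  have he2 := card_edge hG he
  have hze := notMem_cn hG hz
  have hiff := not_disjoint_at he2 hze heU (U := U)
  by_cases hk : z ∈ U ∧ ∃ v ∈ e, v ∈ U
  · rw [if_neg (hiff.2 hk), if_neg (not_not.2 hk)]
  · have hd : Disjoint (U.powersetCard 2) ((insert z e).powersetCard 2) := by
      by_contra hd; exact hk (hiff.1 hd)
    rw [if_pos hd, if_pos hk, sum_erase_at he2 hze]
    refine sum_congr rfl fun v hv => ?_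
    have hvz : v ≠ z := fun h => hze (h ▸ hv)
    rw [loss_eq hG (mem_cn.1 hz v hv)]
    intro hc
    exact disjoint_left.1 hd hc
      (pair_mem_powerset.2 ⟨mem_insert_of_mem hv, mem_insert_self z e, hvz⟩)

/-- A triangle avoiding both ends of `e` costs the neighbours of `e` at most eighteen. -/
lemma lossSum_far {e U : Finset (Fin n)} (hG : G ⊆ completeEdges n) (he : e ∈ G)
    (hU : U.card = 3) (h : ∀ v ∈ e, v ∉ U) :
    lossSum (triHyper G) (U.powersetCard 2) e ≤ 18 := by
  have he2 := card_edge hG he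
  have heU : e ∉ U.powersetCard 2 := by
    intro hc
    obtain ⟨v, hv⟩ := card_pos.1 (by omega : 0 < e.card)
    exact h v hv ((mem_powersetCard.1 hc).1 hv)
  rw [lossSum_eq hG he heU]
  calc _ ≤ ∑ z ∈ cn G e, (if z ∈ U then (6:ℝ) else 0) := by
        rw [filter_true_of_mem (s := cn G e) (p := fun z => ¬ (z ∈ U ∧ ∃ v ∈ e, v ∈ U))
          (by rintro z - ⟨-, v, hv, hvU⟩; exact h v hv hvU)]
        refine sum_le_sum fun z _ => ?_
        split_ifs with hzU
        · calc _ ≤ ∑ _v ∈ e, (3:ℝ) := by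
                refine sum_le_sum fun v _ => ?_
                have : ((cn G {v, z}).filter fun t =>
                    t ∈ U ∧ ∃ u ∈ ({v, z} : Finset (Fin n)), u ∈ U).card ≤ U.card :=
                  card_le_card fun t ht => (mem_filter.1 ht).2.1
                rw [hU] at this
                exact_mod_cast this
            _ = 6 := by rw [sum_const, he2]; norm_num
        · refine le_of_eq (sum_eq_zero fun v hv => ?_)
          rw [filter_false_of_mem, card_empty, Nat.cast_zero]
          rintro t - ⟨-, u, hu, huU⟩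
          rcases mem_insert.1 hu with rfl | hu
          · exact h _ hv huU
          · exact hzU ((mem_singleton.1 hu) ▸ huU)
    _ ≤ ∑ _z ∈ U, (6:ℝ) := by
        rw [← sum_filter]
        exact sum_le_sum_of_subset_of_nonneg (fun z hz => (mem_filter.1 hz).2)
          fun _ _ _ => by norm_num
    _ = 18 := by rw [sum_const, hU]; norm_num

/-- A triangle at one end `x` of `e` costs the neighbours of `e` the two triple counts. -/
lemma lossSum_near {x y : Fin n} {U : Finset (Fin n)} (hG : G ⊆ completeEdges n)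
    (he : ({x, y} : Finset (Fin n)) ∈ G) (hU : U ∈ triangles G) (hx : x ∈ U) (hy : y ∉ U) :
    lossSum (triHyper G) (U.powersetCard 2) {x, y}
        ≤ ∑ w ∈ U.erase x, ((cn G {x, y, w}).card : ℝ) ∧
    ∑ w ∈ U.erase x, ((cn G {x, y, w}).card : ℝ)
        - 2 * (((U.erase x).filter fun w => w ∈ cn G {x, y}).card : ℝ)
      ≤ lossSum (triHyper G) (U.powersetCard 2) {x, y} := by
  have hxy := ne_of_edge hG he
  have heU : ({x, y} : Finset (Fin n)) ∉ U.powersetCard 2 := fun hc =>
    hy (pair_mem_powerset.1 hc).2.1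
  set F := (cn G {x, y}).filter fun z => ¬ (z ∈ U ∧ ∃ v ∈ ({x, y} : Finset (Fin n)), v ∈ U)
    with hF
  have hzU : ∀ z ∈ F, z ∉ U := fun z hz hc =>
    (mem_filter.1 hz).2 ⟨hc, x, mem_insert_self _ _, hx⟩
  have hval : ∀ z ∈ F, ∑ v ∈ ({x, y} : Finset (Fin n)),
      (((cn G {v, z}).filter fun t => t ∈ U ∧ ∃ u ∈ ({v, z} : Finset (Fin n)), u ∈ U).card : ℝ)
        = ∑ w ∈ U.erase x, if z ∈ cn G {x, y, w} then (1:ℝ) else 0 := by
    intro z hz
    rw [sum_pair hxy, show ((cn G {y, z}).filter fun t =>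
        t ∈ U ∧ ∃ u ∈ ({y, z} : Finset (Fin n)), u ∈ U) = ∅ by
      rw [filter_eq_empty_iff]
      rintro t - ⟨-, u, hu, huU⟩
      rcases mem_insert.1 hu with rfl | hu
      · exact hy huU
      · exact hzU z hz ((mem_singleton.1 hu) ▸ huU), card_empty, Nat.cast_zero, add_zero,
      sum_boole]
    congr 2
    have hz' := mem_cn.1 (mem_filter.1 hz).1
    ext w
    simp only [mem_filter, mem_cn, mem_erase, mem_insert, mem_singleton, forall_eq_or_imp,
      forall_eq]
    constructor
    · rintro ⟨⟨h1, h2⟩, h3, -⟩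
      exact ⟨⟨(ne_of_edge hG h1).symm, h3⟩, hz' x (mem_insert_self _ _),
        hz' y (mem_insert_of_mem (mem_singleton_self _)), pair_comm z w ▸ h2⟩
    · rintro ⟨⟨h1, h2⟩, -, -, h5⟩
      exact ⟨⟨pair_mem_of_triangle hU hx h2 h1.symm, pair_comm w z ▸ h5⟩, h2,
        ⟨x, Or.inl rfl, hx⟩⟩
  have hkey : lossSum (triHyper G) (U.powersetCard 2) {x, y}
      = ∑ w ∈ U.erase x, (((cn G {x, y, w}).filter fun z => z ∈ F).card : ℝ) := by
    rw [lossSum_eq hG he heU, ← hF, sum_congr rfl hval, sum_comm]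
    refine sum_congr rfl fun w _ => ?_
    rw [sum_boole]
    congr 2
    ext z; simp [and_comm]
  rw [hkey]
  constructor
  · exact sum_le_sum fun w _ => by exact_mod_cast card_filter_le _ _
  · rw [sub_le_iff_le_add]
    have hc : (((U.erase x).filter fun w => w ∈ cn G {x, y}).card : ℝ)
        = ((U.erase x).filter fun w => w ∈ cn G {x, y}).card := rfl
    calc ∑ w ∈ U.erase x, ((cn G {x, y, w}).card : ℝ)
        ≤ ∑ w ∈ U.erase x, ((((cn G {x, y, w}).filter fun z => z ∈ F).card : ℝ)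
            + (((U.erase x).filter fun w => w ∈ cn G {x, y}).card : ℝ)) := by
          refine sum_le_sum fun w _ => ?_
          rw [← Nat.cast_add, Nat.cast_le,
            ← card_filter_add_card_filter_not (s := cn G {x, y, w}) (fun z => z ∈ F)]
          refine Nat.add_le_add_left (card_le_card fun z hz => ?_) _
          obtain ⟨hz1, hz2⟩ := mem_filter.1 hz
          have hze : z ∈ cn G {x, y} :=
            mem_cn.2 fun v hv => mem_cn.1 hz1 v (by
              rcases mem_insert.1 hv with rfl | hv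
              · exact mem_insert_self _ _
              · exact mem_insert_of_mem (mem_insert.2 (Or.inl (mem_singleton.1 hv))))
          have : z ∈ U := by
            by_contra hc'
            exact hz2 (mem_filter.2 ⟨hze, fun hh => hc' hh.1⟩)
          exact mem_filter.2 ⟨mem_erase.2 ⟨fun hzx => notMem_cn hG hze (hzx ▸ mem_insert_self _ _),
            this⟩, hze⟩
      _ = _ := by
          rw [sum_add_distrib, sum_const, card_erase_of_mem hx, card_triangle hU, nsmul_eq_mul]
          norm_num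

/-- Squared deviation of a triple count, usable in the sparse regime. -/
lemma sq_dev_le {N P B : ℝ} (hN : 0 ≤ N) (hP : 0 ≤ P) (hB : 0 ≤ B)
    (h : |N - P| ≤ B * (√P + 1)) : (N - P) ^ 2 ≤ 4 * (B ^ 2 + B) * (N + P) := by
  rw [← sq_abs]
  have hr := Real.sqrt_nonneg P
  have hq := Real.mul_self_sqrt hP
  by_cases h1 : 1 ≤ P
  · have : |N - P| ≤ 2 * B * √P := by
      have : 1 ≤ √P := Real.one_le_sqrt.2 h1
      nlinarith
    calc |N - P| ^ 2 ≤ (2 * B * √P) ^ 2 := pow_le_pow_left₀ (abs_nonneg _) this 2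
      _ = 4 * B ^ 2 * P := by rw [mul_pow, Real.sq_sqrt hP]; ring
      _ ≤ 4 * (B ^ 2 + B) * (N + P) := by gcongr <;> linarith
  · have h2 : √P ≤ 1 := Real.sqrt_le_one.2 (le_of_not_ge h1)
    have h3 : |N - P| ≤ N + P := by rw [abs_le]; constructor <;> linarith
    have h4 : |N - P| ≤ 2 * B := h.trans (by nlinarith)
    calc |N - P| ^ 2 ≤ 2 * B * (N + P) := by
          rw [sq]; exact mul_le_mul h4 h3 (abs_nonneg _) (by linarith)
      _ ≤ 4 * (B ^ 2 + B) * (N + P) :=
          mul_le_mul_of_nonneg_right (by nlinarith [sq_nonneg B]) (by linarith)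

lemma sq_three_le {u v r M a b c : ℝ} (hu : u ^ 2 ≤ 4 * M * a) (hv : v ^ 2 ≤ 4 * M * b)
    (hr : r ^ 2 ≤ (2 * c) ^ 2) (hc0 : 0 ≤ c) (hc2 : c ≤ 2) (hM : 0 ≤ M) (ha : 0 ≤ a)
    (hb : 0 ≤ b) : (u + v + r) ^ 2 ≤ 16 * (M + 1) * (a + b + c) + 8 * c := by
  have t1 : (u + v + r) ^ 2 ≤ 3 * (u ^ 2 + v ^ 2 + r ^ 2) := by
    linarith [sq_nonneg (u - v), sq_nonneg (u - r), sq_nonneg (v - r)]
  have c2 : c ^ 2 ≤ 2 * c := by rw [sq]; exact mul_le_mul_of_nonneg_right hc2 hc0
  have n1 : 0 ≤ M * c := mul_nonneg hM hc0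
  have n2 : 0 ≤ M * (a + b) := mul_nonneg hM (add_nonneg ha hb)
  linarith

/-- Jump of the neighbouring deviation sum beyond contraction, compensated at the ends of `e`. -/
def nbrJump (G : Finset (Finset (Fin n))) (D : ℝ) (e U : Finset (Fin n)) : ℝ :=
  devSum (triHyper (G \ U.powersetCard 2)) (nextD (triHyper G) D) e
    - (1 - 2 * D / (triHyper G).card) * devSum (triHyper G) D e
    + 2 * √(D / n) * ((e ∩ U).card : ℝ)

/-- The hypotheses on a state used for the jumps. -/
structure NbrGood (G : Finset (Finset (Fin n))) (D μ B : ℝ) : Prop where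
  sub : G ⊆ completeEdges n
  one_le : 1 ≤ D
  le_n : D ≤ n
  μ_nonneg : 0 ≤ μ
  μ_le : μ ≤ 1
  B_nonneg : 0 ≤ B
  dev_le : ∀ e ∈ G, |dev (triHyper G) D e| ≤ μ
  triple_le : ∀ S : Finset (Fin n), S.card = 3 → |tripleDev G D S| ≤ B
  deg_le : ∀ x, ((cn G {x}).card : ℝ) ≤ 2 * √((n : ℝ) * D)
  big : 2 * D ≤ (triHyper G).card

namespace NbrGood

variable {D μ B : ℝ}

lemma codeg_le (h : NbrGood G D μ B) {e : Finset (Fin n)} (he : e ∈ G) :
    (deg (triHyper G) e : ℝ) ≤ 2 * D := by
  have h0 := h.one_le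
  have h1 := (abs_le.1 (h.dev_le e he)).2
  have h2 : (deg (triHyper G) e : ℝ) / D ≤ 2 := by
    have := h.μ_le
    unfold dev at h1; linarith
  rwa [div_le_iff₀ (by linarith)] at h2

lemma triple_abs (h : NbrGood G D μ B) {x y w : Fin n} (h1 : x ≠ y) (h2 : x ≠ w) (h3 : y ≠ w) :
    |((cn G {x, y, w}).card : ℝ) - tripleRef n D| ≤ B * (√(tripleRef n D) + 1) := by
  have := h.triple_le {x, y, w} (card_eq_three.2 ⟨x, y, w, h1, h2, h3, rfl⟩)
  rw [tripleDev, abs_div, abs_of_pos (by positivity : (0:ℝ) < √(tripleRef n D) + 1),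
    div_le_iff₀ (by positivity)] at this
  exact this

lemma sum_triple_le (h : NbrGood G D μ B) {x y : Fin n} (he : ({x, y} : Finset (Fin n)) ∈ G) :
    ∑ w ∈ cn G {x}, ((cn G {x, w}).card : ℝ)
        * (((cn G {x, y, w}).card : ℝ) + tripleRef n D + if w ∈ cn G {x, y} then 1 else 0)
      ≤ 16 * D ^ 3 := by
  have hD : 0 < D := by linarith [h.one_le]
  have hP := tripleRef_nonneg n hD.le
  have hY : ∀ w ∈ cn G {x}, ((cn G {x, w}).card : ℝ) ≤ 2 * D := by
    intro w hw
    have hxw : ({x, w} : Finset (Fin n)) ∈ G := by simpa [mem_cn] using hw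
    rw [← deg_eq_card_cn h.sub hxw]; exact h.codeg_le hxw
  have hYe : ((cn G {x, y}).card : ℝ) ≤ 2 * D := by
    rw [← deg_eq_card_cn h.sub he]; exact h.codeg_le he
  have h1 : ∑ w ∈ cn G {x}, ((cn G {x, y, w}).card : ℝ) ≤ 4 * D ^ 2 := by
    calc ∑ w ∈ cn G {x}, ((cn G {x, y, w}).card : ℝ)
        = ∑ z ∈ cn G {x, y}, (((cn G {x}).filter fun w => z ∈ cn G {x, y, w}).card : ℝ) := by
          simp only [← sum_boole]
          rw [sum_comm]
          refine sum_congr rfl fun w _ => ?_
          rw [sum_boole]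
          congr 2
          ext z
          simp only [mem_filter, mem_cn]
          exact ⟨fun hz => ⟨fun v hv => hz v (by
            rcases mem_insert.1 hv with rfl | hv
            · exact mem_insert_self _ _
            · exact mem_insert_of_mem (mem_insert.2 (Or.inl (mem_singleton.1 hv)))), hz⟩,
            fun hz => hz.2⟩
      _ ≤ ∑ _z ∈ cn G {x, y}, 2 * D := by
          refine sum_le_sum fun z hz => ?_
          have hxz : ({x, z} : Finset (Fin n)) ∈ G := mem_cn.1 hz x (mem_insert_self _ _)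
          refine le_trans ?_ (hY z (by simpa [mem_cn] using hxz))
          rw [Nat.cast_le]
          refine card_le_card fun w hw => ?_
          obtain ⟨hw1, hw2⟩ := mem_filter.1 hw
          refine mem_cn.2 fun v hv => ?_
          rcases mem_insert.1 hv with rfl | hv
          · simpa [mem_cn] using hw1
          · rw [mem_singleton.1 hv, pair_comm]
            exact mem_cn.1 hw2 w (by simp)
      _ ≤ 4 * D ^ 2 := by rw [sum_const, nsmul_eq_mul]; nlinarith
  have h2 : ((cn G {x}).card : ℝ) * tripleRef n D ≤ 2 * D ^ 2 := by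
    calc ((cn G {x}).card : ℝ) * tripleRef n D ≤ 2 * √((n : ℝ) * D) * (D * √(D / n)) :=
          mul_le_mul_of_nonneg_right (h.deg_le x) hP
      _ = 2 * D * √((n : ℝ) * D * (D / n)) := by
          rw [Real.sqrt_mul (by positivity : (0:ℝ) ≤ (n : ℝ) * D)]; ring
      _ ≤ 2 * D * D := by
          gcongr
          rw [Real.sqrt_le_left hD.le]
          have hn : (0:ℝ) < n := by linarith [h.le_n]
          exact le_of_eq (by field_simp)
      _ = _ := by ring
  have h3 : ∑ w ∈ cn G {x}, (if w ∈ cn G {x, y} then (1:ℝ) else 0) ≤ 2 * D := by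
    rw [sum_boole]
    refine le_trans ?_ hYe
    rw [Nat.cast_le]
    exact card_le_card fun w hw => (mem_filter.1 hw).2
  calc _ ≤ ∑ w ∈ cn G {x}, 2 * D
        * (((cn G {x, y, w}).card : ℝ) + tripleRef n D + if w ∈ cn G {x, y} then 1 else 0) := by
        refine sum_le_sum fun w hw => mul_le_mul_of_nonneg_right (hY w hw) ?_
        split_ifs <;> positivity
    _ = 2 * D * ((∑ w ∈ cn G {x}, ((cn G {x, y, w}).card : ℝ))
          + ((cn G {x}).card : ℝ) * tripleRef n D
          + ∑ w ∈ cn G {x}, if w ∈ cn G {x, y} then (1:ℝ) else 0) := by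
        rw [← mul_sum, sum_add_distrib, sum_add_distrib, sum_const, nsmul_eq_mul]
    _ ≤ 2 * D * (4 * D ^ 2 + 2 * D ^ 2 + 2 * D) := by gcongr
    _ ≤ _ := by nlinarith [h.one_le]

/-- Everything in a jump except the compensated loss. -/
lemma rest_le (h : NbrGood G D μ B) {e U : Finset (Fin n)} (he : e ∈ G)
    (hU : U ∈ triangles G) (heU : e ∉ U.powersetCard 2) :
    |nbrJump G D e U + (lossSum (triHyper G) (U.powersetCard 2) e
        - 2 * tripleRef n D * ((e ∩ U).card : ℝ)) / D|
      ≤ 48 * D ^ 2 / (triHyper G).card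
        + 4 * μ * loss (triHyper G) (U.powersetCard 2) e := by
  have hD : 0 < D := by linarith [h.one_le]
  have hLin := triHyper_lin G
  set Q : ℝ := ((triHyper G).card : ℝ) with hQ
  have hQ0 : 0 < Q := by linarith [h.big]
  set a := 2 * D / Q with hadef
  have ha : 0 ≤ a := by positivity
  have ha1 : a ≤ 1 := by rw [hadef, div_le_one hQ0]; exact h.big
  set Y : ℝ := (deg (triHyper G) e : ℝ)
  set S := devSum (triHyper G) D e
  set K : ℝ := (loss (triHyper G) (U.powersetCard 2) e : ℝ)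
  set KU := killDev (triHyper G) D (U.powersetCard 2) e
  set LS := lossSum (triHyper G) (U.powersetCard 2) e
  have hT : U.powersetCard 2 ∈ triHyper G := mem_image_of_mem _ hU
  have eq : nbrJump G D e U + (LS - 2 * tripleRef n D * ((e ∩ U).card : ℝ)) / D
      = 2 * a * S - (1 + a) * KU + 2 * a * (Y - K) - a * (LS / D) := by
    unfold nbrJump tripleRef
    rw [triHyper_next, show nextD (triHyper G) D = D / (1 + a) from rfl,
      hLin.devSum_next hD.ne' ha]
    field_simp
    ring
  rw [eq]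
  have hY : Y ≤ 2 * D := h.codeg_le he
  have hY0 : 0 ≤ Y := Nat.cast_nonneg _
  have hK0 : 0 ≤ K := Nat.cast_nonneg _
  have hK3 : K ≤ 3 := by
    simp only [K]; exact_mod_cast hLin.loss_le_three hT heU
  have hKY : K ≤ Y := by
    have := deg_next (triHyper G) (U.powersetCard 2) e
    simp only [K, Y]; exact_mod_cast (by omega : loss (triHyper G) (U.powersetCard 2) e ≤ deg (triHyper G) e)
  have hS : |S| ≤ 4 * D := by
    refine (hLin.abs_adjSum_le (fun f hf => (h.dev_le f hf).trans h.μ_le) e).trans ?_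
    linarith
  have hKU : |KU| ≤ 2 * μ * K := by
    refine (abs_sum_le_sum_abs _ _).trans ?_
    calc ∑ R ∈ (triHyper G).filter (fun R => e ∈ R ∧ ¬ Disjoint (U.powersetCard 2) R),
          |∑ f ∈ R.erase e, dev (triHyper G) D f|
        ≤ ∑ _R ∈ (triHyper G).filter (fun R => e ∈ R ∧ ¬ Disjoint (U.powersetCard 2) R),
            2 * μ := by
          refine sum_le_sum fun R hR => (abs_sum_le_sum_abs _ _).trans ?_
          obtain ⟨hR1, hR2, -⟩ := mem_filter.1 hR
          calc ∑ f ∈ R.erase e, |dev (triHyper G) D f| ≤ ∑ _f ∈ R.erase e, μ :=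
                sum_le_sum fun f hf => h.dev_le f (hLin.sub R hR1 (mem_erase.1 hf).2)
            _ = 2 * μ := by
                rw [sum_const, card_erase_of_mem hR2, hLin.three R hR1, nsmul_eq_mul]; norm_num
      _ = 2 * μ * K := by rw [sum_const, nsmul_eq_mul, mul_comm]; rfl
  have hLS0 : 0 ≤ LS := lossSum_nonneg _ _ _
  have hLS : LS / D ≤ 12 := by
    rw [div_le_iff₀ hD]
    calc LS ≤ ∑ _R ∈ (triHyper G).filter
          (fun R => e ∈ R ∧ Disjoint (U.powersetCard 2) R), (6:ℝ) := by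
          refine sum_le_sum fun R hR => ?_
          obtain ⟨hR1, hR2, hR3⟩ := mem_filter.1 hR
          calc ∑ f ∈ R.erase e, (loss (triHyper G) (U.powersetCard 2) f : ℝ)
              ≤ ∑ _f ∈ R.erase e, (3:ℝ) := by
                refine sum_le_sum fun f hf => ?_
                exact_mod_cast hLin.loss_le_three hT
                  fun hc => disjoint_left.1 hR3 hc (mem_erase.1 hf).2
            _ = 6 := by rw [sum_const, card_erase_of_mem hR2, hLin.three R hR1]; norm_num
      _ ≤ 12 * D := by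
          rw [sum_const, nsmul_eq_mul, deg_next_alive]
          change (Y - K) * 6 ≤ 12 * D
          linarith
  have hD1 := h.one_le
  have k1 : |2 * a * S + 2 * a * (Y - K) - a * (LS / D)| ≤ a * (24 * D) := by
    obtain ⟨s1, s2⟩ := abs_le.1 hS
    have : 0 ≤ LS / D := by positivity
    rw [show 2 * a * S + 2 * a * (Y - K) - a * (LS / D) = a * (2 * S + 2 * (Y - K) - LS / D) by
      ring, abs_mul, abs_of_nonneg ha]
    refine mul_le_mul_of_nonneg_left ?_ ha
    rw [abs_le]; constructor <;> linarith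
  have k2 : |(1 + a) * KU| ≤ 2 * (2 * μ * K) := by
    rw [abs_mul, abs_of_nonneg (by linarith : 0 ≤ 1 + a)]
    exact mul_le_mul (by linarith) hKU (abs_nonneg _) (by norm_num)
  rw [show 48 * D ^ 2 / Q = a * (24 * D) by rw [hadef]; ring]
  obtain ⟨a1, a2⟩ := abs_le.1 k1
  obtain ⟨b1, b2⟩ := abs_le.1 k2
  rw [abs_le]; constructor <;> linarith

/-- The compensated loss. -/
lemma loss_comp_le (h : NbrGood G D μ B) {x y : Fin n} {U : Finset (Fin n)}
    (he : ({x, y} : Finset (Fin n)) ∈ G) (hU : U ∈ triangles G) (hx : x ∈ U) (hy : y ∉ U) :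
    |lossSum (triHyper G) (U.powersetCard 2) {x, y}
        - 2 * tripleRef n D * ((({x, y} : Finset (Fin n)) ∩ U).card : ℝ)|
      ≤ 2 * B * (√(tripleRef n D) + 1) + 4 ∧
    (lossSum (triHyper G) (U.powersetCard 2) {x, y}
        - 2 * tripleRef n D * ((({x, y} : Finset (Fin n)) ∩ U).card : ℝ)) ^ 2
      ≤ 24 * (B ^ 2 + B + 1) * ∑ w ∈ U.erase x,
          (((cn G {x, y, w}).card : ℝ) + tripleRef n D
            + if w ∈ cn G {x, y} then 1 else 0) := by
  set P := tripleRef n D with hPdef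
  have hP0 : 0 ≤ P := tripleRef_nonneg n (by linarith [h.one_le])
  have h1 : (({x, y} : Finset (Fin n)) ∩ U).card = 1 := by
    rw [card_eq_one]; refine ⟨x, ?_⟩
    ext v; simp only [mem_inter, mem_insert, mem_singleton]
    exact ⟨fun hv => hv.1.resolve_right fun hh => hy (hh ▸ hv.2),
      fun hv => ⟨Or.inl hv, hv ▸ hx⟩⟩
  rw [h1, Nat.cast_one, mul_one]
  obtain ⟨up, lo⟩ := lossSum_near h.sub he hU hx hy
  set LS := lossSum (triHyper G) (U.powersetCard 2) {x, y}
  obtain ⟨p, q, hpq, hpqe⟩ := card_eq_two.1 (show (U.erase x).card = 2 by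
    rw [card_erase_of_mem hx, card_triangle hU])
  rw [hpqe, sum_pair hpq] at up lo
  rw [hpqe, sum_pair hpq]
  have hmem : ∀ w ∈ ({p, q} : Finset (Fin n)), x ≠ w ∧ y ≠ w := by
    intro w hw
    rw [← hpqe, mem_erase] at hw
    exact ⟨hw.1.symm, fun hh => hy (hh ▸ hw.2)⟩
  have hp := h.triple_abs (ne_of_edge h.sub he) (hmem p (by simp)).1 (hmem p (by simp)).2
  have hq := h.triple_abs (ne_of_edge h.sub he) (hmem q (by simp)).1 (hmem q (by simp)).2
  have sp := sq_dev_le (Nat.cast_nonneg _) hP0 h.B_nonneg hp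
  have sq' := sq_dev_le (Nat.cast_nonneg _) hP0 h.B_nonneg hq
  set Np : ℝ := ((cn G {x, y, p}).card : ℝ)
  set Nq : ℝ := ((cn G {x, y, q}).card : ℝ)
  set cp : ℝ := if p ∈ cn G {x, y} then (1:ℝ) else 0 with hcp
  set cq : ℝ := if q ∈ cn G {x, y} then (1:ℝ) else 0 with hcq
  have hc : ((((({p, q} : Finset (Fin n))).filter fun w => w ∈ cn G {x, y}).card : ℕ) : ℝ)
      = cp + cq := by rw [← sum_boole, sum_pair hpq]
  rw [hc] at lo
  have cp01 : 0 ≤ cp ∧ cp ≤ 1 := by rw [hcp]; split_ifs <;> norm_num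
  have cq01 : 0 ≤ cq ∧ cq ≤ 1 := by rw [hcq]; split_ifs <;> norm_num
  obtain ⟨p1, p2⟩ := abs_le.1 hp
  obtain ⟨q1, q2⟩ := abs_le.1 hq
  refine ⟨by rw [abs_le]; constructor <;> linarith, ?_⟩
  have hNp : 0 ≤ Np := Nat.cast_nonneg _
  have hNq : 0 ≤ Nq := Nat.cast_nonneg _
  clear_value LS Np Nq cp cq P
  have hr2 : (LS - (Np + Nq)) ^ 2 ≤ (2 * (cp + cq)) ^ 2 := sq_le_sq' (by linarith) (by linarith)
  rw [show LS - 2 * P = (Np - P) + (Nq - P) + (LS - (Np + Nq)) by ring]
  have hM0 : 0 ≤ B ^ 2 + B := by have := h.B_nonneg; positivity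
  refine (sq_three_le sp sq' hr2 (by linarith) (by linarith) hM0 (by linarith)
    (by linarith)).trans ?_
  have n4 : 0 ≤ (B ^ 2 + B + 1) * (Np + P + (Nq + P)) := mul_nonneg (by linarith) (by linarith)
  have n5 : 0 ≤ (B ^ 2 + B) * (cp + cq) := mul_nonneg hM0 (by linarith)
  have n3 : 0 ≤ (B ^ 2 + B + 1) * (cp + cq) := mul_nonneg (by linarith) (by linarith)
  linarith

/-- Pointwise bound and second moment of the compensated jumps. -/
theorem nbrJump_bounds (h : NbrGood G D μ B) {e : Finset (Fin n)} (he : e ∈ G) :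
    (∀ U ∈ (triangles G).filter (fun U => e ∉ U.powersetCard 2),
      |nbrJump G D e U| ≤ (2 * B * (√(tripleRef n D) + 1) + 18) / D
        + 48 * D ^ 2 / (triHyper G).card + 12 * μ) ∧
    ∑ U ∈ (triangles G).filter (fun U => e ∉ U.powersetCard 2), nbrJump G D e U ^ 2
      ≤ D * (5000 * (B ^ 2 + B + 1)) + 2000 * μ ^ 2 * D ^ 2
        + 10000 * D ^ 4 / (triHyper G).card := by
  have hD : 0 < D := by linarith [h.one_le]
  have hLin := triHyper_lin G
  have hB := h.B_nonneg
  have hP0 := tripleRef_nonneg n hD.le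
  set Q : ℝ := ((triHyper G).card : ℝ) with hQ
  have hQ0 : 0 < Q := by linarith [h.big]
  obtain ⟨x, y, hxy, rfl⟩ := edge_eq he h.sub
  set e : Finset (Fin n) := {x, y} with hedef
  set A := (triangles G).filter (fun U => e ∉ U.powersetCard 2) with hA
  set δ : Finset (Fin n) → ℝ := fun U => lossSum (triHyper G) (U.powersetCard 2) e
    - 2 * tripleRef n D * ((e ∩ U).card : ℝ) with hδ
  set g : Finset (Fin n) → ℝ := fun U => 24 * (B ^ 2 + B + 1) *
    ((if x ∈ U then ∑ w ∈ U.erase x,
        (((cn G {x, y, w}).card : ℝ) + tripleRef n D + if w ∈ cn G {x, y} then 1 else 0) else 0)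
    + (if y ∈ U then ∑ w ∈ U.erase y,
        (((cn G {y, x, w}).card : ℝ) + tripleRef n D + if w ∈ cn G {y, x} then 1 else 0) else 0))
    + 18 * lossSum (triHyper G) (U.powersetCard 2) e with hg
  have hcomm : ({y, x} : Finset (Fin n)) = e := pair_comm y x
  have hsn : ∀ (a b : Fin n) (U : Finset (Fin n)), 0 ≤ ∑ w ∈ U.erase a,
      (((cn G {a, b, w}).card : ℝ) + tripleRef n D + if w ∈ cn G {a, b} then 1 else 0) :=
    fun a b U => sum_nonneg fun w _ => by split_ifs <;> positivity
  have hcase : ∀ U ∈ A, |δ U| ≤ 2 * B * (√(tripleRef n D) + 1) + 18 ∧ δ U ^ 2 ≤ g U := by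
    intro U hU
    obtain ⟨hU, heU⟩ := mem_filter.1 hU
    have hLS0 := lossSum_nonneg (triHyper G) (U.powersetCard 2) e
    have hK : 0 ≤ 24 * (B ^ 2 + B + 1) := by positivity
    by_cases hx : x ∈ U
    · have hy : y ∉ U := fun hy => heU (pair_mem_powerset.2 ⟨hx, hy, hxy⟩)
      obtain ⟨b1, b2⟩ := h.loss_comp_le he hU hx hy
      refine ⟨b1.trans (by linarith), b2.trans ?_⟩
      simp only [hg]
      rw [if_pos hx, if_neg hy, add_zero]
      linarith
    · by_cases hy : y ∈ U
      · obtain ⟨b1, b2⟩ := h.loss_comp_le (x := y) (y := x) (by rw [hcomm]; exact he) hU hy hx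
        rw [hcomm] at b1 b2
        refine ⟨b1.trans (by linarith), b2.trans ?_⟩
        simp only [hg]
        rw [if_neg hx, if_pos hy, zero_add, hcomm]
        linarith
      · have hfar : ∀ v ∈ e, v ∉ U := by
          intro v hv
          rw [hedef] at hv
          rcases mem_insert.1 hv with rfl | hv
          · exact hx
          · rw [mem_singleton.1 hv]; exact hy
        have hle := lossSum_far h.sub he (card_triangle hU) hfar
        have hk : e ∩ U = ∅ :=
          disjoint_iff_inter_eq_empty.1 (disjoint_left.2 fun v hv => hfar v hv)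
        simp only [hδ, hg, hk, card_empty, Nat.cast_zero, mul_zero, sub_zero]
        rw [if_neg hx, if_neg hy, add_zero, mul_zero, zero_add, abs_of_nonneg hLS0]
        refine ⟨?_, by rw [sq]; exact mul_le_mul_of_nonneg_right hle hLS0⟩
        have : 0 ≤ 2 * B * (√(tripleRef n D) + 1) := by positivity
        linarith
  have hsplit : ∀ U ∈ A, |nbrJump G D e U| ≤ |δ U| / D + 48 * D ^ 2 / Q
      + 4 * μ * loss (triHyper G) (U.powersetCard 2) e := by
    intro U hU
    obtain ⟨hU, heU⟩ := mem_filter.1 hU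
    have := h.rest_le he hU heU
    have h2 := abs_sub (nbrJump G D e U + δ U / D) (δ U / D)
    rw [add_sub_cancel_right, abs_div, abs_of_pos hD] at h2
    linarith
  have hK3 : ∀ U ∈ A, (loss (triHyper G) (U.powersetCard 2) e : ℝ) ≤ 3 := fun U hU => by
    exact_mod_cast hLin.loss_le_three (mem_image_of_mem _ (mem_filter.1 hU).1) (mem_filter.1 hU).2
  refine ⟨fun U hU => (hsplit U hU).trans ?_, ?_⟩
  · have := div_le_div_of_nonneg_right (hcase U hU).1 hD.le
    have := mul_le_mul_of_nonneg_left (hK3 U hU) (by linarith [h.μ_nonneg] : 0 ≤ 4 * μ)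
    linarith
  · have hpt : ∀ U ∈ A, nbrJump G D e U ^ 2 ≤ 3 / D ^ 2 * g U + 3 * (48 * D ^ 2 / Q) ^ 2
        + 144 * μ ^ 2 * loss (triHyper G) (U.powersetCard 2) e := by
      intro U hU
      set p := |δ U| / D
      set q := 48 * D ^ 2 / Q
      set l : ℝ := (loss (triHyper G) (U.powersetCard 2) e : ℝ)
      have h1 : nbrJump G D e U ^ 2 ≤ (p + q + 4 * μ * l) ^ 2 := by
        rw [← sq_abs]; exact pow_le_pow_left₀ (abs_nonneg _) (hsplit U hU) 2
      have h2 : (p + q + 4 * μ * l) ^ 2 ≤ 3 * (p ^ 2 + q ^ 2 + (4 * μ * l) ^ 2) := by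
        nlinarith [sq_nonneg (p - q), sq_nonneg (p - 4 * μ * l), sq_nonneg (q - 4 * μ * l)]
      have h3 : p ^ 2 ≤ g U / D ^ 2 := by
        simp only [p]; rw [div_pow, sq_abs]
        exact div_le_div_of_nonneg_right (hcase U hU).2 (sq_nonneg _)
      have h4 : l ^ 2 ≤ 3 * l := by
        rw [sq]; exact mul_le_mul_of_nonneg_right (hK3 U hU) (Nat.cast_nonneg _)
      have h5 : (4 * μ * l) ^ 2 ≤ 48 * μ ^ 2 * l := by
        rw [mul_pow, mul_pow, show (48:ℝ) * μ ^ 2 * l = 4 ^ 2 * μ ^ 2 * (3 * l) by ring]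
        exact mul_le_mul_of_nonneg_left h4 (by positivity)
      rw [show 3 / D ^ 2 * g U = 3 * (g U / D ^ 2) by ring]
      linarith
    refine (sum_le_sum hpt).trans ?_
    have hsub : A ⊆ triangles G := filter_subset _ _
    have hcard : (A.card : ℝ) ≤ Q := by
      rw [hQ, card_triHyper]; exact_mod_cast card_le_card hsub
    have hstar : ∀ a b : Fin n, ({a, b} : Finset (Fin n)) ∈ G →
        ∑ U ∈ A, (if a ∈ U then ∑ w ∈ U.erase a, (((cn G {a, b, w}).card : ℝ) + tripleRef n D
          + if w ∈ cn G {a, b} then 1 else 0) else 0) ≤ 16 * D ^ 3 := by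
      intro a b hab
      refine le_trans (sum_le_sum_of_subset_of_nonneg hsub fun U _ _ => ?_) ?_
      · split_ifs
        · exact hsn a b U
        · exact le_rfl
      · rw [← sum_filter, sum_star h.sub a]
        exact h.sum_triple_le hab
    have hmem : ∀ f ∈ G, (deg (triHyper G) f : ℝ) ≤ 2 * D := fun f hf => h.codeg_le hf
    obtain ⟨hLSs, -⟩ := hLin.sum_lossSum hD.ne' hmem e
    have hYe := hmem e he
    have hY0 : (0:ℝ) ≤ deg (triHyper G) e := Nat.cast_nonneg _
    have hS1 : ∀ f ∈ G, |devSum (triHyper G) D f| ≤ 4 * D := by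
      intro f hf
      refine (hLin.abs_adjSum_le (fun g hg => (h.dev_le g hg).trans h.μ_le) f).trans ?_
      linarith [hmem f hf]
    have hS := (abs_le.1 (hS1 e he)).2
    have hAS : adjSum (triHyper G) (devSum (triHyper G) D) e ≤ 16 * D ^ 2 := by
      refine (le_abs_self _).trans ((hLin.abs_adjSum_le hS1 e).trans ?_)
      rw [show 16 * D ^ 2 = 2 * (4 * D) * (2 * D) by ring]
      exact mul_le_mul_of_nonneg_left hYe (by linarith)
    have hLS3 : ∑ U ∈ A, lossSum (triHyper G) (U.powersetCard 2) e ≤ 32 * D ^ 3 := by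
      rw [hA, ← sum_alive e fun R => lossSum (triHyper G) R e]
      refine hLSs.trans ?_
      have k1 : D * (2 * D - 2) * (2 * deg (triHyper G) e + devSum (triHyper G) D e)
          ≤ D * (2 * D - 2) * (8 * D) :=
        mul_le_mul_of_nonneg_left (by linarith) (mul_nonneg hD.le (by linarith [h.one_le]))
      have k2 := mul_le_mul_of_nonneg_left hAS hD.le
      have k3 : 0 ≤ D ^ 2 := sq_nonneg D
      linarith
    have hK : ∑ U ∈ A, (loss (triHyper G) (U.powersetCard 2) e : ℝ) ≤ 8 * D ^ 2 := by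
      rw [hA, ← sum_alive e fun R => (loss (triHyper G) R e : ℝ), hLin.sum_loss_at hD.ne']
      have k1 := mul_le_mul_of_nonneg_right hYe (by linarith [h.one_le] : 0 ≤ 2 * D - 2)
      have k2 := mul_le_mul_of_nonneg_left hS hD.le
      linarith
    have hgs : ∑ U ∈ A, g U ≤ 24 * (B ^ 2 + B + 1) * (32 * D ^ 3) + 576 * D ^ 3 := by
      simp only [hg]
      rw [sum_add_distrib, ← mul_sum, sum_add_distrib, ← mul_sum]
      have := hstar x y he
      have := hstar y x (by rw [hcomm]; exact he)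
      refine add_le_add (mul_le_mul_of_nonneg_left (by linarith) (by positivity)) (by linarith)
    rw [sum_add_distrib, sum_add_distrib, ← mul_sum, ← mul_sum, sum_const, nsmul_eq_mul]
    have t1 : 3 / D ^ 2 * ∑ U ∈ A, g U ≤ D * (2500 * (B ^ 2 + B + 1)) +
        D * (2000 * (B ^ 2 + B + 1)) := by
      calc 3 / D ^ 2 * ∑ U ∈ A, g U
          ≤ 3 / D ^ 2 * (24 * (B ^ 2 + B + 1) * (32 * D ^ 3) + 576 * D ^ 3) :=
            mul_le_mul_of_nonneg_left hgs (by positivity)
        _ = D * (2304 * (B ^ 2 + B + 1)) + D * 1728 := by field_simp; ring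
        _ ≤ _ := by
            have : 0 ≤ D * (B ^ 2 + B) := by positivity
            linarith
    have t2 : (A.card : ℝ) * (3 * (48 * D ^ 2 / Q) ^ 2) ≤ 10000 * D ^ 4 / Q := by
      calc (A.card : ℝ) * (3 * (48 * D ^ 2 / Q) ^ 2) ≤ Q * (3 * (48 * D ^ 2 / Q) ^ 2) :=
            mul_le_mul_of_nonneg_right hcard (by positivity)
        _ = 6912 * D ^ 4 / Q := by field_simp; ring
        _ ≤ _ := by gcongr; norm_num
    have t3 := mul_le_mul_of_nonneg_left hK (by positivity : 0 ≤ 144 * μ ^ 2)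
    have : 0 ≤ μ ^ 2 * D ^ 2 := by positivity
    have : 0 ≤ D * (B ^ 2 + B + 1) := by positivity
    rw [← mul_sum]
    linarith

end NbrGood

end

end Vale.Agent.P046.Full
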