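import Vale.Agent.P046.Full.Defs
import Vale.Agent.P046.Full.Stage.NbrJump

/-!
One step of the neighbouring deviation sum with the vertex filters removed.
-/

namespace Vale.Agent.P046.Full

open Finset

noncomputable section

variable {n : ℕ} {G : Finset (Finset (Fin n))}

/-- `D` times the neighbouring deviation, minus its part coming from the vertex filters `b`. -/
def rpDev (G : Finset (Finset (Fin n))) (D : ℝ) (b : Fin n → ℝ) (e : Finset (Fin n)) : ℝ :=
  devSum (triHyper G) D e - D * ∑ v ∈ e, b v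

/-- The probability that the next triangle contains `v`. -/
def starProb (G : Finset (Finset (Fin n))) (v : Fin n) : ℝ :=
  (((triangles G).filter fun U => v ∈ U).card : ℝ) / (triHyper G).card

lemma rpDev_eq_nbrDev (G : Finset (Finset (Fin n))) {D : ℝ} (hD : D ≠ 0) (b : Fin n → ℝ)
    (e : Finset (Fin n)) :
    rpDev G D b e = D * (nbrDev (triHyper G) D e - ∑ v ∈ e, b v) := by
  unfold rpDev devSum adjSum nbrDev
  field_simp

lemma rp_drift_scalar {D Q Y a bh ph dS C A quad Γ κ μ Bz : ℝ} (hD : 1 ≤ D) (hQ : 0 < Q)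
    (ha : a = 2 * D / Q) (hY0 : 0 ≤ Y) (hY : Y ≤ 2 * D) (hYQ : Y ≤ Q) (hu : |Y - D| ≤ μ * D)
    (hdS : |dS + C + D * quad| ≤ 200 * D + 200 * D ^ 3 / Q)
    (hC : C = A + D * (Y * bh + 2 * Bz)) (hquad0 : 0 ≤ quad) (hquad : quad ≤ 8 * D * μ ^ 2)
    (hκ : |κ + a / 2 * D| ≤ 4 * a ^ 2 * D) (hΓ : |Γ| ≤ 6) (hph0 : 0 ≤ ph) (hph : ph ≤ 2)
    (ha1 : a ≤ 1) :
    |dS - bh * κ * (Q - Y) + Γ * (Y * ph - 2 * Y) + A|
      ≤ D * (D * μ * |bh| + 2 * |Bz| + 8 * D * μ ^ 2 + 250
          + 250 * D ^ 2 / Q * (1 + |bh|)) := by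
  have hD0 : 0 < D := by linarith
  have ha0 : 0 ≤ a := by rw [ha]; positivity
  have haQ : a * Q = 2 * D := by rw [ha]; field_simp
  set r := κ + a / 2 * D with hr
  have e1 : dS - bh * κ * (Q - Y) + Γ * (Y * ph - 2 * Y) + A
      = (dS + C + D * quad) - D * quad - bh * D * (Y - D) - 2 * D * Bz
        - bh * r * (Q - Y) - bh * (a / 2 * D) * Y + Γ * (Y * ph - 2 * Y) := by
    rw [hC, hr]; linear_combination (D * bh / 2) * haQ
  rw [e1]
  have k1 : |bh * D * (Y - D)| ≤ |bh| * D * (μ * D) := by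
    rw [abs_mul, abs_mul, abs_of_pos hD0]
    exact mul_le_mul_of_nonneg_left hu (by positivity)
  have k2 : |bh * r * (Q - Y)| ≤ |bh| * (4 * a ^ 2 * D) * Q := by
    rw [abs_mul, abs_mul, abs_of_nonneg (by linarith : 0 ≤ Q - Y)]
    exact mul_le_mul (mul_le_mul_of_nonneg_left hκ (abs_nonneg _)) (by linarith) (by linarith)
      (by positivity)
  have k3 : |bh * (a / 2 * D) * Y| ≤ |bh| * (a / 2 * D) * (2 * D) := by
    rw [abs_mul, abs_mul, abs_of_nonneg (by positivity : 0 ≤ a / 2 * D), abs_of_nonneg hY0]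
    exact mul_le_mul_of_nonneg_left hY (by positivity)
  have k4 : |Γ * (Y * ph - 2 * Y)| ≤ 6 * (4 * D) := by
    rw [abs_mul]
    refine mul_le_mul hΓ ?_ (abs_nonneg _) (by norm_num)
    have : Y * ph ≤ Y * 2 := mul_le_mul_of_nonneg_left hph hY0
    have : 0 ≤ Y * ph := mul_nonneg hY0 hph0
    rw [abs_le]; constructor <;> linarith
  have k5 : |bh| * (4 * a ^ 2 * D) * Q = |bh| * (16 * D ^ 3 / Q) := by
    rw [ha]; field_simp; ring
  have k6 : |bh| * (a / 2 * D) * (2 * D) = |bh| * (2 * D ^ 3 / Q) := by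
    rw [ha]; field_simp
  have k7 : |D * quad| ≤ D * (8 * D * μ ^ 2) := by
    rw [abs_mul, abs_of_pos hD0, abs_of_nonneg hquad0]
    exact mul_le_mul_of_nonneg_left hquad hD0.le
  have k8 : |2 * D * Bz| = D * (2 * |Bz|) := by
    rw [abs_mul, abs_of_pos (by positivity : (0:ℝ) < 2 * D)]; ring
  have p0 : 0 ≤ D ^ 3 / Q := by positivity
  have p1 : 0 ≤ |bh| * (D ^ 3 / Q) := by positivity
  obtain ⟨a1, a2⟩ := abs_le.1 hdS
  obtain ⟨b1, b2⟩ := abs_le.1 k1
  obtain ⟨c1, c2⟩ := abs_le.1 k2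
  obtain ⟨d1, d2⟩ := abs_le.1 k3
  obtain ⟨f1, f2⟩ := abs_le.1 k4
  obtain ⟨g1, g2⟩ := abs_le.1 k7
  obtain ⟨i1, i2⟩ := abs_le.1 k8.le
  have e2 : D * (250 * D ^ 2 / Q * (1 + |bh|))
      = 250 * (D ^ 3 / Q) + 250 * (|bh| * (D ^ 3 / Q)) := by ring
  have e3 : 200 * D ^ 3 / Q = 200 * (D ^ 3 / Q) := by ring
  have e4 : |bh| * (16 * D ^ 3 / Q) = 16 * (|bh| * (D ^ 3 / Q)) := by ring
  have e5 : |bh| * (2 * D ^ 3 / Q) = 2 * (|bh| * (D ^ 3 / Q)) := by ring
  rw [abs_le]; constructor <;> linarith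

namespace NbrGood

variable {D μ B : ℝ}

lemma card_star_le (h : NbrGood G D μ B) (v : Fin n) :
    (((triangles G).filter fun U => v ∈ U).card : ℝ) ≤ 2 * D * √((n : ℝ) * D) := by
  have hD : 0 < D := by linarith [h.one_le]
  have h1 : 2 * (((triangles G).filter fun U => v ∈ U).card : ℝ)
      = ∑ w ∈ cn G {v}, ((cn G {v, w}).card : ℝ) := by
    have h2 := sum_star h.sub v (fun _ => (1:ℝ))
    simp only [mul_one] at h2
    rw [← h2, sum_congr rfl (g := fun _ => (2:ℝ)) fun U hU => by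
      rw [sum_const, card_erase_of_mem (mem_filter.1 hU).2,
        card_triangle (mem_filter.1 hU).1]; norm_num, sum_const, nsmul_eq_mul, mul_comm]
  have h3 : ∑ w ∈ cn G {v}, ((cn G {v, w}).card : ℝ) ≤ ∑ _w ∈ cn G {v}, 2 * D := by
    refine sum_le_sum fun w hw => ?_
    have hvw : ({v, w} : Finset (Fin n)) ∈ G := by simpa [mem_cn] using hw
    rw [← deg_eq_card_cn h.sub hvw]; exact h.codeg_le hvw
  rw [sum_const, nsmul_eq_mul] at h3
  have := mul_le_mul_of_nonneg_right (h.deg_le v) hD.le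
  linarith

lemma quadSum_le (h : NbrGood G D μ B) {e : Finset (Fin n)} (he : e ∈ G) :
    quadSum (triHyper G) D e ≤ 8 * D * μ ^ 2 := by
  have hLin := triHyper_lin G
  calc quadSum (triHyper G) D e ≤ ∑ _R ∈ (triHyper G).filter (fun R => e ∈ R), 4 * μ ^ 2 := by
        refine sum_le_sum fun R hR => ?_
        obtain ⟨hR1, hR2⟩ := mem_filter.1 hR
        have hb : |∑ f ∈ R.erase e, dev (triHyper G) D f| ≤ 2 * μ := by
          refine (abs_sum_le_sum_abs _ _).trans ?_
          calc ∑ f ∈ R.erase e, |dev (triHyper G) D f| ≤ ∑ _f ∈ R.erase e, μ :=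
                sum_le_sum fun f hf => h.dev_le f (hLin.sub R hR1 (mem_erase.1 hf).2)
            _ = 2 * μ := by
                rw [sum_const, card_erase_of_mem hR2, hLin.three R hR1, nsmul_eq_mul]; norm_num
        calc (∑ f ∈ R.erase e, dev (triHyper G) D f) ^ 2 ≤ (2 * μ) ^ 2 :=
              sq_le_sq' (abs_le.1 hb).1 (abs_le.1 hb).2
          _ = _ := by ring
    _ = (deg (triHyper G) e : ℝ) * (4 * μ ^ 2) := by rw [sum_const, nsmul_eq_mul]; rfl
    _ ≤ 2 * D * (4 * μ ^ 2) := mul_le_mul_of_nonneg_right (h.codeg_le he) (by positivity)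
    _ = _ := by ring

/-- One step of the `rp` coordinate at `e` when the filters move by `b' v = (1 - β) b v -
γ (1[v ∈ U] - p v)`: the increments beyond contraction are bounded, have small second moment and
sum to minus the neighbourhood average up to the forcing. -/
theorem rpDev_step (h : NbrGood G D μ B) {e : Finset (Fin n)} (he : e ∈ G) (b : Fin n → ℝ)
    {β γ : ℝ} (b' : Finset (Fin n) → Fin n → ℝ)
    (hb' : ∀ U ∈ triangles G, ∀ v,
      b' U v = (1 - β) * b v - γ * ((if v ∈ U then 1 else 0) - starProb G v))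
    (hβ : |(1 - β) / (1 + 2 * D / (triHyper G).card)
        - (1 - 3 / 2 * (2 * D / (triHyper G).card))| ≤ 4 * (2 * D / (triHyper G).card) ^ 2)
    (hγ : |nextD (triHyper G) D * γ - 2 * √(D / n)|
        ≤ 4 * √(D / n) * (2 * D / (triHyper G).card)) :
    ∃ J : Finset (Fin n) → ℝ,
      (∀ U ∈ (triangles G).filter (fun U => e ∉ U.powersetCard 2),
        rpDev (G \ U.powersetCard 2) (nextD (triHyper G) D) (b' U) e
          = (1 - 2 * D / (triHyper G).card) * rpDev G D b e + J U ∧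
        |J U| ≤ (2 * B * (√(tripleRef n D) + 1) + 18) / D + 12 * μ
          + 100 * D ^ 2 / (triHyper G).card * (1 + |∑ v ∈ e, b v|)) ∧
      |(∑ U ∈ (triangles G).filter (fun U => e ∉ U.powersetCard 2), J U)
          + adjSum (triHyper G) (rpDev G D b) e|
        ≤ D * (D * μ * |∑ v ∈ e, b v| + 2 * |∑ z ∈ cn G e, b z| + 8 * D * μ ^ 2 + 250
            + 250 * D ^ 2 / (triHyper G).card * (1 + |∑ v ∈ e, b v|)) ∧
      ∑ U ∈ (triangles G).filter (fun U => e ∉ U.powersetCard 2), J U ^ 2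
        ≤ D * (10000 * (B ^ 2 + B + 1)) + 4000 * μ ^ 2 * D ^ 2
          + 30000 * D ^ 4 / (triHyper G).card * (1 + |∑ v ∈ e, b v|) ^ 2 := by
  have hD : 0 < D := by linarith [h.one_le]
  have hLin := triHyper_lin G
  set Q : ℝ := ((triHyper G).card : ℝ) with hQ
  have hQ0 : 0 < Q := by linarith [h.big]
  set a := 2 * D / Q with hadef
  have ha0 : 0 ≤ a := by positivity
  have ha1 : a ≤ 1 := by rw [hadef, div_le_one hQ0]; exact h.big
  set bh := ∑ v ∈ e, b v with hbh
  set ph := ∑ v ∈ e, starProb G v with hph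
  set π' := √(D / n) with hπ
  have hπ0 : 0 ≤ π' := Real.sqrt_nonneg _
  have hπ1 : π' ≤ 1 := Real.sqrt_le_one.2 (div_le_one_of_le₀ h.le_n (Nat.cast_nonneg n))
  have hπd : π' * √((n : ℝ) * D) = D := by
    rw [hπ, ← Real.sqrt_mul (by positivity : (0:ℝ) ≤ D / n)]
    have hn : (0:ℝ) < n := by linarith [h.le_n, h.one_le]
    rw [show D / n * ((n : ℝ) * D) = D ^ 2 by field_simp, Real.sqrt_sq hD.le]
  set κ := D * ((1 - β) / (1 + a) - (1 - a)) with hκdef
  set Γ := nextD (triHyper G) D * γ with hΓdef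
  have hκ : |κ + a / 2 * D| ≤ 4 * a ^ 2 * D := by
    rw [show κ + a / 2 * D = D * ((1 - β) / (1 + a) - (1 - 3 / 2 * a)) by rw [hκdef]; ring,
      abs_mul, abs_of_pos hD, mul_comm (4 * a ^ 2) D]
    exact mul_le_mul_of_nonneg_left hβ hD.le
  have hπa : π' * a ≤ π' := mul_le_of_le_one_right hπ0 ha1
  have hΓ : |Γ| ≤ 6 * π' := by
    obtain ⟨g1, g2⟩ := abs_le.1 hγ
    rw [abs_le]; constructor <;> linarith
  have hκa : |κ| ≤ 5 * a * D := by
    obtain ⟨g1, g2⟩ := abs_le.1 hκ
    have : a ^ 2 * D ≤ a * D := mul_le_mul_of_nonneg_right (by nlinarith) hD.le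
    have : 0 ≤ a * D := by positivity
    rw [abs_le]; constructor <;> linarith
  set J : Finset (Fin n) → ℝ := fun U => nbrJump G D e U + ((e ∩ U).card : ℝ) * (Γ - 2 * π')
    - Γ * ph - bh * κ with hJ
  have he2 := card_edge h.sub he
  have hk : ∀ U : Finset (Fin n),
      ∑ v ∈ e, (if v ∈ U then (1:ℝ) else 0) = ((e ∩ U).card : ℝ) := fun U => by
    rw [sum_boole, filter_mem_eq_inter]
  have hp : ∀ v, 0 ≤ starProb G v := fun v => by unfold starProb; positivity
  have hp1 : ∀ v, starProb G v ≤ 1 := fun v => by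
    unfold starProb
    rw [card_triHyper]
    exact div_le_one_of_le₀ (by exact_mod_cast card_filter_le _ _) (Nat.cast_nonneg _)
  have hph0 : 0 ≤ ph := sum_nonneg fun v _ => hp v
  have hph2 : ph ≤ 2 := by
    rw [hph]
    calc ∑ v ∈ e, starProb G v ≤ ∑ _v ∈ e, (1:ℝ) := sum_le_sum fun v _ => hp1 v
      _ = 2 := by rw [sum_const, he2]; norm_num
  have hpd : π' * ph ≤ 2 * a * D := by
    rw [hph, mul_sum]
    calc ∑ v ∈ e, π' * starProb G v ≤ ∑ _v ∈ e, a * D := by
          refine sum_le_sum fun v _ => ?_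
          unfold starProb
          rw [mul_div_assoc', div_le_iff₀ hQ0]
          calc π' * (((triangles G).filter fun U => v ∈ U).card : ℝ)
              ≤ π' * (2 * D * √((n : ℝ) * D)) :=
                mul_le_mul_of_nonneg_left (h.card_star_le v) hπ0
            _ = 2 * D * (π' * √((n : ℝ) * D)) := by ring
            _ = a * D * Q := by rw [hπd, hadef]; field_simp
      _ = _ := by rw [sum_const, he2, nsmul_eq_mul]; push_cast; ring
  -- the shifts beyond `nbrJump`
  set t := 5 * (a * D) * |bh| + 16 * (a * D) with ht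
  have hshift : ∀ U ∈ (triangles G).filter (fun U => e ∉ U.powersetCard 2),
      |((e ∩ U).card : ℝ) * (Γ - 2 * π') - Γ * ph - bh * κ| ≤ t := by
    intro U hU
    have hc : ((e ∩ U).card : ℝ) ≤ 1 := by
      have h1 : (e ∩ U).card ≤ 1 := by
        by_contra hc
        refine (mem_filter.1 hU).2 (mem_powersetCard.2 ⟨?_, he2⟩)
        have : e ∩ U = e := eq_of_subset_of_card_le inter_subset_left (by omega)
        exact this ▸ inter_subset_right
      exact_mod_cast h1
    have s1 : |((e ∩ U).card : ℝ) * (Γ - 2 * π')| ≤ 4 * π' * a := by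
      rw [abs_mul, Nat.abs_cast]
      calc ((e ∩ U).card : ℝ) * |Γ - 2 * π'| ≤ 1 * (4 * π' * a) :=
            mul_le_mul hc hγ (abs_nonneg _) (by norm_num)
        _ = _ := one_mul _
    have s2 : |Γ * ph| ≤ 6 * (π' * ph) := by
      rw [abs_mul, abs_of_nonneg hph0, ← mul_assoc]
      exact mul_le_mul_of_nonneg_right hΓ hph0
    have s3 : |bh * κ| ≤ |bh| * (5 * a * D) := by
      rw [abs_mul]; exact mul_le_mul_of_nonneg_left hκa (abs_nonneg _)
    have s4 : π' * a ≤ a * D := by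
      rw [mul_comm]; exact mul_le_mul_of_nonneg_left (hπ1.trans h.one_le) ha0
    obtain ⟨x1, x2⟩ := abs_le.1 s1
    obtain ⟨y1, y2⟩ := abs_le.1 s2
    obtain ⟨z1, z2⟩ := abs_le.1 s3
    rw [ht, abs_le]; constructor <;> linarith
  have htQ : t ≤ 32 * D ^ 2 / Q * (1 + |bh|) := by
    rw [ht, show a * D = 2 * (D ^ 2 / Q) by rw [hadef]; ring,
      show 32 * D ^ 2 / Q * (1 + |bh|) = 32 * (D ^ 2 / Q) + 32 * (|bh| * (D ^ 2 / Q)) by ring]
    have : 0 ≤ |bh| * (D ^ 2 / Q) := by positivity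
    linarith
  obtain ⟨hsup, hsq⟩ := h.nbrJump_bounds he
  refine ⟨J, fun U hU => ⟨?_, ?_⟩, ?_, ?_⟩
  · have hsum : ∑ v ∈ e, b' U v = (1 - β) * bh - γ * (((e ∩ U).card : ℝ) - ph) := by
      rw [sum_congr rfl fun v _ => hb' U (mem_filter.1 hU).1 v, sum_sub_distrib, ← mul_sum,
        ← mul_sum, sum_sub_distrib, hk]
    have hnD : nextD (triHyper G) D = D / (1 + a) := rfl
    simp only [hJ]
    unfold rpDev nbrJump
    rw [hsum, hκdef, hΓdef, hnD, ← hbh, ← hπ, ← hadef]
    ring
  · have e1 := hsup U hU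
    have e2 := hshift U hU
    have : J U = nbrJump G D e U
        + (((e ∩ U).card : ℝ) * (Γ - 2 * π') - Γ * ph - bh * κ) := by simp only [hJ]; ring
    rw [this]
    refine (abs_add_le _ _).trans ?_
    rw [show 100 * D ^ 2 / Q * (1 + |bh|)
      = 48 * D ^ 2 / Q + (52 * (D ^ 2 / Q) + 100 * (|bh| * (D ^ 2 / Q))) by ring]
    rw [show 32 * D ^ 2 / Q * (1 + |bh|)
      = 32 * (D ^ 2 / Q) + 32 * (|bh| * (D ^ 2 / Q)) by ring] at htQ
    have : 0 ≤ D ^ 2 / Q := by positivity
    have : 0 ≤ |bh| * (D ^ 2 / Q) := by positivity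
    linarith
  · have hdrift := hLin.devSum_drift (e := e) he h.one_le h.big (fun f hf => h.codeg_le hf)
    rw [sum_alive e fun T => devSum (nextE (triHyper G) T) (nextD (triHyper G) D) e
      - (1 - 2 * D / ((triHyper G).card : ℝ)) * devSum (triHyper G) D e] at hdrift
    set dS := ∑ U ∈ (triangles G).filter (fun U => e ∉ U.powersetCard 2),
      (devSum (nextE (triHyper G) (U.powersetCard 2)) (nextD (triHyper G) D) e
        - (1 - 2 * D / ((triHyper G).card : ℝ)) * devSum (triHyper G) D e) with hdS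
    set Y : ℝ := (deg (triHyper G) e : ℝ) with hY
    have hcardA : (((triangles G).filter fun U => e ∉ U.powersetCard 2).card : ℝ) = Q - Y := by
      have h1 := card_alive (triHyper G) e
      rw [card_eq_sum_ones, sum_alive e (fun _ => (1:ℕ)), ← card_eq_sum_ones] at h1
      rw [h1, hQ, hY]
    have hks : ∑ U ∈ (triangles G).filter (fun U => e ∉ U.powersetCard 2), ((e ∩ U).card : ℝ)
        = Q * ph - 2 * Y := by
      have h1 : ∑ U ∈ triangles G, ((e ∩ U).card : ℝ) = Q * ph := by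
        rw [hph, mul_sum]
        simp only [← hk]
        rw [sum_comm]
        refine sum_congr rfl fun v _ => ?_
        rw [sum_boole, starProb, ← hQ]; field_simp
      have h2 : ∑ U ∈ (triangles G).filter (fun U => e ∈ U.powersetCard 2), ((e ∩ U).card : ℝ)
          = 2 * Y := by
        rw [sum_congr rfl (g := fun _ => (2:ℝ)) fun U hU => by
          rw [inter_eq_left.2 (mem_powersetCard.1 (mem_filter.1 hU).2).1, he2]; norm_num,
          sum_const, nsmul_eq_mul, hY, deg, triHyper, filter_image,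
          card_image_of_injOn fun _ hT _ hR h' =>
            powersetTwo_injOn (card_triangle (mem_filter.1 hT).1)
              (card_triangle (mem_filter.1 hR).1) h', mul_comm]
      rw [← sum_filter_add_sum_filter_not (triangles G) (fun U => e ∈ U.powersetCard 2), h2] at h1
      linarith
    have hsumJ : ∑ U ∈ (triangles G).filter (fun U => e ∉ U.powersetCard 2), J U
        = dS - bh * κ * (Q - Y) + Γ * (Y * ph - 2 * Y) := by
      have hpt : ∀ U ∈ (triangles G).filter (fun U => e ∉ U.powersetCard 2),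
          J U = (devSum (nextE (triHyper G) (U.powersetCard 2)) (nextD (triHyper G) D) e
            - (1 - a) * devSum (triHyper G) D e) + ((e ∩ U).card : ℝ) * Γ
            - (Γ * ph + bh * κ) := by
        intro U _
        simp only [hJ]
        unfold nbrJump
        rw [triHyper_next, ← hπ, ← hQ, ← hadef]; ring
      rw [sum_congr rfl hpt, sum_sub_distrib, sum_add_distrib, ← hdS, ← sum_mul, hks, sum_const,
        nsmul_eq_mul, hcardA]
      ring
    rw [hsumJ]
    refine rp_drift_scalar h.one_le hQ0 hadef (Nat.cast_nonneg _) (h.codeg_le he) ?_ ?_ hdrift ?_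
      (quadSum_nonneg _ _ _) (h.quadSum_le he) hκ ?_ hph0 hph2 ha1
    · rw [hY, hQ]; exact_mod_cast card_filter_le _ _
    · have h1 := h.dev_le e he
      rw [show Y - D = D * dev (triHyper G) D e by rw [hY]; unfold dev; field_simp, abs_mul,
        abs_of_pos hD, mul_comm μ D]
      exact mul_le_mul_of_nonneg_left h1 hD.le
    · rw [hY, hbh, ← adjSum_vertex h.sub he b, ← adjSum_mul, ← adjSum_add]
      congr 1
      funext f; unfold rpDev; ring
    · exact hΓ.trans (by linarith)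
  · have hpt : ∀ U ∈ (triangles G).filter (fun U => e ∉ U.powersetCard 2),
        J U ^ 2 ≤ 2 * nbrJump G D e U ^ 2 + 2 * t ^ 2 := by
      intro U hU
      have h1 := hshift U hU
      obtain ⟨x1, x2⟩ := abs_le.1 h1
      have h2 := sq_le_sq' x1 x2
      simp only [hJ]
      rw [show nbrJump G D e U + ((e ∩ U).card : ℝ) * (Γ - 2 * π') - Γ * ph - bh * κ
        = nbrJump G D e U + (((e ∩ U).card : ℝ) * (Γ - 2 * π') - Γ * ph - bh * κ) by ring]
      linarith [sq_nonneg (nbrJump G D e U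
        - (((e ∩ U).card : ℝ) * (Γ - 2 * π') - Γ * ph - bh * κ))]
    refine (sum_le_sum hpt).trans ?_
    rw [sum_add_distrib, ← mul_sum, sum_const, nsmul_eq_mul]
    have hcard : (((triangles G).filter fun U => e ∉ U.powersetCard 2).card : ℝ) ≤ Q := by
      rw [hQ, card_triHyper]; exact_mod_cast card_filter_le _ _
    have ht0 : 0 ≤ t := by rw [ht]; positivity
    have h3 := mul_le_mul hcard (mul_le_mul_of_nonneg_left (pow_le_pow_left₀ ht0 htQ 2)
      (by norm_num : (0:ℝ) ≤ 2)) (by positivity) hQ0.le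
    have h4 : Q * (2 * (32 * D ^ 2 / Q * (1 + |bh|)) ^ 2)
        = 2048 * (D ^ 4 / Q * (1 + |bh|) ^ 2) := by field_simp; ring
    have h5 : 10000 * D ^ 4 / Q ≤ 10000 * (D ^ 4 / Q * (1 + |bh|) ^ 2) := by
      rw [show 10000 * D ^ 4 / Q = 10000 * (D ^ 4 / Q * 1) by ring]
      gcongr
      exact one_le_pow₀ (by linarith [abs_nonneg bh])
    have h6 : 30000 * D ^ 4 / Q * (1 + |bh|) ^ 2 = 30000 * (D ^ 4 / Q * (1 + |bh|) ^ 2) := by ring
    have : 0 ≤ D ^ 4 / Q * (1 + |bh|) ^ 2 := by positivity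
    linarith

end NbrGood

end

end Vale.Agent.P046.Full
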