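import Vale.Agent.P046.Full.Stage.Facts

/-!
# The sum of the corrections over a common neighbourhood
-/

namespace Vale.Agent.P046.Full.Stage

open Finset

noncomputable section

variable {n : ℕ} {G : Finset (Finset (Fin n))} {D : ℝ} {b : Fin n → ℝ}

/-- The common neighbours of `e` that leave when `T` is removed. -/
def leavers (G : Finset (Finset (Fin n))) (e T : Finset (Fin n)) : Finset (Fin n) :=
  (cn G e).filter fun z => z ∈ T ∧ ∃ v ∈ e, v ∈ T

/-- The number of surviving choices that remove `z` from the neighbourhood of `e`. -/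
def leaveCount (G : Finset (Finset (Fin n))) (e : Finset (Fin n)) (z : Fin n) : ℝ :=
  (((triangles G).filter fun T => ¬ e ⊆ T).filter fun T => z ∈ T ∧ ∃ v ∈ e, v ∈ T).card

lemma sum_leavers (e : Finset (Fin n)) (F : Fin n → ℝ) :
    ∑ T ∈ (triangles G).filter (fun T => ¬ e ⊆ T), ∑ z ∈ leavers G e T, F z
      = ∑ z ∈ cn G e, leaveCount G e z * F z := by
  simp only [leavers, sum_filter (s := cn G e)]
  rw [sum_comm]
  refine sum_congr rfl fun z _ => ?_
  rw [← sum_filter, sum_const, nsmul_eq_mul, leaveCount]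

lemma leaveCount_eq (hG : G ⊆ completeEdges n) {e : Finset (Fin n)} (he : e ∈ G) {z : Fin n}
    (hz : z ∈ cn G e) :
    leaveCount G e z = (∑ v ∈ e, (deg (triHyper G) {v, z} : ℝ)) - 2 := by
  obtain ⟨x, y, hxy, rfl⟩ := edge_eq he hG
  have hx : ({x, z} : Finset (Fin n)) ∈ G := mem_cn.1 hz x (by simp)
  have hy : ({y, z} : Finset (Fin n)) ∈ G := mem_cn.1 hz y (by simp)
  set A := (triangles G).filter fun T => x ∈ T ∧ z ∈ T with hA
  set B := (triangles G).filter fun T => y ∈ T ∧ z ∈ T with hB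
  have hAB : A ∩ B = {insert z {x, y}} := by
    ext T
    simp only [hA, hB, mem_inter, mem_filter, mem_singleton]
    constructor
    · rintro ⟨⟨hT, hxT, hzT⟩, -, hyT, -⟩
      refine (eq_of_subset_of_card_le (by simp [insert_subset_iff, hxT, hyT, hzT]) ?_).symm
      rw [card_triangle hT, card_insert_of_notMem (notMem_cn hG hz), card_pair hxy]
    · rintro rfl
      have := insert_mem_triangles hG he hz
      exact ⟨⟨this, by simp, by simp⟩, this, by simp, by simp⟩
  have hset : ((triangles G).filter fun T => ¬ ({x, y} : Finset (Fin n)) ⊆ T).filter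
      (fun T => z ∈ T ∧ ∃ v ∈ ({x, y} : Finset (Fin n)), v ∈ T) = (A ∪ B) \ (A ∩ B) := by
    ext T
    simp only [hA, hB, mem_filter, mem_sdiff, mem_union, mem_inter, insert_subset_iff,
      singleton_subset_iff, mem_insert, mem_singleton, exists_eq_or_imp, exists_eq_left]
    tauto
  have h1 : (((A ∪ B) \ (A ∩ B)).card : ℝ) + 1 = ((A ∪ B).card : ℝ) := by
    have := card_sdiff_add_card_eq_card
      (show A ∩ B ⊆ A ∪ B from inter_subset_left.trans subset_union_left)
    rw [show (A ∩ B).card = 1 by rw [hAB, card_singleton]] at this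
    exact_mod_cast this
  have h2 : ((A ∪ B).card : ℝ) + 1 = (A.card : ℝ) + B.card := by
    have := card_union_add_card_inter A B
    rw [hAB, card_singleton] at this
    exact_mod_cast this
  rw [leaveCount, hset, sum_pair hxy, deg_eq_card_cn hG hx, deg_eq_card_cn hG hy,
    ← card_two_mem_le hG hx, ← card_two_mem_le hG hy, ← hA, ← hB]
  linarith

/-- The exact change of `xB` at a surviving edge. -/
lemma xB_step (hG : G ⊆ completeEdges n) (e T : Finset (Fin n)) :
    xB (rmTri G T) (stepb G D b T) e - xB G b e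
      = -(1 - Real.exp (-hStep G D)) * xB G b e
        - 2 / √((n : ℝ) * D)
          * (((cn G e).filter fun z => z ∈ T).card - ∑ z ∈ cn G e, hitProb G z)
        - ∑ z ∈ leavers G e T, (Real.exp (-hStep G D) * b z
            - 2 / √((n : ℝ) * D) * (1 - hitProb G z)) := by
  have hsplit : xB (rmTri G T) (stepb G D b T) e
      = (∑ z ∈ cn G e, stepb G D b T z) - ∑ z ∈ leavers G e T, stepb G D b T z := by
    unfold xB rmTri leavers
    rw [cn_next hG, ← sum_filter_add_sum_filter_not (cn G e) (fun z => z ∈ T ∧ ∃ v ∈ e, v ∈ T)]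
    ring
  have h1 : ∑ z ∈ cn G e, stepb G D b T z = Real.exp (-hStep G D) * xB G b e
      - 2 / √((n : ℝ) * D)
        * (((cn G e).filter fun z => z ∈ T).card - ∑ z ∈ cn G e, hitProb G z) := by
    unfold stepb xB
    rw [sum_sub_distrib, ← mul_sum, ← mul_sum, sum_sub_distrib, sum_boole]
  have h2 : ∑ z ∈ leavers G e T, stepb G D b T z
      = ∑ z ∈ leavers G e T, (Real.exp (-hStep G D) * b z
          - 2 / √((n : ℝ) * D) * (1 - hitProb G z)) := by
    refine sum_congr rfl fun z hz => ?_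
    unfold stepb
    rw [if_pos (mem_filter.1 hz).2.1]
  rw [hsplit, h1, h2]
  ring

lemma sum_hit_cn (e : Finset (Fin n)) (hQ : triCount G ≠ 0) :
    ∑ T ∈ triangles G, ((((cn G e).filter fun z => z ∈ T).card : ℕ) : ℝ)
      = triCount G * ∑ z ∈ cn G e, hitProb G z := by
  simp only [← sum_boole]
  rw [sum_comm, mul_sum]
  refine sum_congr rfl fun z _ => ?_
  rw [sum_boole, hitProb]
  field_simp

/-- The amplitude of the noise in a correction. -/
def cB (n : ℕ) (D : ℝ) : ℝ := 2 / √((n : ℝ) * D)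

/-- The common bound for all corrections. -/
def bBd (n : ℕ) (D : ℝ) : ℝ := ell n ^ 5 / √(√((n : ℝ) * D))

/-- Expected number of common neighbours of `e` in the chosen triangle. -/
def hitSum (G : Finset (Finset (Fin n))) (e : Finset (Fin n)) : ℝ := ∑ z ∈ cn G e, hitProb G z

/-- The number of common neighbours of `e` in `T`. -/
def hitsB (G : Finset (Finset (Fin n))) (e T : Finset (Fin n)) : ℝ :=
  ((cn G e).filter fun z => z ∈ T).card

/-- The contribution of the leaving neighbours. -/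
def outB (G : Finset (Finset (Fin n))) (D : ℝ) (b : Fin n → ℝ) (e T : Finset (Fin n)) : ℝ :=
  ∑ z ∈ leavers G e T, (Real.exp (-hStep G D) * b z - cB n D * (1 - hitProb G z))

/-- The change of `xB`. -/
def dB (G : Finset (Finset (Fin n))) (D : ℝ) (b : Fin n → ℝ) (e T : Finset (Fin n)) : ℝ :=
  -(1 - Real.exp (-hStep G D)) * xB G b e - cB n D * (hitsB G e T - hitSum G e)
    - outB G D b e T

lemma xB_next (hG : G ⊆ completeEdges n) (e T : Finset (Fin n)) :
    xB (rmTri G T) (stepb G D b T) e = xB G b e + dB G D b e T := by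
  have := xB_step (D := D) (b := b) hG e T
  unfold dB outB hitsB hitSum cB
  linarith

/-- Size facts for the corrections in a good state. -/
structure BFax (n : ℕ) (G : Finset (Finset (Fin n))) (D : ℝ) (b : Fin n → ℝ)
    (e : Finset (Fin n)) : Prop where
  c_nonneg : 0 ≤ cB n D
  c_D : cB n D * D ≤ 2
  c_d : cB n D * √((n : ℝ) * D) ≤ 2
  c_le : cB n D ≤ 2
  eta_nonneg : 0 ≤ Real.exp (-hStep G D)
  eta_le : Real.exp (-hStep G D) ≤ 1
  eta_lo : 1 - hStep G D ≤ Real.exp (-hStep G D)
  eta_hi : Real.exp (-hStep G D) ≤ 1 - hStep G D + hStep G D ^ 2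
  deg_near : ∀ f ∈ G, |(deg (triHyper G) f : ℝ) - D| ≤ ell n ^ 6 / √D * D
  mu_le : ell n ^ 6 / √D ≤ 1
  card_le : ((cn G e).card : ℝ) ≤ 2 * D
  b_le : ∀ z, |b z| ≤ bBd n D
  bd_nonneg : 0 ≤ bBd n D
  bd_le : bBd n D ≤ ell n ^ 5
  bd_sqrt : bBd n D * √D ≤ ell n ^ 5
  bd_sq : bBd n D * bBd n D * D ≤ ell n ^ 10
  p_mem : ∀ z, 0 ≤ hitProb G z ∧ hitProb G z ≤ 1
  P_nonneg : 0 ≤ hitSum G e
  P_mul : triCount G * hitSum G e ≤ 4 * D * √((n : ℝ) * D) * D
  P_le : hitSum G e ≤ 48
  Qh_lo : D ≤ 2 * (triCount G * hStep G D)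
  Qh_hi : triCount G * hStep G D ≤ D
  Qh_sharp : D * (1 - 2 * (D / triCount G)) ≤ triCount G * hStep G D
  h_pow : hStep G D * ell n ^ 26 ≤ 1
  hit3 : ∀ T ∈ triangles G, 0 ≤ hitsB G e T ∧ hitsB G e T ≤ 3
  leave3 : ∀ T ∈ triangles G, ((leavers G e T).card : ℝ) ≤ 3
  out_le : ∀ T, |outB G D b e T| ≤ ((leavers G e T).card : ℝ) * (bBd n D + cB n D)
  leave_sum : ∑ T ∈ (triangles G).filter (fun T => ¬ e ⊆ T), ((leavers G e T).card : ℝ)
    ≤ 8 * D ^ 2
  S_add : (((triangles G).filter fun T => ¬ e ⊆ T).card : ℝ) + (cn G e).card = triCount G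

lemma bFax (hn : Big n) (g : Good n G D b) {e : Finset (Fin n)} (he : e ∈ G) :
    BFax n G D b e := by
  have f := g.fax hn
  have hD := f.D_pos
  have hD1 := f.one_le_D hn
  have hQ := f.Q_pos
  have hh := f.h_pos
  have hG := g.sub
  set L := ell n with hL
  have hL1 : (1000000 : ℝ) ≤ L := hn.ell_ge
  set d := √((n : ℝ) * D) with hd
  have hdD : D ≤ d := by
    apply Real.le_sqrt_of_sq_le
    rw [sq]; exact mul_le_mul_of_nonneg_right f.D_le hD.le
  have hd0 : 0 < d := by linarith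
  set c := 2 / d with hc
  have hc0 : 0 ≤ c := by positivity
  have hcD : c * D ≤ 2 := by
    rw [hc, div_mul_eq_mul_div, div_le_iff₀ hd0]; linarith
  have hc2 : c ≤ 2 := le_trans (le_mul_of_one_le_right hc0 hD1) hcD
  set η := Real.exp (-hStep G D) with hη
  have hη0 : 0 ≤ η := (Real.exp_pos _).le
  have hη1 : η ≤ 1 := Real.exp_le_one_iff.2 (by linarith)
  have hηlo : 1 - hStep G D ≤ η := by
    have := Real.add_one_le_exp (-hStep G D); linarith
  have hηhi : η ≤ 1 - hStep G D + hStep G D ^ 2 := by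
    have := (abs_le.1 (Real.abs_exp_sub_one_sub_id_le (x := -hStep G D)
      (by rw [abs_neg, abs_of_pos hh]; linarith [f.h_small]))).2
    rw [← hη] at this
    nlinarith
  -- the neighbourhood
  set N := cn G e with hN
  have hdegD : ∀ f' ∈ G, |(deg (triHyper G) f' : ℝ) - D| ≤ L ^ 6 / √D * D := by
    intro f' hf'
    have := mul_le_mul_of_nonneg_right (f.u_abs f' hf') hD.le
    rw [dev, ← abs_of_pos hD, ← abs_mul, sub_mul, one_mul, abs_of_pos hD,
      div_mul_cancel₀ _ hD.ne'] at this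
    exact this
  have hμ : L ^ 6 / √D ≤ 1 := by
    rw [div_le_one (Real.sqrt_pos.2 hD)]
    exact (hn.pow_le (by norm_num)).trans f.sqrtD_ge
  set μ := L ^ 6 / √D with hμdef
  have hμ0 : 0 ≤ μ := by positivity
  have hN2 : (N.card : ℝ) ≤ 2 * D := by
    have := (abs_le.1 (hdegD e he)).2
    rw [deg_eq_card_cn hG he, ← hN] at this
    nlinarith
  have hN0 : (0 : ℝ) ≤ N.card := Nat.cast_nonneg _
  -- corrections
  set β := L ^ 5 / √d with hβ
  have hsd : 0 < √d := Real.sqrt_pos.2 hd0
  have hb : ∀ z, |b z| ≤ β := by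
    intro z
    have := g.b_le z
    rw [xb, ← hd, abs_mul, abs_of_pos hsd] at this
    rw [hβ, le_div_iff₀ hsd]; linarith
  have hβ0 : 0 ≤ β := by positivity
  have hβ5 : β ≤ L ^ 5 := div_le_self (by positivity) (Real.one_le_sqrt.2 (by linarith))
  have hβD : β * √D ≤ L ^ 5 := by
    rw [hβ, div_mul_eq_mul_div, div_le_iff₀ hsd]; gcongr
  have hββ : β * β * D ≤ L ^ 10 := by
    calc β * β * D = (β * √D) * (β * √D) := by
          rw [mul_mul_mul_comm, Real.mul_self_sqrt hD.le]
      _ ≤ L ^ 5 * L ^ 5 := by gcongr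
      _ = _ := by ring
  have hp : ∀ z, 0 ≤ hitProb G z ∧ hitProb G z ≤ 1 := by
    intro z
    refine ⟨div_nonneg (Nat.cast_nonneg _) hQ.le, ?_⟩
    rw [hitProb, div_le_one hQ, triCount]
    exact_mod_cast card_filter_le _ _
  set P := ∑ z ∈ N, hitProb G z with hP
  have hP0 : 0 ≤ P := sum_nonneg fun z _ => (hp z).1
  have hPQ : triCount G * P ≤ 4 * D * d * D := by
    calc triCount G * P ≤ triCount G * ∑ _z ∈ N, 2 * d * (D / triCount G) :=
          mul_le_mul_of_nonneg_left (sum_le_sum fun z _ => f.hit_le z) hQ.le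
      _ = 2 * (N.card : ℝ) * d * D := by
          rw [sum_const, nsmul_eq_mul]; field_simp
      _ ≤ _ := by nlinarith [mul_pos hd0 hD]
  have hP48 : P ≤ 48 := by
    have h1 : P ≤ ∑ _z ∈ N, 2 * d * (D / triCount G) := sum_le_sum fun z _ => f.hit_le z
    rw [sum_const, nsmul_eq_mul] at h1
    have h2 : (N.card : ℝ) * (2 * d * (D / triCount G)) ≤ 2 * D * (2 * d * (12 / (n * d))) := by
      refine mul_le_mul hN2 (mul_le_mul_of_nonneg_left ?_ (by positivity)) (by positivity)
        (by positivity)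
      exact f.ds_le_card
    have h3 : 2 * D * (2 * d * (12 / (n * d))) = 48 * (D / n) := by field_simp; ring
    have h4 : D / (n : ℝ) ≤ 1 := div_le_one_of_le₀ f.D_le (Nat.cast_nonneg n)
    linarith
  set S := (triangles G).filter fun T => ¬ e ⊆ T with hS
  have hSadd : (S.card : ℝ) + N.card = triCount G := by
    have h := card_filter_add_card_filter_not (s := triangles G) (fun T => e ⊆ T)
    rw [card_filter_tri hG he] at h
    have : ((cn G e).card : ℝ) + S.card = triCount G := by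
      rw [hS, triCount]; exact_mod_cast h
    rw [← hN] at this; linarith
  have hSQ : (S.card : ℝ) ≤ triCount G := by linarith
  set hits : Finset (Fin n) → ℝ := fun T => ((N.filter fun z => z ∈ T).card : ℝ) with hhits
  set out : Finset (Fin n) → ℝ := fun T =>
    ∑ z ∈ leavers G e T, (η * b z - c * (1 - hitProb G z)) with hout
  have hcard3 : ∀ T ∈ triangles G, ∀ s : Finset (Fin n), s ⊆ T → (s.card : ℝ) ≤ 3 := by
    intro T hT s hs
    exact_mod_cast (card_le_card hs).trans (card_triangle hT).le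
  have hleave3 : ∀ T ∈ triangles G, ((leavers G e T).card : ℝ) ≤ 3 := fun T hT =>
    hcard3 T hT _ fun z hz => (mem_filter.1 hz).2.1
  have hhit3 : ∀ T ∈ triangles G, 0 ≤ hits T ∧ hits T ≤ 3 := fun T hT =>
    ⟨Nat.cast_nonneg _, hcard3 T hT _ fun z hz => (mem_filter.1 hz).2⟩
  have hout1 : ∀ T, |out T| ≤ ((leavers G e T).card : ℝ) * (β + c) := by
    intro T
    refine (abs_sum_le_sum_abs _ _).trans ?_
    rw [← nsmul_eq_mul, ← sum_const]
    refine sum_le_sum fun z _ => (abs_sub _ _).trans (add_le_add ?_ ?_)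
    · rw [abs_mul, abs_of_nonneg hη0]
      exact le_trans (mul_le_of_le_one_left (abs_nonneg _) hη1) (hb z)
    · rw [abs_mul, abs_of_nonneg hc0]
      refine mul_le_of_le_one_right hc0 ?_
      rw [abs_le]; constructor <;> linarith [(hp z).1, (hp z).2]
  have hLsum : ∑ T ∈ S, ((leavers G e T).card : ℝ) ≤ 8 * D ^ 2 := by
    have := sum_leavers (G := G) e (fun _ => (1 : ℝ))
    simp only [sum_const, nsmul_eq_mul, mul_one] at this
    rw [hS, this]
    calc ∑ z ∈ cn G e, leaveCount G e z ≤ ∑ _z ∈ cn G e, 4 * D := by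
          refine sum_le_sum fun z hz => ?_
          rw [leaveCount_eq hG he hz]
          have : ∑ v ∈ e, (deg (triHyper G) {v, z} : ℝ) ≤ ∑ _v ∈ e, 2 * D := by
            refine sum_le_sum fun v hv => ?_
            have := (abs_le.1 (hdegD _ (mem_cn.1 hz v hv))).2
            nlinarith
          rw [sum_const, card_edge hG he, nsmul_eq_mul] at this
          push_cast at this; linarith
      _ ≤ 8 * D ^ 2 := by
          rw [sum_const, nsmul_eq_mul, ← hN]; nlinarith
  -- time scale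
  have hQh : D ≤ 2 * (triCount G * hStep G D) := by
    have := mul_le_mul_of_nonneg_left f.ds_le_two_h hQ.le
    rw [mul_div_cancel₀ _ hQ.ne'] at this
    linarith
  have hQh' : triCount G * hStep G D ≤ D := by
    have := mul_le_mul_of_nonneg_left f.h_le hQ.le
    rw [mul_div_cancel₀ _ hQ.ne'] at this
    linarith
  have hdsh : D * (1 - 2 * (D / triCount G)) ≤ triCount G * hStep G D := by
    have := mul_le_mul_of_nonneg_left f.h_ge hQ.le
    rw [← mul_assoc, mul_div_cancel₀ _ hQ.ne'] at this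
    exact this
  have hds0 : 0 ≤ D / triCount G := by positivity
  have hhD : hStep G D * L ^ 26 ≤ 1 := by
    have h1 : hStep G D ≤ 1 / D := f.h_le.trans f.ds_le_inv
    have h2 : L ^ 26 ≤ D :=
      ((hn.pow_le (by norm_num)).trans f.sqrtD_ge).trans (by
        rw [Real.sqrt_le_left hD.le]; nlinarith)
    calc hStep G D * L ^ 26 ≤ 1 / D * D := by gcongr
      _ = 1 := by field_simp
  exact ⟨hc0, hcD, (div_mul_cancel₀ _ hd0.ne').le, hc2, hη0, hη1, hηlo, hηhi,
    hdegD, hμ, hN2, hb, hβ0, hβ5, hβD, hββ, hp, hP0, hPQ, hP48, hQh, hQh', hdsh, hhD, hhit3,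
    hleave3, hout1, hLsum, hSadd⟩

/-- Scalar: the relaxation rate is `3`. -/
lemma relax_coef {k Q S N η D : ℝ} (hk : 0 ≤ k) (hS0 : 0 ≤ S) (hS : S + N = Q) (hN0 : 0 ≤ N)
    (hN : N ≤ 2 * D) (hη1 : η ≤ 1) (hlo : 1 - k ≤ η) (hhi : η ≤ 1 - k + k ^ 2)
    (hQk : Q * k ≤ D) (hsharp : D - 2 ≤ Q * k) (hDk : D * k ≤ 1) :
    |-(1 - η) * S - η * (2 * D) + Q * k * 3| ≤ 20 := by
  have c1 : (1 - η) * S ≤ k * S := mul_le_mul_of_nonneg_right (by linarith) hS0
  have c2 : (k - k ^ 2) * S ≤ (1 - η) * S := mul_le_mul_of_nonneg_right (by linarith) hS0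
  have c3 : k ^ 2 * S ≤ D * k := by
    calc k ^ 2 * S ≤ k ^ 2 * Q := by gcongr; linarith
      _ = Q * k * k := by ring
      _ ≤ D * k := by gcongr
  have c4 : η * (2 * D) ≤ 2 * D := mul_le_of_le_one_left (by linarith) hη1
  have c5 : (1 - k) * (2 * D) ≤ η * (2 * D) := mul_le_mul_of_nonneg_right hlo (by linarith)
  have s1 : S * k ≤ Q * k := mul_le_mul_of_nonneg_right (by linarith) hk
  have s2 : N * k ≤ 2 * D * k := mul_le_mul_of_nonneg_right hN hk
  have s3 : S * k = Q * k - N * k := by rw [← hS]; ring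
  rw [abs_le]; constructor <;> linarith

/-- Scalar: collecting the mean. -/
lemma mean_arith {D Qh L11 L12 a b r : ℝ} (ha : |a| ≤ D * L11) (hb : |b| ≤ 196 * D)
    (hr : |r| ≤ D * (8 * L11 + 16)) (hD : 0 ≤ D) (h11 : 1 ≤ L11) (hQh : D ≤ 2 * Qh)
    (hQh0 : 0 ≤ Qh) (h12 : 1000 * L11 ≤ L12) : |a + b + -r| ≤ Qh * L12 := by
  refine (abs_add_three _ _ _).trans ?_
  rw [abs_neg]
  have h1 : D * 1 ≤ D * L11 := mul_le_mul_of_nonneg_left h11 hD
  have h2 : D * L11 ≤ 2 * Qh * L11 := mul_le_mul_of_nonneg_right hQh (by linarith)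
  have h3 : Qh * (1000 * L11) ≤ Qh * L12 := mul_le_mul_of_nonneg_left h12 hQh0
  have h4 : 0 ≤ Qh * L11 := mul_nonneg hQh0 (by linarith)
  linarith

lemma sum_hits (hn : Big n) (g : Good n G D b) {e : Finset (Fin n)} (he : e ∈ G) :
    ∑ T ∈ (triangles G).filter (fun T => ¬ e ⊆ T), (hitsB G e T - hitSum G e)
      = -(((cn G e).card : ℝ) * (1 - hitSum G e)) := by
  have hG := g.sub
  have hQ := (g.fax hn).Q_pos
  have a : ∑ T ∈ triangles G, (hitsB G e T - hitSum G e) = 0 := by
    rw [sum_sub_distrib, sum_const, nsmul_eq_mul]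
    simp only [hitsB]
    rw [sum_hit_cn e hQ.ne', triCount, hitSum]
    ring
  have bq : ∑ T ∈ (triangles G).filter (fun T => e ⊆ T), (hitsB G e T - hitSum G e)
      = ((cn G e).card : ℝ) * (1 - hitSum G e) := by
    rw [sum_congr rfl (g := fun _ => 1 - hitSum G e) fun T hT => ?_, sum_const, nsmul_eq_mul,
      card_filter_tri hG he]
    obtain ⟨hT, heT⟩ := mem_filter.1 hT
    obtain ⟨w, hw⟩ := card_eq_one.1 (show (T \ e).card = 1 by
      rw [card_sdiff_of_subset heT, card_triangle hT, card_edge hG he])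
    have hw' : w ∈ T \ e := by rw [hw]; simp
    obtain ⟨hwT, hwe⟩ := mem_sdiff.1 hw'
    have : (cn G e).filter (fun z => z ∈ T) = {w} := by
      ext z
      simp only [mem_filter, mem_singleton]
      refine ⟨fun hz => ?_, fun hz => hz ▸ ⟨mem_cn.2 fun v hv =>
        pair_mem_of_triangle hT (heT hv) hwT fun h => hwe (h ▸ hv), hwT⟩⟩
      simpa [hw] using mem_sdiff.2 ⟨hz.2, notMem_cn hG hz.1⟩
    simp only [hitsB, this, card_singleton, Nat.cast_one]
  rw [← sum_filter_add_sum_filter_not (triangles G) (fun T => e ⊆ T), bq] at a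
  linarith

/-- The rest of the leaving term. -/
lemma leave_rest (hn : Big n) (g : Good n G D b) {e : Finset (Fin n)} (he : e ∈ G) :
    |∑ z ∈ cn G e, ((leaveCount G e z - 2 * D) * (Real.exp (-hStep G D) * b z)
        - leaveCount G e z * (cB n D * (1 - hitProb G z)))|
      ≤ D * (8 * ell n ^ 11 + 16) := by
  have f := g.fax hn
  have x := bFax hn g he
  have hD := f.D_pos
  have hG := g.sub
  have hsD : 0 < √D := Real.sqrt_pos.2 hD
  have hc0 := x.c_nonneg
  have hβ0 := x.bd_nonneg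
  refine (abs_sum_le_sum_abs _ _).trans ?_
  calc _ ≤ ∑ _z ∈ cn G e,
        ((2 * (ell n ^ 6 / √D * D) + 2) * bBd n D + 4 * D * cB n D) := by
        refine sum_le_sum fun z hz => (abs_sub _ _).trans ?_
        have hl := leaveCount_eq hG he hz
        have h2 : |(∑ v ∈ e, (deg (triHyper G) {v, z} : ℝ)) - 2 * D|
            ≤ 2 * (ell n ^ 6 / √D * D) := by
          have : (∑ v ∈ e, (deg (triHyper G) {v, z} : ℝ)) - 2 * D
              = ∑ v ∈ e, ((deg (triHyper G) {v, z} : ℝ) - D) := by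
            rw [sum_sub_distrib, sum_const, card_edge hG he, nsmul_eq_mul]; push_cast; ring
          rw [this]
          refine (abs_sum_le_sum_abs _ _).trans
            ((sum_le_sum fun v hv => x.deg_near _ (mem_cn.1 hz v hv)).trans ?_)
          rw [sum_const, card_edge hG he, nsmul_eq_mul]; push_cast; linarith
        obtain ⟨a1, a2⟩ := abs_le.1 h2
        have a0 : 0 ≤ leaveCount G e z := Nat.cast_nonneg _
        have a3 : ell n ^ 6 / √D * D ≤ D := mul_le_of_le_one_left hD.le x.mu_le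
        rw [abs_mul, abs_mul, abs_mul, abs_mul, abs_of_nonneg a0, abs_of_nonneg x.eta_nonneg,
          abs_of_nonneg hc0]
        refine add_le_add (mul_le_mul ?_ ?_ (by positivity) ?_)
          (mul_le_mul (by linarith) ?_ (by positivity) (by positivity))
        · rw [hl, abs_le]; constructor <;> linarith
        · exact le_trans (mul_le_of_le_one_left (abs_nonneg _) x.eta_le) (x.b_le z)
        · have : 0 ≤ ell n ^ 6 / √D * D := (abs_nonneg _).trans (x.deg_near e he)
          linarith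
        · refine mul_le_of_le_one_right hc0 ?_
          rw [abs_le]; constructor <;> linarith [(x.p_mem z).1, (x.p_mem z).2]
    _ ≤ 2 * D * ((2 * (ell n ^ 6 / √D * D) + 2) * bBd n D + 4 * D * cB n D) := by
        rw [sum_const, nsmul_eq_mul]
        refine mul_le_mul_of_nonneg_right x.card_le ?_
        have : 0 ≤ ell n ^ 6 / √D * D := (abs_nonneg _).trans (x.deg_near e he)
        have : 0 ≤ ell n := by linarith [hn.ell_ge]
        positivity
    _ = D * (4 * (ell n ^ 6 * (bBd n D * √D)) + 4 * bBd n D + 8 * (cB n D * D)) := by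
        have e1 : ell n ^ 6 / √D * D = ell n ^ 6 * √D := by
          rw [div_mul_eq_mul_div, mul_div_assoc, Real.div_sqrt]
        rw [e1]; ring
    _ ≤ _ := by
        refine mul_le_mul_of_nonneg_left ?_ hD.le
        have q0 : 0 ≤ ell n ^ 6 := by have := hn.ell_ge; positivity
        have q1 := mul_le_mul_of_nonneg_left x.bd_sqrt q0
        have q2 : ell n ^ 5 ≤ ell n ^ 11 := hn.pow_le (by norm_num)
        have q3 := x.bd_le
        have q4 := x.c_D
        have q5 : ell n ^ 6 * ell n ^ 5 = ell n ^ 11 := by ring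
        linarith

/-- The mean change. -/
lemma dB_mean (hn : Big n) (g : Good n G D b) {e : Finset (Fin n)} (he : e ∈ G) :
    |∑ T ∈ (triangles G).filter (fun T => ¬ e ⊆ T), dB G D b e T
        + triCount G * (hStep G D * (3 * xB G b e))|
      ≤ triCount G * (hStep G D * ell n ^ 12) := by
  have f := g.fax hn
  have x := bFax hn g he
  have hD := f.D_pos
  have hQ := f.Q_pos
  have hh := f.h_pos
  have hD1 := f.one_le_D hn
  have e2 : ∑ T ∈ (triangles G).filter (fun T => ¬ e ⊆ T), outB G D b e T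
      = Real.exp (-hStep G D) * (2 * D) * xB G b e
        + ∑ z ∈ cn G e, ((leaveCount G e z - 2 * D) * (Real.exp (-hStep G D) * b z)
          - leaveCount G e z * (cB n D * (1 - hitProb G z))) := by
    simp only [outB]
    rw [sum_leavers, xB, mul_sum, ← sum_add_distrib]
    exact sum_congr rfl fun z _ => by ring
  have e3 : ∑ T ∈ (triangles G).filter (fun T => ¬ e ⊆ T), dB G D b e T
      = -(1 - Real.exp (-hStep G D)) * (((triangles G).filter fun T => ¬ e ⊆ T).card : ℝ)
          * xB G b e + cB n D * (((cn G e).card : ℝ) * (1 - hitSum G e))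
        - ∑ T ∈ (triangles G).filter (fun T => ¬ e ⊆ T), outB G D b e T := by
    simp only [dB]
    rw [sum_sub_distrib, sum_sub_distrib, sum_const, nsmul_eq_mul, ← mul_sum, sum_hits hn g he]
    ring
  have hDk : D * hStep G D ≤ 1 := by
    have := mul_le_mul_of_nonneg_left (f.h_le.trans f.ds_le_inv) hD.le
    rwa [mul_one_div_cancel hD.ne'] at this
  have hsharp : D - 2 ≤ triCount G * hStep G D := by
    have h1 := mul_le_mul_of_nonneg_left f.ds_le_inv hD.le
    rw [mul_one_div_cancel hD.ne'] at h1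
    have := x.Qh_sharp
    linarith
  have hcoef := relax_coef hh.le (Nat.cast_nonneg _) x.S_add (Nat.cast_nonneg _) x.card_le x.eta_le
    x.eta_lo x.eta_hi x.Qh_hi hsharp hDk
  have h26 : ell n ^ 26 ≤ D := by
    refine ((hn.pow_le (by norm_num)).trans f.sqrtD_ge).trans ?_
    rw [Real.sqrt_le_left hD.le]; nlinarith
  have hL0 : 0 ≤ ell n := by linarith [hn.ell_ge]
  have ha : |(-(1 - Real.exp (-hStep G D)) * (((triangles G).filter fun T => ¬ e ⊆ T).card : ℝ)
      - Real.exp (-hStep G D) * (2 * D) + triCount G * hStep G D * 3) * xB G b e|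
      ≤ D * ell n ^ 11 := by
    rw [abs_mul]
    calc _ ≤ 20 * ell n ^ 13 := mul_le_mul hcoef (g.B_le e he) (abs_nonneg _) (by norm_num)
      _ ≤ ell n ^ 26 * ell n ^ 11 := by
          rw [← pow_add]; exact hn.mul_pow_le (by norm_num) (by norm_num)
      _ ≤ D * ell n ^ 11 := by gcongr
  have hb : |cB n D * (((cn G e).card : ℝ) * (1 - hitSum G e))| ≤ 196 * D := by
    rw [abs_mul, abs_mul, abs_of_nonneg x.c_nonneg, Nat.abs_cast]
    have : |1 - hitSum G e| ≤ 49 := by
      rw [abs_le]; constructor <;> linarith [x.P_le, x.P_nonneg]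
    calc cB n D * (((cn G e).card : ℝ) * |1 - hitSum G e|) ≤ 2 * (2 * D * 49) :=
          mul_le_mul x.c_le (mul_le_mul x.card_le this (abs_nonneg _) (by linarith))
            (by positivity) (by norm_num)
      _ = _ := by ring
  have := mean_arith ha hb (leave_rest hn g he) hD.le (hn.pow_ge_one 11) x.Qh_lo
    (by positivity) (hn.mul_pow_le (show 11 < 12 by norm_num) (by norm_num))
  rw [mul_assoc (triCount G) (hStep G D) (ell n ^ 12)] at this
  rw [e3, e2]
  refine le_of_eq_of_le (congrArg _ ?_) this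
  ring

/-- The jumps. -/
lemma dB_jump (hn : Big n) (g : Good n G D b) {e : Finset (Fin n)} (he : e ∈ G) :
    ∀ T ∈ (triangles G).filter (fun T => ¬ e ⊆ T),
      2 * ell n ^ 2 * |dB G D b e T| ≤ ell n ^ 13 := by
  intro T hT
  have hT' := (mem_filter.1 hT).1
  have f := g.fax hn
  have x := bFax hn g he
  have hh := f.h_pos
  have hL0 : 0 ≤ ell n := by linarith [hn.ell_ge]
  have hΔb : |dB G D b e T| ≤ hStep G D * ell n ^ 13 + 1000 * ell n ^ 5 := by
    unfold dB
    refine ((abs_sub _ _).trans (add_le_add (abs_sub _ _) le_rfl)).trans ?_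
    rw [neg_mul, abs_neg, abs_mul, abs_mul, abs_of_nonneg x.c_nonneg,
      abs_of_nonneg (sub_nonneg.2 x.eta_le)]
    have a1 : (1 - Real.exp (-hStep G D)) * |xB G b e| ≤ hStep G D * ell n ^ 13 :=
      mul_le_mul (by linarith [x.eta_lo]) (g.B_le e he) (abs_nonneg _) hh.le
    have a2 : cB n D * |hitsB G e T - hitSum G e| ≤ 2 * 51 := by
      refine mul_le_mul x.c_le ?_ (abs_nonneg _) (by norm_num)
      rw [abs_le]
      constructor <;> linarith [(x.hit3 T hT').1, (x.hit3 T hT').2, x.P_le, x.P_nonneg]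
    have a3 : |outB G D b e T| ≤ 3 * (ell n ^ 5 + 2) :=
      (x.out_le T).trans (mul_le_mul (x.leave3 T hT') (add_le_add x.bd_le x.c_le)
        (add_nonneg x.bd_nonneg x.c_nonneg) (by norm_num))
    linarith [hn.pow_ge_one 5]
  have h1 := mul_le_mul_of_nonneg_right (f.h_ell_sq hn) (by positivity : 0 ≤ ell n ^ 13)
  have h2 := hn.mul_pow_le (show 7 < 13 by norm_num) (c := 4000) (by norm_num)
  have h3 := mul_le_mul_of_nonneg_left hΔb (by positivity : 0 ≤ 2 * ell n ^ 2)
  have h4 : ell n ^ 2 * ell n ^ 5 = ell n ^ 7 := by ring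
  linarith [pow_nonneg hL0 13]

lemma sq_three (u v w : ℝ) : (u - v - w) ^ 2 ≤ 3 * u ^ 2 + 3 * v ^ 2 + 3 * w ^ 2 := by
  nlinarith [sq_nonneg (u + v), sq_nonneg (u + w), sq_nonneg (v - w)]

lemma sq_leave {o l β c : ℝ} (h : |o| ≤ l * (β + c)) (hl0 : 0 ≤ l) (hl : l ≤ 3) :
    o ^ 2 ≤ (2 * β * β + 2 * c * c) * (3 * l) := by
  calc o ^ 2 = |o| ^ 2 := (sq_abs _).symm
    _ ≤ (l * (β + c)) ^ 2 := pow_le_pow_left₀ (abs_nonneg _) h 2
    _ = l * l * ((β + c) * (β + c)) := by ring
    _ ≤ 3 * l * (2 * β * β + 2 * c * c) := by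
        refine mul_le_mul (mul_le_mul_of_nonneg_right hl hl0) ?_ (mul_self_nonneg _) (by positivity)
        nlinarith [sq_nonneg (β - c)]
    _ = _ := by ring

/-- Scalar: collecting the variance. -/
lemma var_arith {Qh Sc SH SL P QP D d k L13 L26 L10 L11 c β : ℝ}
    (hS : Sc * k ≤ Qh) (hk : 0 ≤ k) (h26 : k * L26 ≤ 1) (hL26 : L13 * L13 = L26)
    (hL26' : 0 ≤ L26) (hQh0 : 0 ≤ Qh) (hQh : D ≤ 2 * Qh) (hD : 0 ≤ D) (hH : SH ≤ QP)
    (hP : Sc * P ≤ QP) (hQP : QP ≤ 4 * D * d * D) (hc : 0 ≤ c) (hcD : c * D ≤ 2) (hcd : c * d ≤ 2)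
    (hd : 0 ≤ d) (hc2 : c ≤ 2) (hSL : SL ≤ 8 * D ^ 2) (hβ : β * β * D ≤ L10) (h10 : 1 ≤ L10)
    (h11 : 20000 * L10 ≤ L11) :
    Sc * (3 * (k * L13) ^ 2) + 3 * (c ^ 2 * (51 * SH + Sc * (51 * P)))
      + 3 * ((2 * β * β + 2 * c * c) * (3 * SL)) ≤ Qh * L11 := by
  have v1 : Sc * (3 * (k * L13) ^ 2) ≤ 3 * Qh := by
    calc Sc * (3 * (k * L13) ^ 2) = 3 * (Sc * k) * (k * L26) := by rw [← hL26]; ring
      _ ≤ 3 * Qh * 1 := mul_le_mul (by linarith) h26 (mul_nonneg hk hL26') (by linarith)
      _ = _ := mul_one _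
  have v2 : c ^ 2 * (51 * SH + Sc * (51 * P)) ≤ 1632 * D := by
    calc c ^ 2 * (51 * SH + Sc * (51 * P)) ≤ c ^ 2 * (102 * (4 * D * d * D)) :=
          mul_le_mul_of_nonneg_left (by linarith) (sq_nonneg c)
      _ = 408 * D * ((c * D) * (c * d)) := by ring
      _ ≤ 408 * D * (2 * 2) := mul_le_mul_of_nonneg_left
          (mul_le_mul hcD hcd (mul_nonneg hc hd) (by norm_num)) (by linarith)
      _ = _ := by ring
  have v3 : (2 * β * β + 2 * c * c) * (3 * SL) ≤ 240 * D * L10 := by
    have hcc : c * (c * D) ≤ 2 * 2 := mul_le_mul hc2 hcD (mul_nonneg hc hD) (by norm_num)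
    calc (2 * β * β + 2 * c * c) * (3 * SL) ≤ (2 * β * β + 2 * c * c) * (3 * (8 * D ^ 2)) :=
          mul_le_mul_of_nonneg_left (by linarith)
            (by nlinarith [mul_self_nonneg β, mul_self_nonneg c])
      _ = 48 * D * (β * β * D + c * (c * D)) := by ring
      _ ≤ 48 * D * (L10 + 2 * 2) := mul_le_mul_of_nonneg_left (by linarith) (by linarith)
      _ ≤ _ := by linarith [mul_le_mul_of_nonneg_left h10 hD]
  have t2 := mul_le_mul_of_nonneg_left h11 hQh0
  have t3 := mul_le_mul_of_nonneg_right hQh (by linarith : (0:ℝ) ≤ L10)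
  have t4 := mul_le_mul_of_nonneg_left h10 hD
  have t5 := mul_le_mul_of_nonneg_left h10 hQh0
  linarith

/-- The variance. -/
lemma dB_var (hn : Big n) (g : Good n G D b) {e : Finset (Fin n)} (he : e ∈ G) :
    ∑ T ∈ (triangles G).filter (fun T => ¬ e ⊆ T), dB G D b e T ^ 2
      ≤ triCount G * (hStep G D * ell n ^ 11) := by
  have f := g.fax hn
  have x := bFax hn g he
  have hh := f.h_pos
  have hQ := f.Q_pos
  have hS : (((triangles G).filter fun T => ¬ e ⊆ T).card : ℝ) ≤ triCount G := by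
    unfold triCount; exact_mod_cast card_filter_le _ _
  have hpt : ∀ T ∈ (triangles G).filter (fun T => ¬ e ⊆ T), dB G D b e T ^ 2
      ≤ 3 * ((hStep G D * ell n ^ 13) ^ 2)
        + 3 * (cB n D ^ 2 * (51 * hitsB G e T + 51 * hitSum G e))
        + 3 * ((2 * bBd n D * bBd n D + 2 * cB n D * cB n D)
          * (3 * ((leavers G e T).card : ℝ))) := by
    intro T hT
    have hT' := (mem_filter.1 hT).1
    unfold dB
    refine (sq_three _ _ _).trans (add_le_add (add_le_add ?_ ?_) ?_)
    · refine mul_le_mul_of_nonneg_left ?_ (by norm_num)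
      rw [neg_mul, neg_sq, ← sq_abs, abs_mul, abs_of_nonneg (sub_nonneg.2 x.eta_le)]
      exact pow_le_pow_left₀ (mul_nonneg (sub_nonneg.2 x.eta_le) (abs_nonneg _))
        (mul_le_mul (by linarith [x.eta_lo]) (g.B_le e he) (abs_nonneg _) hh.le) 2
    · refine mul_le_mul_of_nonneg_left ?_ (by norm_num)
      rw [mul_pow]
      refine mul_le_mul_of_nonneg_left ?_ (sq_nonneg _)
      obtain ⟨x0, x1⟩ := x.hit3 T hT'
      nlinarith [mul_nonneg x0 x.P_nonneg, x.P_le, x.P_nonneg]
    · exact mul_le_mul_of_nonneg_left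
        (sq_leave (x.out_le T) (Nat.cast_nonneg _) (x.leave3 T hT')) (by norm_num)
  refine (sum_le_sum hpt).trans ?_
  simp only [sum_add_distrib, sum_const, nsmul_eq_mul, ← mul_sum]
  rw [← mul_assoc (triCount G)]
  refine var_arith (L26 := ell n ^ 26) (L10 := ell n ^ 10) (QP := triCount G * hitSum G e)
    (mul_le_mul_of_nonneg_right hS hh.le) hh.le x.h_pow (by ring)
    (pow_nonneg (by linarith [hn.ell_ge]) _) (by positivity) x.Qh_lo f.D_pos.le ?_
    (mul_le_mul_of_nonneg_right hS x.P_nonneg) x.P_mul x.c_nonneg x.c_D x.c_d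
    (Real.sqrt_nonneg _) x.c_le x.leave_sum x.bd_sq (hn.pow_ge_one 10)
    (hn.mul_pow_le (by norm_num) (by norm_num))
  refine (sum_le_sum_of_subset_of_nonneg (filter_subset _ _)
    fun T _ _ => Nat.cast_nonneg _).trans_eq ?_
  simp only [hitSum]
  exact sum_hit_cn e hQ.ne'

/-- One edge of the family. -/
lemma stepB_edge (hn : Big n) (g : Good n G D b) {e : Finset (Fin n)} (he : e ∈ G) :
    ∑ T ∈ (triangles G).filter (fun T => ¬ e ⊆ T), potC n 13 (xB (rmTri G T) (stepb G D b T) e)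
      ≤ triCount G
        * (potC n 13 (xB G b e) + hStep G D * (128 * ell n ^ 2 * Real.exp (-(ell n ^ 2)))) := by
  obtain ⟨hdown, hup⟩ := abs_le.1 (dB_mean hn g he)
  rw [sum_congr rfl fun T _ => congrArg (potC n 13) (xB_next g.sub e T)]
  have hS : ((((triangles G).filter fun T => ¬ e ⊆ T).card : ℕ) : ℝ) ≤ triCount G := by
    unfold triCount; exact_mod_cast card_filter_le _ _
  refine potC_step hn (g.fax hn) _ _ (p := 13) (κ := 3) (F := ell n ^ 12) (s2 := ell n ^ 11) hS
    (by norm_num) (by norm_num) (dB_jump hn g he) (by linarith) (by linarith) (dB_var hn g he)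
    ?_ (g.B_le e he)
  have h0 : 0 < ell n := by linarith [hn.ell_ge]
  have e5 : 2 * ell n ^ 2 / ell n ^ 13 * ell n ^ 11 = 2 := by field_simp
  have := hn.mul_pow_le (show 12 < 13 by norm_num) (c := 2) (by norm_num)
  have := hn.pow_ge_one 12
  linarith

/-- The sums of corrections over common neighbourhoods stay under control. -/
theorem stepB : StepB := by
  intro n hn G D b g
  have f := g.fax hn
  have hG := g.sub
  show ∑ T ∈ triangles G, potB (rmTri G T) (stepb G D b T) ≤ _
  unfold potB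
  rw [sum_survivors (triangles G) (rmTri G) G (fun T _ => rmTri_sub T)]
  have h1 : ∀ e ∈ G, (triangles G).filter (fun T => e ∈ rmTri G T)
      = (triangles G).filter fun T => ¬ e ⊆ T :=
    fun e he => filter_congr fun T _ => by rw [mem_rmTri hG]; exact and_iff_right he
  refine (sum_le_sum (g := fun e => triCount G * (potC n 13 (xB G b e)
    + hStep G D * (128 * ell n ^ 2 * Real.exp (-(ell n ^ 2))))) fun e he => ?_).trans ?_
  · rw [h1 e he]; exact stepB_edge hn g he
  rw [← mul_sum, sum_add_distrib, sum_const, nsmul_eq_mul]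
  refine mul_le_mul_of_nonneg_left (add_le_add le_rfl ?_) f.Q_pos.le
  rw [mul_left_comm, mul_comm (err n)]
  refine mul_le_mul_of_nonneg_left (err_ge hn ?_ ?_ (by positivity)) f.h_pos.le
  · have : G.card ≤ n ^ 2 := by
      calc G.card ≤ (completeEdges n).card := card_le_card hG
        _ = n.choose 2 := by rw [completeEdges, card_powersetCard, card_univ, Fintype.card_fin]
        _ ≤ n ^ 2 := Nat.choose_le_pow n 2
    calc (G.card : ℝ) ≤ (n : ℝ) ^ 2 := by exact_mod_cast this
      _ ≤ (n : ℝ) ^ 3 := pow_le_pow_right₀ (by linarith [hn.n_ge]) (by norm_num)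
  · nlinarith [sq_nonneg (ell n)]

end

end Vale.Agent.P046.Full.Stage
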