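import Vale.Agent.P046.Full.Stage.Facts

/-!
# The family of common neighbourhoods of three vertices
-/

namespace Vale.Agent.P046.Full.Stage

open Finset

noncomputable section

variable {n : ℕ} {G : Finset (Finset (Fin n))} {D : ℝ}

lemma Fax.D_le_d (f : Fax n G D) : D ≤ √((n : ℝ) * D) := by
  apply Real.le_sqrt_of_sq_le
  rw [sq]; exact mul_le_mul_of_nonneg_right f.D_le f.D_pos.le

lemma Fax.sq_D_le (f : Fax n G D) (hn : Big n) : 32 * D ^ 2 ≤ triCount G := by
  have h1 := f.ds_le_card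
  have hQ := f.Q_pos
  have hd : 0 < √((n : ℝ) * D) := Real.sqrt_pos.2 (mul_pos hn.n_pos f.D_pos)
  have hN := hn.n_ge
  rw [div_le_div_iff₀ hQ (mul_pos hn.n_pos hd)] at h1
  have h2 : D * ((n : ℝ) * D) ≤ D * ((n : ℝ) * √((n : ℝ) * D)) :=
    mul_le_mul_of_nonneg_left (mul_le_mul_of_nonneg_left f.D_le_d hn.n_pos.le) f.D_pos.le
  have h3 : 1000000 * D ^ 2 ≤ (n : ℝ) * D ^ 2 := mul_le_mul_of_nonneg_right hN (sq_nonneg D)
  have h4 : 0 ≤ D ^ 2 := sq_nonneg D
  linarith

/-- Every polylogarithmic quantity in use is below `√D`. -/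
lemma Fax.pow_le_sqrt (f : Fax n G D) (hn : Big n) {c : ℝ} (hc : c ≤ 1000000) {p : ℕ}
    (hp : p < 4000) : c * ell n ^ p ≤ √D :=
  (hn.mul_pow_le hp hc).trans f.sqrtD_ge

/-- One triple coordinate. -/
lemma triple_coord (hn : Big n) {b : Fin n → ℝ} (g : Good n G D b) {t : Fin n × Fin n × Fin n}
    (ht : t ∈ tri3 n) :
    ∑ T ∈ triangles G, potC n 12 (xN (rmTri G T) (stepD G D) t)
      ≤ triCount G
        * (potC n 12 (xN G D t) + hStep G D * (128 * ell n ^ 2 * Real.exp (-(ell n ^ 2)))) := by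
  have f := g.fax hn
  obtain ⟨h1, h2, h3⟩ := (mem_filter.1 ht).2
  set S : Finset (Fin n) := {t.1, t.2.1, t.2.2} with hS
  have hS3 : S.card = 3 := card_eq_three.2 ⟨_, _, _, h1, h2, h3, rfl⟩
  have hX : |tripleDev G D S| ≤ ell n ^ 12 := g.N_le t ht
  have hD1 : 1 ≤ D := f.one_le_D hn
  have hD0 := f.D_pos
  have hsD : 1 ≤ √D := Real.one_le_sqrt.2 hD1
  have hs2 : √D * √D = D := Real.mul_self_sqrt hD0.le
  have hB2 : 2 * ell n ^ 12 ≤ √D := f.pow_le_sqrt hn (by norm_num) (by norm_num)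
  have hB0 : 0 ≤ ell n ^ 12 := zero_le_one.trans (hn.pow_ge_one 12)
  have hBD : ell n ^ 12 * (√D + 1) ≤ D := by
    calc ell n ^ 12 * (√D + 1) ≤ ell n ^ 12 * (2 * √D) := by gcongr; linarith
      _ = 2 * ell n ^ 12 * √D := by ring
      _ ≤ √D * √D := by gcongr
      _ = D := hs2
  have hμ : ell n ^ 6 / √D ≤ 1 := by
    rw [div_le_one (by linarith)]
    simpa using f.pow_le_sqrt hn (c := 1) (p := 6) (by norm_num) (by norm_num)
  have hbig : 16 * D * (D + ell n ^ 12 * (√D + 1)) ≤ (triHyper G).card := by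
    rw [← triCount_eq]
    calc 16 * D * (D + ell n ^ 12 * (√D + 1)) ≤ 16 * D * (D + D) := by gcongr
      _ = 32 * D ^ 2 := by ring
      _ ≤ _ := f.sq_D_le hn
  have hμ0 : 0 ≤ ell n ^ 6 / √D := by have := hn.pow_ge_one 6; positivity
  obtain ⟨c, hc1, hc2, J, hJ, hJsum, hJsq⟩ :=
    tripleDev_step g.sub hS3 hD1 f.D_le hμ0 hμ f.u_abs hX hbig
  rw [← triCount_eq] at hc1 hc2 hJsum
  set Q := triCount G with hQdef
  set X := tripleDev G D S with hXdef
  set h := hStep G D with hhdef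
  have hQ : 0 < Q := f.Q_pos
  have hh : 0 < h := f.h_pos
  set r := D / Q with hr
  have hr0 : 0 < r := by positivity
  have hrh : h ≤ r := f.h_le
  have hr2 : r ≤ 2 * h := f.ds_le_two_h
  have hrD : r ≤ 1 / D := f.ds_le_inv
  rw [show 3 / 2 * D / Q = 3 / 2 * r by rw [hr]; ring] at hc1
  rw [show 3 * D / Q = 3 * r by rw [hr]; ring] at hc2
  have hc0 : 0 ≤ c := le_trans (by positivity) hc1
  have hcard : ((triangles G).card : ℝ) = Q := rfl
  have hDQ : D = Q * r := by rw [hr]; field_simp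
  -- the coordinate after the step
  have hcongr : ∀ T ∈ triangles G, potC n 12 (xN (rmTri G T) (stepD G D) t)
      = potC n 12 (X + (J T - c * X)) := by
    intro T hT
    have := (hJ T hT).1
    rw [nextD_eq] at this
    unfold xN rmTri
    rw [← hS, this]; ring_nf
  rw [sum_congr rfl hcongr]
  have hXs : c * |X| ≤ 3 * r * ell n ^ 12 := mul_le_mul hc2 hX (abs_nonneg _) (by positivity)
  have hrB : 3 * r * ell n ^ 12 ≤ 1 := by
    have h5 : 3 * ell n ^ 12 ≤ D :=
      (f.pow_le_sqrt hn (by norm_num) (by norm_num)).trans (Real.sqrt_le_iff.2 ⟨hD0.le, by nlinarith⟩)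
    calc 3 * r * ell n ^ 12 ≤ 3 * (1 / D) * ell n ^ 12 := by gcongr
      _ = 3 * ell n ^ 12 / D := by ring
      _ ≤ 1 := by rwa [div_le_one hD0]
  have hmain : |∑ T ∈ triangles G, J T| ≤ Q * (h * (500 * ell n ^ 6)) := by
    refine hJsum.trans ?_
    have hP : √(tripleRef n D) ≤ √D := Real.sqrt_le_sqrt (tripleRef_le n hD0.le f.D_le)
    have hL6 := hn.pow_ge_one 6
    have k1 : 3 * (ell n ^ 6 / √D) + 4 / D ≤ 7 * ell n ^ 6 / √D := by
      have : 4 / D ≤ 4 * (ell n ^ 6 / √D) := by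
        rw [mul_div_assoc', div_le_div_iff₀ hD0 (by linarith)]
        have hsle : √D ≤ D := Real.sqrt_le_iff.2 ⟨hD0.le, by nlinarith⟩
        have : 1 * D ≤ ell n ^ 6 * D := mul_le_mul_of_nonneg_right hL6 hD0.le
        linarith
      rw [show 7 * ell n ^ 6 / √D = 7 * (ell n ^ 6 / √D) by ring]
      linarith
    have k2 : (√(tripleRef n D) + ell n ^ 12) * (3 * (ell n ^ 6 / √D) + 4 / D)
        ≤ 14 * ell n ^ 6 := by
      calc (√(tripleRef n D) + ell n ^ 12) * (3 * (ell n ^ 6 / √D) + 4 / D)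
          ≤ 2 * √D * (7 * ell n ^ 6 / √D) := by
            refine mul_le_mul (by linarith) k1 (by positivity) (by positivity)
        _ = 14 * ell n ^ 6 := by field_simp; ring
    have k3 : 8 * (2 * D / Q) * √(tripleRef n D) ≤ 16 * ell n ^ 6 := by
      calc 8 * (2 * D / Q) * √(tripleRef n D) = 16 * r * √(tripleRef n D) := by rw [hr]; ring
        _ ≤ 16 * (1 / D) * √D := by gcongr
        _ ≤ 16 * 1 := by
            rw [mul_assoc]
            refine mul_le_mul_of_nonneg_left ?_ (by norm_num)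
            rw [one_div_mul_eq_div, div_le_one hD0]
            nlinarith
        _ ≤ _ := by linarith
    calc D * (2 * ((√(tripleRef n D) + ell n ^ 12) * (3 * (ell n ^ 6 / √D) + 4 / D)
          + 8 * (2 * D / Q) * √(tripleRef n D))) ≤ D * (2 * (14 * ell n ^ 6 + 16 * ell n ^ 6)) := by
          gcongr
      _ = Q * (r * (60 * ell n ^ 6)) := by rw [hDQ]; ring
      _ ≤ Q * (2 * h * (250 * ell n ^ 6)) := by gcongr; linarith
      _ = _ := by ring
  have hκ1 : 3 / 2 ≤ c / h := by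
    rw [le_div_iff₀ hh]
    have : 3 / 2 * h ≤ 3 / 2 * r := by linarith
    linarith
  have hκ8 : c / h ≤ 8 := by rw [div_le_iff₀ hh]; linarith
  have hmeanEq : ∑ T ∈ triangles G, (J T - c * X)
      = (∑ T ∈ triangles G, J T) + Q * (h * (-(c / h) * X)) := by
    rw [sum_sub_distrib, sum_const, nsmul_eq_mul, hcard]; field_simp; ring
  obtain ⟨m1, m2⟩ := abs_le.1 hmain
  refine potC_step hn f (triangles G) _ le_rfl (κ := c / h) (F := 500 * ell n ^ 6)
    (s2 := 5000 * ell n ^ 12) (by positivity) hκ8 (fun T hT => ?_) ?_ ?_ ?_ ?_ hX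
  · have h5 : |J T - c * X| ≤ 9 := by
      refine (abs_sub _ _).trans ?_
      rw [abs_mul, abs_of_nonneg hc0]
      linarith [(hJ T hT).2]
    have h6 : 18 * ell n ^ 2 ≤ ell n ^ 12 := hn.mul_pow_le (by norm_num) (by norm_num)
    calc 2 * ell n ^ 2 * |J T - c * X| ≤ 2 * ell n ^ 2 * 9 := by gcongr
      _ ≤ _ := by linarith
  · rw [hmeanEq]
    linarith
  · rw [hmeanEq]
    linarith
  · have hpt : ∀ T ∈ triangles G, (J T - c * X) ^ 2 ≤ 2 * J T ^ 2 + 2 * (c * |X|) ^ 2 := by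
      intro T _
      rw [mul_pow, sq_abs, ← mul_pow]
      linarith [sq_nonneg (J T + c * X)]
    refine (sum_le_sum hpt).trans ?_
    rw [sum_add_distrib, ← mul_sum, sum_const, nsmul_eq_mul, hcard]
    have k1 : (c * |X|) ^ 2 ≤ 3 * r * ell n ^ 12 * 1 := by
      rw [sq]; exact mul_le_mul hXs (hXs.trans hrB) (by positivity) (by positivity)
    have k2 := mul_le_mul_of_nonneg_left k1 (by positivity : 0 ≤ Q * 2)
    have k3 : D * (400 * (2 + ell n ^ 12)) ≤ Q * r * (1200 * ell n ^ 12) := by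
      rw [← hDQ]; exact mul_le_mul_of_nonneg_left (by linarith [hn.pow_ge_one 12]) hD0.le
    have k4 : Q * (r * (2500 * ell n ^ 12)) ≤ Q * (2 * h * (2500 * ell n ^ 12)) := by gcongr
    have k5 : 0 ≤ Q * r * ell n ^ 12 := by positivity
    linarith
  · have h7 : 2 * ell n ^ 2 / ell n ^ 12 * (5000 * ell n ^ 12) = 10000 * ell n ^ 2 := by
      have : (0:ℝ) < ell n ^ 12 := lt_of_lt_of_le one_pos (hn.pow_ge_one 12)
      field_simp; ring
    rw [h7]
    have h8 : 2000 * ell n ^ 6 ≤ ell n ^ 12 := hn.mul_pow_le (by norm_num) (by norm_num)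
    have h9 : 40000 * ell n ^ 2 ≤ ell n ^ 12 := hn.mul_pow_le (by norm_num) (by norm_num)
    have h10 : 3 / 2 * (ell n ^ 12 / 2) ≤ c / h * (ell n ^ 12 / 2) := by gcongr
    linarith

/-- The triple family satisfies its step bound. -/
theorem stepN : StepN := by
  intro n hn G D b g
  have f := g.fax hn
  unfold potN
  rw [sum_comm]
  refine (sum_le_sum fun t ht => triple_coord hn g ht).trans ?_
  rw [← mul_sum, sum_add_distrib, sum_const, nsmul_eq_mul]
  refine mul_le_mul_of_nonneg_left (add_le_add le_rfl ?_) f.Q_pos.le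
  have hc : ((tri3 n).card : ℝ) ≤ (n : ℝ) ^ 3 := by
    have : (tri3 n).card ≤ n ^ 3 := by
      refine (card_le_card (filter_subset _ _)).trans (le_of_eq ?_)
      simp [Fintype.card_prod]; ring
    exact_mod_cast this
  have h1 := err_ge hn hc (K := 128 * ell n ^ 2) (by nlinarith [sq_nonneg (ell n)])
    (by positivity)
  have h2 := mul_le_mul_of_nonneg_right h1 f.h_pos.le
  linarith

end

end Vale.Agent.P046.Full.Stage
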