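import Vale.Agent.P046.Full.Stage.Rp
import Vale.Agent.P046.Full.Stage.StepN

/-!
# The family of corrected neighbour deviations
-/

namespace Vale.Agent.P046.Full.Stage

open Finset

noncomputable section

variable {n : ℕ} {G : Finset (Finset (Fin n))} {D : ℝ} {b : Fin n → ℝ}

lemma degv_eq_card_cn (hG : G ⊆ completeEdges n) (x : Fin n) :
    degv G x = (cn G {x}).card := by
  unfold degv
  have : G.filter (fun e => x ∈ e) = (cn G {x}).image fun w => ({x, w} : Finset (Fin n)) := by
    ext e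
    simp only [mem_filter, mem_image, mem_cn, mem_singleton, forall_eq]
    constructor
    · rintro ⟨he, hx⟩
      obtain ⟨w, hw, hwx⟩ := exists_mem_ne (s := e) (by rw [card_edge hG he]; norm_num) x
      have : ({x, w} : Finset (Fin n)) = e :=
        eq_of_subset_of_card_le (by simp [insert_subset_iff, hx, hw])
          (by rw [card_edge hG he, card_pair hwx.symm])
      exact ⟨w, this ▸ he, this⟩
    · rintro ⟨w, hw, rfl⟩
      exact ⟨hw, by simp⟩
  rw [this, card_image_of_injOn]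
  intro v hv w hw h
  have hv' : ({x, v} : Finset (Fin n)) ∈ G := by simpa [mem_cn] using hv
  have : v ∈ ({x, w} : Finset (Fin n)) := by
    rw [← show ({x, v} : Finset (Fin n)) = {x, w} from h]; simp
  simpa [(ne_of_edge hG hv').symm] using this

lemma Good.nbrGood (hn : Big n) (g : Good n G D b) :
    NbrGood G D (ell n ^ 6 / √D) (ell n ^ 12) := by
  have f := g.fax hn
  have hsD : 0 < √D := Real.sqrt_pos.2 f.D_pos
  refine ⟨g.sub, f.one_le_D hn, f.D_le, by have := hn.pow_ge_one 6; positivity, ?_,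
    zero_le_one.trans (hn.pow_ge_one 12), f.u_abs, fun S hS => ?_, fun x => ?_, ?_⟩
  · rw [div_le_one hsD]
    simpa using f.pow_le_sqrt hn (c := 1) (p := 6) (by norm_num) (by norm_num)
  · obtain ⟨x, y, w, h1, h2, h3, rfl⟩ := card_eq_three.1 hS
    exact g.N_le (x, y, w) (mem_filter.2 ⟨mem_univ _, h1, h2, h3⟩)
  · rw [← degv_eq_card_cn g.sub]; exact f.deg_le x
  · have h := f.ds_le
    have := f.D_pos
    rw [← triCount_eq]
    rw [div_le_iff₀ f.Q_pos] at h
    linarith

lemma hitProb_eq (G : Finset (Finset (Fin n))) (x : Fin n) : hitProb G x = starProb G x := by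
  unfold hitProb starProb; rw [triCount_eq]

/-- The size of the corrections at the two ends of an edge. -/
lemma Good.bsum_le (hn : Big n) (g : Good n G D b) {e : Finset (Fin n)} (he : e ∈ G) :
    |∑ v ∈ e, b v| ≤ 1 ∧ √D * |∑ v ∈ e, b v| ≤ 2 * ell n ^ 5 := by
  have f := g.fax hn
  have hD0 := f.D_pos
  set q := √(√((n : ℝ) * D)) with hq
  have hs : √D ≤ q := Real.sqrt_le_sqrt f.D_le_d
  have hsD : 0 < √D := Real.sqrt_pos.2 hD0
  have hb : ∀ v, √D * |b v| ≤ ell n ^ 5 := by
    intro v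
    have h1 := g.b_le v
    rw [xb, abs_mul, ← hq, abs_of_nonneg (by positivity : 0 ≤ q)] at h1
    exact le_trans (mul_le_mul_of_nonneg_right hs (abs_nonneg _)) h1
  have h2 : √D * |∑ v ∈ e, b v| ≤ 2 * ell n ^ 5 := by
    calc √D * |∑ v ∈ e, b v| ≤ √D * ∑ v ∈ e, |b v| :=
          mul_le_mul_of_nonneg_left (abs_sum_le_sum_abs _ _) hsD.le
      _ = ∑ v ∈ e, √D * |b v| := mul_sum ..
      _ ≤ ∑ _v ∈ e, ell n ^ 5 := sum_le_sum fun v _ => hb v
      _ = _ := by rw [sum_const, card_edge g.sub he, nsmul_eq_mul]; norm_num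
  refine ⟨?_, h2⟩
  have h3 : 2 * ell n ^ 5 ≤ √D := f.pow_le_sqrt hn (by norm_num) (by norm_num)
  exact le_of_mul_le_mul_left (by linarith) hsD

/-- One side of one coordinate. -/
lemma r_side (hn : Big n) (f : Fax n G D) {ι : Type*} (S : Finset ι) (Δ : ι → ℝ) {X : ℝ}
    (hS : (S.card : ℝ) ≤ triCount G) (hjump : ∀ i ∈ S, |Δ i| ≤ 400)
    (hmean : ∑ i ∈ S, Δ i ≤ D * (-2 * X + 2 * thR n D + ell n ^ 15))
    (hvar : ∑ i ∈ S, Δ i ^ 2 ≤ D * ell n ^ 26) (hX : |X| ≤ thR n D)
    (hclock : 0 ≤ clock n D) (hth : thR n D ≤ ell n ^ 18) :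
    ∑ i ∈ S, Real.exp (4 * ell n ^ 2 / ell n ^ 17 * (X + Δ i - thR n (stepD G D)))
      ≤ triCount G * (Real.exp (4 * ell n ^ 2 / ell n ^ 17 * (X - thR n D))
        + hStep G D * (100 * ell n ^ 3 * Real.exp (-(ell n ^ 2)))) := by
  have hL17 : (0:ℝ) < ell n ^ 17 := lt_of_lt_of_le one_pos (hn.pow_ge_one 17)
  have hQ := f.Q_pos
  have hD0 := f.D_pos
  set Q := triCount G with hQdef
  set h := hStep G D with hhdef
  set r := D / Q with hr
  have hh : 0 < h := f.h_pos
  have hrh : h ≤ r := f.h_le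
  have hhr : r * (1 - 2 * r) ≤ h := f.h_ge
  have hr1 : r ≤ 1 / 100 := f.ds_le
  have hr0 : 0 ≤ r := by positivity
  have hD' : D = Q * r := by rw [hr]; field_simp
  have hrh' : r ≤ 103 / 100 * h := by
    have : r * (1 - 2 / 100) ≤ r * (1 - 2 * r) := mul_le_mul_of_nonneg_left (by linarith) hr0
    linarith
  set th := thR n D with hthdef
  set P := -2 * X + 2 * th + ell n ^ 15 with hP
  have hX' := abs_le.1 hX
  have hL15 : 0 ≤ ell n ^ 15 := zero_le_one.trans (hn.pow_ge_one 15)
  have hP0 : 0 ≤ P := by rw [hP]; linarith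
  have hs2 : ∑ i ∈ S, Δ i ^ 2 ≤ Q * (h * (2 * ell n ^ 26)) := by
    refine hvar.trans ?_
    rw [hD', mul_assoc]
    refine mul_le_mul_of_nonneg_left ?_ hQ.le
    have h25 : 0 ≤ ell n ^ 26 := zero_le_one.trans (hn.pow_ge_one 26)
    have := mul_le_mul_of_nonneg_right (show r ≤ 2 * h by linarith) h25
    linarith
  have hm2 : ∑ i ∈ S, Δ i ≤ Q * (h * (103 / 100 * P)) := by
    refine hmean.trans ?_
    rw [hD', mul_assoc]
    refine mul_le_mul_of_nonneg_left ?_ hQ.le
    calc r * P ≤ 103 / 100 * h * P := mul_le_mul_of_nonneg_right hrh' hP0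
      _ = _ := by ring
  have hth' : thR n (stepD G D) = th + ell n ^ 17 * h := by
    rw [hthdef, thR, thR, f.clock_step (by have := hn.n_ge; linarith)]; ring
  have hls : 4 * ell n ^ 2 / ell n ^ 17 * (2 * ell n ^ 26) = 8 * ell n ^ 11 := by
    field_simp; ring
  have h10 : 1000 * ell n ^ 11 ≤ ell n ^ 17 := hn.mul_pow_le (by norm_num) (by norm_num)
  have h15 : 1000 * ell n ^ 15 ≤ ell n ^ 17 := hn.mul_pow_le (by norm_num) (by norm_num)
  have h17 : ell n ^ 17 ≤ th := by
    rw [hthdef, thR]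
    exact le_mul_of_one_le_right hL17.le (by linarith)
  have hX1 : 4 * th + ell n ^ 17 ≤ 5 * ell n ^ 18 := by
    have : ell n ^ 17 ≤ ell n ^ 18 := hn.pow_le (by norm_num)
    linarith
  refine (exp_step S Δ (th := th) (th' := thR n (stepD G D)) (T := ell n ^ 17 / 4)
    (F := 103 / 100 * P) (s2 := 2 * ell n ^ 26) (C := 6 * ell n ^ 18) (h := h) (X := X)
    (by positivity) hQ.le hS hh.le (by have := hn.pow_ge_one 18; positivity) (fun i hi => ?_) hm2
    hs2 ?_ (fun hnear => ?_) ?_ ?_).trans (le_of_eq_of_le rfl ?_)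
  · rw [abs_mul, abs_of_nonneg (by positivity), div_mul_eq_mul_div, div_le_one hL17]
    calc 4 * ell n ^ 2 * |Δ i| ≤ 4 * ell n ^ 2 * 400 := by gcongr; exact hjump i hi
      _ = 1600 * ell n ^ 2 := by ring
      _ ≤ _ := hn.mul_pow_le (by norm_num) (by norm_num)
  · rw [hth']
    have : 0 ≤ ell n ^ 17 * h := by positivity
    linarith
  · rw [hth', hls, show th + ell n ^ 17 * h - th = h * ell n ^ 17 by ring]
    refine mul_le_mul_of_nonneg_left ?_ hh.le
    rw [hP]; linarith
  · rw [hls, hP]; linarith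
  · -- the step is short
    have h3 : 24 * ell n ^ 3 * h ≤ 1 := by
      have h4 : h ≤ 1 / D := hrh.trans f.ds_le_inv
      have h5 : 24 * ell n ^ 3 ≤ D := by
        refine (f.pow_le_sqrt hn (by norm_num) (by norm_num)).trans ?_
        exact Real.sqrt_le_iff.2 ⟨hD0.le, by nlinarith [f.one_le_D hn]⟩
      calc 24 * ell n ^ 3 * h ≤ D * (1 / D) := mul_le_mul h5 h4 hh.le hD0.le
        _ = 1 := by field_simp
    refine le_trans (le_of_eq ?_) h3
    field_simp; ring
  · refine mul_le_mul_of_nonneg_left (add_le_add le_rfl (mul_le_mul_of_nonneg_left ?_ hh.le)) hQ.le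
    have e1 : 4 * ell n ^ 2 / ell n ^ 17 * (ell n ^ 17 / 4) = ell n ^ 2 := by field_simp
    have e2 : 2 * (4 * ell n ^ 2 / ell n ^ 17) * (6 * ell n ^ 18) = 48 * ell n ^ 3 := by
      field_simp; ring
    rw [e1, e2]
    refine mul_le_mul_of_nonneg_right ?_ (Real.exp_pos _).le
    have := hn.pow_ge_one 3
    linarith

/-- The increments of one coordinate. -/
lemma r_incr (hn : Big n) (g : Good n G D b) {e : Finset (Fin n)} (he : e ∈ G) :
    ∃ Δ : Finset (Fin n) → ℝ,
      (∀ T ∈ (triangles G).filter (fun T => e ∉ T.powersetCard 2),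
        xR (rmTri G T) (stepD G D) (stepb G D b T) e = xR G D b e + Δ T ∧ |Δ T| ≤ 400) ∧
      ∑ T ∈ (triangles G).filter (fun T => e ∉ T.powersetCard 2), Δ T
        ≤ D * (-2 * xR G D b e + 2 * thR n D + ell n ^ 15) ∧
      -∑ T ∈ (triangles G).filter (fun T => e ∉ T.powersetCard 2), Δ T
        ≤ D * (2 * xR G D b e + 2 * thR n D + ell n ^ 15) ∧
      ∑ T ∈ (triangles G).filter (fun T => e ∉ T.powersetCard 2), Δ T ^ 2 ≤ D * ell n ^ 26 ∧
      0 ≤ clock n D ∧ thR n D ≤ ell n ^ 18 := by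
  have f := g.fax hn
  have hD0 := f.D_pos
  have hD1 := f.one_le_D hn
  have hN := hn.n_ge
  have hL := hn.ell_ge
  have hnb := g.nbrGood hn
  set Q := triCount G with hQdef
  have hQ : 0 < Q := f.Q_pos
  set a := 2 * D / Q with hadef
  have ha : 0 ≤ a := by positivity
  have ha2 : a ≤ 1 / 50 := by
    have := f.ds_le; rw [hadef, mul_div_assoc]; linarith
  -- the clock
  have hclock : 0 ≤ clock n D :=
    div_nonneg (Real.log_nonneg (by rw [le_div_iff₀ hD0, one_mul]; exact g.D_hi)) zero_le_two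
  have hth : thR n D ≤ ell n ^ 18 := by
    have h1 : clock n D ≤ ell n / 2 := by
      refine div_le_div_of_nonneg_right ?_ zero_le_two
      refine Real.log_le_log (div_pos (by linarith) hD0) ?_
      exact (div_le_self (by linarith) hD1).trans (by linarith)
    calc thR n D ≤ ell n ^ 17 * ell n :=
          mul_le_mul_of_nonneg_left (by linarith) (by positivity)
      _ = _ := by ring
  set th := thR n D with hthdef
  -- parameters of the filter step
  have hexp : Real.exp (-hStep G D) = 1 / √(1 + a) := by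
    rw [Real.exp_neg, one_div]
    congr 1
    rw [show 1 + a = Real.exp (hStep G D) * Real.exp (hStep G D) by
      rw [← Real.exp_add, ← two_mul, f.exp_two_h, hadef, hQdef],
      Real.sqrt_mul_self (Real.exp_pos _).le]
  obtain ⟨sb1, sb2⟩ := shrink_bounds ha (by linarith)
  have hcardQ : ((triHyper G).card : ℝ) = Q := triCount_eq.symm
  obtain ⟨J, hJ, hJsum, hJsq⟩ := hnb.rpDev_step he b (β := 1 - Real.exp (-hStep G D))
    (γ := 2 / √((n : ℝ) * D)) (fun T => stepb G D b T)
    (fun T _ v => by unfold stepb; rw [hitProb_eq]; ring)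
    (by
      rw [hcardQ, ← hadef, sub_sub_cancel, hexp, div_div, mul_comm √(1 + a)]
      rw [abs_le]
      have : 0 ≤ 4 * a ^ 2 := by positivity
      constructor <;> linarith)
    (by
      rw [nextD_eq, hcardQ, ← hadef]
      have hnD : stepD G D = D / (1 + a) := rfl
      have hd : 0 < √((n : ℝ) * D) := Real.sqrt_pos.2 (by positivity)
      have hπ : D / √((n : ℝ) * D) = √(D / n) := by
        rw [div_eq_iff hd.ne', ← Real.sqrt_mul (by positivity : (0:ℝ) ≤ D / n),
          show D / n * ((n : ℝ) * D) = D ^ 2 by field_simp, Real.sqrt_sq hD0.le]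
      have e1 : D / (1 + a) * (2 / √((n : ℝ) * D)) - 2 * √(D / n)
          = -(2 * √(D / n) * (a / (1 + a))) := by
        rw [← hπ]; field_simp; ring
      rw [hnD, e1, abs_neg, abs_of_nonneg (by positivity)]
      have : a / (1 + a) ≤ a := div_le_self ha (by linarith)
      calc 2 * √(D / n) * (a / (1 + a)) ≤ 2 * √(D / n) * a := by gcongr
        _ ≤ 4 * √(D / n) * a := by gcongr; norm_num)
  rw [hcardQ] at hJ hJsum hJsq
  set X := xR G D b e with hXdef
  have hXe : ∀ f' : Finset (Fin n), rpDev G D b f' = xR G D b f' :=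
    fun f' => rpDev_eq_nbrDev G hD0.ne' b f'
  rw [hXe e] at hJ
  set A := (triangles G).filter (fun T => e ∉ T.powersetCard 2) with hAdef
  set Y : ℝ := (deg (triHyper G) e : ℝ) with hYdef
  have hY0 : 0 ≤ Y := Nat.cast_nonneg _
  have hY2 : Y ≤ 2 * D := hnb.codeg_le he
  have hcardA : (A.card : ℝ) = Q - Y := by
    have h1 := card_alive (triHyper G) e
    rw [card_eq_sum_ones, sum_alive e (fun _ => (1:ℕ)), ← card_eq_sum_ones, hcardQ] at h1
    exact h1
  have hX : |X| ≤ th := g.R_le e he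
  have hth0 : 0 ≤ th := (abs_nonneg _).trans hX
  set bh := ∑ v ∈ e, b v with hbh
  obtain ⟨hb1, hb2⟩ := g.bsum_le hn he
  have hsD : 0 < √D := Real.sqrt_pos.2 hD0
  have hs2 : √D * √D = D := Real.mul_self_sqrt hD0.le
  have hsD1 : 1 ≤ √D := Real.one_le_sqrt.2 hD1
  set μ := ell n ^ 6 / √D with hμdef
  have hμ0 : 0 ≤ μ := hnb.μ_nonneg
  have hμ1 : μ ≤ 1 := hnb.μ_le
  have hμs : μ * √D = ell n ^ 6 := by rw [hμdef]; field_simp
  have hμ2 : D * μ ^ 2 = ell n ^ 12 := by
    calc D * μ ^ 2 = (μ * √D) ^ 2 := by rw [mul_pow, Real.sq_sqrt hD0.le]; ring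
      _ = _ := by rw [hμs]; ring
  have hr : D / Q ≤ 1 / D := f.ds_le_inv
  have hr2 : D ^ 2 / Q ≤ 1 := by
    calc D ^ 2 / Q = D * (D / Q) := by ring
      _ ≤ D * (1 / D) := mul_le_mul_of_nonneg_left hr hD0.le
      _ = 1 := by field_simp
  have h18D : 10 * ell n ^ 18 ≤ √D := f.pow_le_sqrt hn (by norm_num) (by norm_num)
  have haX : a * th ≤ 1 := by
    calc a * th ≤ 2 * (1 / D) * ell n ^ 18 := by
          refine mul_le_mul ?_ hth hth0 (by positivity)
          rw [hadef, mul_div_assoc]; linarith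
      _ = 2 * ell n ^ 18 / D := by ring
      _ ≤ 1 := by
          rw [div_le_one hD0]
          have := mul_le_mul_of_nonneg_left hsD1 hsD.le
          have := hn.pow_ge_one 18
          linarith
  -- the forcing
  have hK : D * μ * |bh| + 2 * |∑ z ∈ cn G e, b z| + 8 * D * μ ^ 2 + 250
      + 250 * D ^ 2 / Q * (1 + |bh|) ≤ ell n ^ 14 := by
    have hB := g.B_le e he
    rw [xB] at hB
    have k1 : D * μ * |bh| ≤ 2 * ell n ^ 11 := by
      calc D * μ * |bh| = μ * √D * (√D * |bh|) := by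
            calc D * μ * |bh| = √D * √D * μ * |bh| := by rw [hs2]
              _ = _ := by ring
        _ ≤ ell n ^ 6 * (2 * ell n ^ 5) := by
            rw [hμs]; exact mul_le_mul_of_nonneg_left hb2 (by positivity)
        _ = _ := by ring
    have k2 : 8 * D * μ ^ 2 = 8 * ell n ^ 12 := by rw [mul_assoc, hμ2]
    have k3 : 250 * D ^ 2 / Q * (1 + |bh|) ≤ 250 * 2 := by
      rw [show 250 * D ^ 2 / Q = 250 * (D ^ 2 / Q) by ring]
      refine mul_le_mul ?_ (by linarith) (by positivity) (by norm_num)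
      linarith
    have := hn.mul_pow_le (a := 13) (b := 14) (c := 1000) (by norm_num) (by norm_num)
    have := hn.pow_le (a := 11) (b := 13) (by norm_num)
    have := hn.pow_le (a := 12) (b := 13) (by norm_num)
    have := hn.pow_ge_one 13
    linarith
  have hAX : |adjSum (triHyper G) (rpDev G D b) e| ≤ 2 * th * (D * (1 + μ)) := by
    have h1 := (triHyper_lin G).abs_adjSum_le (F := rpDev G D b) (C := th)
      (fun f' hf' => by rw [hXe f']; exact g.R_le f' hf') e
    refine h1.trans (mul_le_mul_of_nonneg_left ?_ (by positivity))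
    have h2 := (abs_le.1 (hnb.dev_le e he)).2
    unfold dev at h2
    rw [sub_le_iff_le_add, div_le_iff₀ hD0] at h2
    linarith
  have hμth : μ * th ≤ 1 := by
    calc μ * th ≤ μ * ell n ^ 18 := mul_le_mul_of_nonneg_left hth hμ0
      _ = ell n ^ 24 / √D := by rw [hμdef]; ring
      _ ≤ 1 := by
          rw [div_le_one hsD]
          simpa using f.pow_le_sqrt hn (c := 1) (p := 24) (by norm_num) (by norm_num)
  set Δ : Finset (Fin n) → ℝ := fun T => J T - a * X with hΔ
  have hsumΔ : ∑ T ∈ A, Δ T = ((∑ T ∈ A, J T) + adjSum (triHyper G) (rpDev G D b) e)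
      - adjSum (triHyper G) (rpDev G D b) e + D * (-2 * X) + a * X * Y := by
    simp only [hΔ]
    rw [sum_sub_distrib, sum_const, nsmul_eq_mul, hcardA,
      show D * (-2 * X) = -(a * Q) * X by rw [hadef]; field_simp]
    ring
  have haXY : |a * X * Y| ≤ D * 2 := by
    rw [abs_mul, abs_mul, abs_of_nonneg ha, abs_of_nonneg hY0]
    calc a * |X| * Y ≤ a * th * (2 * D) := by gcongr
      _ ≤ 1 * (2 * D) := by gcongr
      _ = _ := by ring
  have h15 : ell n ^ 14 + 4 ≤ ell n ^ 15 := by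
    have := hn.mul_pow_le (a := 14) (b := 15) (c := 10) (by norm_num) (by norm_num)
    have := hn.pow_ge_one 14
    linarith
  have hJb := abs_le.1 (hJsum.trans (mul_le_mul_of_nonneg_left hK hD0.le))
  obtain ⟨q1, q2⟩ := abs_le.1 hAX
  obtain ⟨y1, y2⟩ := abs_le.1 haXY
  have hμD : D * (μ * th) ≤ D * 1 := mul_le_mul_of_nonneg_left hμth hD0.le
  have h15D := mul_le_mul_of_nonneg_left h15 hD0.le
  refine ⟨Δ, fun T hT => ⟨?_, ?_⟩, ?_, ?_, ?_, hclock, hth⟩
  · have hD' : stepD G D ≠ 0 := f.stepD_pos.ne'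
    have h1 := (hJ T hT).1
    rw [nextD_eq] at h1
    unfold rmTri xR
    rw [← rpDev_eq_nbrDev _ hD', h1, hΔ]
    ring
  · have h1 := (hJ T hT).2
    have hP : √(tripleRef n D) ≤ √D := Real.sqrt_le_sqrt (tripleRef_le n hD0.le f.D_le)
    have k1 : (2 * ell n ^ 12 * (√(tripleRef n D) + 1) + 18) / D ≤ 19 := by
      rw [div_le_iff₀ hD0]
      have hB2 : 4 * ell n ^ 12 ≤ √D := f.pow_le_sqrt hn (by norm_num) (by norm_num)
      have k : 2 * ell n ^ 12 * (√(tripleRef n D) + 1) ≤ √D / 2 * (2 * √D) :=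
        mul_le_mul (by linarith) (by linarith) (by positivity) (by positivity)
      linarith
    have k3 : 100 * D ^ 2 / Q * (1 + |bh|) ≤ 100 * 2 := by
      rw [show 100 * D ^ 2 / Q = 100 * (D ^ 2 / Q) by ring]
      exact mul_le_mul (by linarith) (by linarith) (by positivity) (by norm_num)
    have k4 : |a * X| ≤ 1 := by
      rw [abs_mul, abs_of_nonneg ha]
      exact (mul_le_mul_of_nonneg_left hX ha).trans haX
    simp only [hΔ]
    refine (abs_sub _ _).trans ?_
    linarith
  · rw [hsumΔ]; linarith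
  · rw [hsumΔ]; linarith
  · have hpt : ∀ T ∈ A, Δ T ^ 2 ≤ 2 * J T ^ 2 + 2 * (a * th) ^ 2 := by
      intro T _
      simp only [hΔ]
      have h1 : (a * X) ^ 2 ≤ (a * th) ^ 2 := by
        rw [mul_pow, mul_pow, ← sq_abs X]
        exact mul_le_mul_of_nonneg_left (pow_le_pow_left₀ (abs_nonneg _) hX 2) (sq_nonneg a)
      linarith [sq_nonneg (J T + a * X)]
    refine (sum_le_sum hpt).trans ?_
    rw [sum_add_distrib, ← mul_sum, sum_const, nsmul_eq_mul, hcardA]
    have k1 : (Q - Y) * (2 * (a * th) ^ 2) ≤ D * (4 * ell n ^ 18) := by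
      calc (Q - Y) * (2 * (a * th) ^ 2) ≤ Q * (2 * ((a * ell n ^ 18) * 1)) := by
            refine mul_le_mul (by linarith) (mul_le_mul_of_nonneg_left ?_ zero_le_two)
              (by positivity) hQ.le
            rw [sq]
            exact mul_le_mul (mul_le_mul_of_nonneg_left hth ha) haX (by positivity) (by positivity)
        _ = D * (4 * ell n ^ 18) := by rw [hadef]; field_simp; ring
    have k2 : D ^ 4 / Q ≤ D * 12 := by
      have h1 := f.ds_le_card
      have hd : 0 < √((n : ℝ) * D) := Real.sqrt_pos.2 (by positivity)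
      have h2 : D ^ 2 * (12 / ((n : ℝ) * √((n : ℝ) * D))) ≤ 12 := by
        rw [mul_div_assoc', div_le_iff₀ (by positivity), mul_comm (D ^ 2), sq]
        exact mul_le_mul_of_nonneg_left
          (mul_le_mul f.D_le f.D_le_d hD0.le hn.n_pos.le) (by norm_num)
      calc D ^ 4 / Q = D * (D ^ 2 * (D / Q)) := by ring
        _ ≤ D * (D ^ 2 * (12 / ((n : ℝ) * √((n : ℝ) * D)))) := by gcongr
        _ ≤ D * 12 := mul_le_mul_of_nonneg_left h2 hD0.le
    have k3 : 30000 * D ^ 4 / Q * (1 + |bh|) ^ 2 ≤ D * 1440000 := by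
      calc 30000 * D ^ 4 / Q * (1 + |bh|) ^ 2 = 30000 * (D ^ 4 / Q) * (1 + |bh|) ^ 2 := by ring
        _ ≤ 30000 * (D * 12) * 2 ^ 2 := by gcongr; linarith
        _ = _ := by ring
    have k4 : 4000 * μ ^ 2 * D ^ 2 = D * (4000 * ell n ^ 12) := by rw [← hμ2]; ring
    have h25 : 10000000 * ell n ^ 24 ≤ ell n ^ 26 := by
      have h1 := hn.mul_pow_le (a := 24) (b := 25) (c := 10) (by norm_num) (by norm_num)
      have h2 := hn.mul_pow_le (a := 25) (b := 26) (c := 1000000) (by norm_num) le_rfl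
      linarith
    have h24a := hn.pow_le (a := 12) (b := 24) (by norm_num)
    have h24b := hn.pow_le (a := 18) (b := 24) (by norm_num)
    have h24c := hn.pow_ge_one 24
    have k5 : D * (10000 * ((ell n ^ 12) ^ 2 + ell n ^ 12 + 1))
        ≤ D * (30000 * ell n ^ 24) := by
      refine mul_le_mul_of_nonneg_left ?_ hD0.le
      rw [← pow_mul, show 12 * 2 = 24 by norm_num]; linarith
    have k6 := mul_le_mul_of_nonneg_left h25 hD0.le
    have k7 := mul_le_mul_of_nonneg_left h24a hD0.le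
    have k8 := mul_le_mul_of_nonneg_left h24b hD0.le
    have k9 := mul_le_mul_of_nonneg_left h24c hD0.le
    have k10 : 0 ≤ D * ell n ^ 26 := by positivity
    linarith

/-- The family of corrected neighbour deviations satisfies its step bound. -/
theorem stepR : StepR := by
  intro n hn G D b g
  have f := g.fax hn
  set lam := 4 * ell n ^ 2 / ell n ^ 17 with hlam
  set K := 200 * ell n ^ 3 * Real.exp (-(ell n ^ 2)) with hKdef
  have hone : ∀ e ∈ G,
      ∑ T ∈ (triangles G).filter (fun T => e ∈ rmTri G T),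
        pot2 lam (thR n (stepD G D)) (xR (rmTri G T) (stepD G D) (stepb G D b T) e)
      ≤ triCount G * (pot2 lam (thR n D) (xR G D b e) + hStep G D * K) := by
    intro e he
    obtain ⟨Δ, hΔ, hup, hdown, hvar, hclock, hth⟩ := r_incr hn g he
    have hfil : (triangles G).filter (fun T => e ∈ rmTri G T)
        = (triangles G).filter (fun T => e ∉ T.powersetCard 2) := by
      refine filter_congr fun T _ => ?_
      unfold rmTri; rw [mem_sdiff]
      exact ⟨And.right, fun h => ⟨he, h⟩⟩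
    rw [hfil]
    set A := (triangles G).filter (fun T => e ∉ T.powersetCard 2) with hA
    have hcard : (A.card : ℝ) ≤ triCount G := by
      unfold triCount; exact_mod_cast card_filter_le _ _
    have h1 := r_side hn f A Δ hcard (fun T hT => (hΔ T hT).2) hup hvar (g.R_le e he) hclock hth
    have h2 := r_side hn f A (fun T => -Δ T) (X := -xR G D b e) hcard
      (fun T hT => by rw [abs_neg]; exact (hΔ T hT).2)
      (by rw [sum_neg_distrib]; linarith) (by simpa using hvar)
      (by rw [abs_neg]; exact g.R_le e he) hclock hth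
    rw [← hlam] at h1 h2
    unfold pot2
    rw [sum_add_distrib]
    refine (add_le_add (le_of_eq_of_le (sum_congr rfl fun T hT => ?_) h1)
      (le_of_eq_of_le (sum_congr rfl fun T hT => ?_) h2)).trans (le_of_eq ?_)
    · rw [(hΔ T hT).1]
    · rw [(hΔ T hT).1]; ring_nf
    · rw [hKdef]; ring
  unfold potR
  rw [sum_survivors (triangles G) (fun T => rmTri G T) G (fun T _ => rmTri_sub T)]
  refine (sum_le_sum hone).trans ?_
  rw [← mul_sum, sum_add_distrib, sum_const, nsmul_eq_mul]
  refine mul_le_mul_of_nonneg_left (add_le_add le_rfl ?_) f.Q_pos.le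
  have hm : (G.card : ℝ) ≤ (n : ℝ) ^ 2 := by
    have h1 : G.card ≤ n.choose 2 := by
      refine (card_le_card g.sub).trans (le_of_eq ?_)
      simp [completeEdges]
    exact_mod_cast h1.trans (Nat.choose_le_pow n 2)
  have hK : 200 * ell n ^ 3 ≤ (n : ℝ) ^ 2 := by
    have h1 := hn.ell_sq_le
    have h2 := hn.ell_le
    have h3 : 1000 * ell n ^ 2 * ell n ≤ (n : ℝ) * n :=
      mul_le_mul h1 h2 (by linarith [hn.ell_ge]) hn.n_pos.le
    have : 0 ≤ ell n ^ 3 := zero_le_one.trans (hn.pow_ge_one 3)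
    linarith
  have h3 : (G.card : ℝ) * K ≤ err n := by
    rw [hKdef]
    calc (G.card : ℝ) * (200 * ell n ^ 3 * Real.exp (-(ell n ^ 2)))
        ≤ (n : ℝ) ^ 2 * ((n : ℝ) ^ 2 * Real.exp (-(ell n ^ 2))) := by
          have := hn.pow_ge_one 3; gcongr
      _ = err n := by unfold err; ring
  have := mul_le_mul_of_nonneg_right h3 f.h_pos.le
  linarith

end

end Vale.Agent.P046.Full.Stage
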