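import Vale.Agent.P046.Full.Stage.Facts

/-!
# Self-correction of the edge degrees
-/

namespace Vale.Agent.P046.Full.Stage

open Finset

noncomputable section

/-- Rate of mean reversion. -/
lemma rate_bounds {h : ℝ} (h0 : 0 < h) (h1 : h ≤ 1 / 100) :
    99 / 100 ≤ (1 - Real.exp (-h)) / h ∧ (1 - Real.exp (-h)) / h ≤ 1 := by
  have e1 := Real.add_one_le_exp (-h)
  have e2 := (abs_le.1 (Real.abs_exp_sub_one_sub_id_le (x := -h)
    (by rw [abs_neg, abs_of_pos h0]; linarith))).2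
  constructor
  · rw [le_div_iff₀ h0]; nlinarith
  · rw [div_le_one h0]; linarith

/-- The exact mean displacement of an edge coordinate. -/
lemma edge_drift_identity {Q D u r gg cD Y : ℝ} (hQ : Q ≠ 0) (hc : cD ≠ 0) (hg : gg ≠ 0)
    (hY : Y = D * (1 + u)) (hgg : gg * gg = 1 + 2 * (D / Q)) (hcD : cD * cD = D) :
    (Q - Y) * (cD * (1 + u) * (gg - 1) + cD * (1 - gg⁻¹))
        - gg / cD * (Y * (2 * D - 2) + D * (D * r))
      = -(Q * (1 - gg⁻¹)) * (cD * u)
        + cD / gg * (-(D * r) + (2 * (1 + u) - Y * (gg - 1) * ((1 + u) * gg + 1)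
          - 2 * (D / Q) * (D * (2 * (1 + u) + r)) + 4 * (D / Q) * (1 + u))) := by
  subst hY
  have h2 : Q * (gg * gg) = Q + 2 * D := by rw [hgg]; field_simp
  field_simp
  rw [← hcD] at h2 ⊢
  ring_nf
  ring_nf at h2
  linear_combination (2 * cD ^ 2 * u + 2 * cD ^ 2 - 2 * cD ^ 4 * u - 2 * cD ^ 4 - cD ^ 4 * r
    + Q * cD ^ 2 * u + Q * cD ^ 2) * h2

/-- The lower order part of the drift. -/
lemma edge_rest_bound {D ds gg u r Y : ℝ} (hD : 0 < D) (hds : 0 ≤ ds) (hds1 : ds ≤ 1 / 100)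
    (hdsD : ds * D ≤ 1) (hg1 : 1 ≤ gg) (hgd : gg - 1 ≤ ds) (hu : |u| ≤ 1 / 100)
    (hY : Y = D * (1 + u)) (hr : |r| ≤ 1) :
    |-(D * r) + (2 * (1 + u) - Y * (gg - 1) * ((1 + u) * gg + 1)
      - 2 * ds * (D * (2 * (1 + u) + r)) + 4 * ds * (1 + u))| ≤ D * |r| + 30 := by
  obtain ⟨hu2, hu3⟩ := abs_le.1 hu
  have hY0 : 0 ≤ Y := by rw [hY]; exact mul_nonneg hD.le (by linarith)
  have hY2 : Y ≤ 2 * D := by
    have := mul_le_mul_of_nonneg_left (show 1 + u ≤ 2 by linarith) hD.le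
    linarith
  have hgg2 : (1 + u) * gg ≤ 2 * 2 := mul_le_mul (by linarith) (by linarith) (by linarith) (by norm_num)
  have hgg0 : 0 ≤ (1 + u) * gg := mul_nonneg (by linarith) (by linarith)
  have h1 : 0 ≤ Y * (gg - 1) * ((1 + u) * gg + 1) :=
    mul_nonneg (mul_nonneg hY0 (by linarith)) (by linarith)
  have h2 : Y * (gg - 1) * ((1 + u) * gg + 1) ≤ 10 := by
    calc Y * (gg - 1) * ((1 + u) * gg + 1) ≤ 2 * D * ds * 5 :=
          mul_le_mul (mul_le_mul hY2 hgd (by linarith) (by positivity)) (by linarith)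
            (by linarith) (by positivity)
      _ = 10 * (ds * D) := by ring
      _ ≤ 10 := by linarith
  obtain ⟨p, q⟩ := abs_le.1 hr
  have h3 : |2 * ds * (D * (2 * (1 + u) + r))| ≤ 12 := by
    have : |2 * (1 + u) + r| ≤ 6 := by
      rw [abs_le]; constructor <;> linarith
    rw [abs_mul, abs_mul D, abs_of_pos hD, abs_of_nonneg (by positivity : (0:ℝ) ≤ 2 * ds)]
    calc 2 * ds * (D * |2 * (1 + u) + r|) ≤ 2 * ds * (D * 6) := by gcongr
      _ = 12 * (ds * D) := by ring
      _ ≤ 12 := by linarith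
  have h4 : 0 ≤ 4 * ds * (1 + u) := mul_nonneg (by positivity) (by linarith)
  have h4' : 4 * ds * (1 + u) ≤ 4 * ds * 2 :=
    mul_le_mul_of_nonneg_left (by linarith) (by positivity)
  have h5 := abs_le.1 (le_refl (|D * r|))
  rw [abs_mul, abs_of_pos hD] at h5
  obtain ⟨p', q'⟩ := abs_le.1 h3
  rw [abs_le]
  constructor <;> linarith

/-- Size and second moment of the displacement. -/
lemma edge_sq {c ds D Q h gg Y r A : ℝ} {ι : Type*} (S : Finset ι) (l : ι → ℝ) (hc : 0 < c)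
    (hcD : c * c = D) (hQh : D ≤ 2 * (Q * h)) (hQ : Q * ds = D) (hds : 0 ≤ ds)
    (hdsD : ds * D ≤ 1) (hg1 : 1 ≤ gg) (hg2 : gg ≤ 2) (hA0 : 0 ≤ A) (hA1 : A ≤ 3 * (c * ds))
    (hl : ∀ i ∈ S, 0 ≤ l i ∧ l i ≤ 3) (hcard : (S.card : ℝ) = Q - Y) (hY0 : 0 ≤ Y)
    (hY2 : Y ≤ 2 * D) (hsum : ∑ i ∈ S, l i = Y * (2 * D - 2) + D * (D * r)) (hr : r ≤ 1) :
    ∑ i ∈ S, (A - gg / c * l i) ^ 2 ≤ Q * (h * 200) := by
  have hD : 0 < D := by rw [← hcD]; positivity
  have hgc : 0 ≤ gg / c := div_nonneg (by linarith) hc.le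
  calc ∑ i ∈ S, (A - gg / c * l i) ^ 2
      ≤ ∑ i ∈ S, ((3 * (c * ds)) ^ 2 + 6 / c * (gg / c) * l i) := by
        refine sum_le_sum fun i hi => ?_
        obtain ⟨l0, l3⟩ := hl i hi
        have j0 : 0 ≤ gg / c * l i := mul_nonneg hgc l0
        have j1 : gg / c * l i ≤ 6 / c := by
          calc gg / c * l i ≤ 2 / c * 3 := by gcongr
            _ = 6 / c := by ring
        have e1 : A ^ 2 ≤ (3 * (c * ds)) ^ 2 := pow_le_pow_left₀ hA0 hA1 2
        have e2 := mul_nonneg hA0 j0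
        have e3 := mul_le_mul_of_nonneg_right j1 j0
        rw [mul_assoc (6 / c)]
        linear_combination e1 + 2 * e2 + e3
    _ = (Q - Y) * (3 * (c * ds)) ^ 2 + 6 / c * (gg / c) * (Y * (2 * D - 2) + D * (D * r)) := by
        rw [sum_add_distrib, sum_const, nsmul_eq_mul, hcard, ← mul_sum, hsum]
    _ ≤ Q * (3 * (c * ds)) ^ 2 + 12 / D * (5 * D ^ 2) := by
        refine add_le_add (mul_le_mul_of_nonneg_right (by linarith) (by positivity)) ?_
        have e1 : 6 / c * (gg / c) = 6 * gg / D := by rw [← hcD]; field_simp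
        rw [e1]
        have h0 : 0 ≤ Y * (2 * D - 2) + D * (D * r) := by
          rw [← hsum]; exact sum_nonneg fun i hi => (hl i hi).1
        refine mul_le_mul (div_le_div_of_nonneg_right (by linarith) hD.le) ?_ h0 (by positivity)
        have h1 : Y * (2 * D) ≤ 2 * D * (2 * D) := mul_le_mul_of_nonneg_right hY2 (by positivity)
        have h2 : D * (D * r) ≤ D * (D * 1) := by gcongr
        linarith
    _ = 9 * D * (ds * D) + 60 * D := by
        rw [show Q * (3 * (c * ds)) ^ 2 = 9 * (Q * ds) * (ds * (c * c)) by ring, hQ, hcD,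
          show 12 / D * (5 * D ^ 2) = 60 * D by field_simp; ring]
    _ ≤ 69 * D := by
        have := mul_le_mul_of_nonneg_left hdsD (by positivity : (0:ℝ) ≤ 9 * D)
        linarith
    _ ≤ Q * (h * 200) := by linarith

variable {n : ℕ}

/-- One edge. -/
lemma edge_step {G : Finset (Finset (Fin n))} {D : ℝ} {b : Fin n → ℝ} (hn : Big n)
    (g : Good n G D b) {e : Finset (Fin n)} (he : e ∈ G) :
    ∑ T ∈ (triangles G).filter (fun T => e ∉ T.powersetCard 2),
        potC n 6 (xU (rmTri G T) (stepD G D) e)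
      ≤ triCount G * (potC n 6 (xU G D e)
        + hStep G D * (128 * ell n ^ 2 * Real.exp (-(ell n ^ 2)))) := by
  classical
  have f := g.fax hn
  have hD := f.D_pos
  have hQ := f.Q_pos
  have hh := f.h_pos
  have hL := hn.ell_ge
  have hlin := triHyper_lin G
  set S := (triangles G).filter (fun T => e ∉ T.powersetCard 2) with hS
  set E := triHyper G with hE
  set Q := triCount G with hQdef
  set h := hStep G D with hhdef
  set ds := D / Q with hds
  set c := √D with hc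
  set gg := Real.exp h with hgg'
  set u := dev E D e with hu
  set r := nbrDev E D e with hr
  set Y := (deg E e : ℝ) with hY
  have hc0 : 0 < c := Real.sqrt_pos.2 hD
  have hcD : c * c = D := Real.mul_self_sqrt hD.le
  have hc1 : 1 ≤ c := (hn.pow_ge_one _).trans f.sqrtD_ge
  have hD1 : 1 ≤ D := f.one_le_D hn
  have hg0 : 0 < gg := Real.exp_pos _
  have hg1 : 1 ≤ gg := Real.one_le_exp hh.le
  have hgg : gg * gg = 1 + 2 * ds := by
    rw [hgg', ← Real.exp_add, ← two_mul, f.exp_two_h, hds, mul_div_assoc]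
  have hds0 : 0 < ds := div_pos hD hQ
  have hds1 : ds ≤ 1 / 100 := f.ds_le
  have hdsD : ds * D ≤ 1 := by
    have := f.ds_le_inv
    rwa [le_div_iff₀ hD] at this
  have hgd : gg - 1 ≤ ds := by nlinarith
  have hg2 : gg ≤ 2 := by linarith
  have hu1 : |u| ≤ 1 / 100 := f.u_half e he
  obtain ⟨hu2, hu3⟩ := abs_le.1 hu1
  have hYe : Y = D * (1 + u) := by
    rw [hu, one_add_dev, mul_div_cancel₀ _ hD.ne']
  have hY0 : 0 ≤ Y := Nat.cast_nonneg _
  have hY2 : Y ≤ 2 * D := by rw [hYe]; nlinarith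
  have hcr : c * |r| ≤ 3 * ell n ^ 5 := g.nbrDev_abs hn he
  have hr1 : |r| ≤ 1 := by
    have h2 : 3 * ell n ^ 5 ≤ c :=
      (hn.mul_pow_le (by norm_num : 5 < 4000) (by norm_num)).trans f.sqrtD_ge
    nlinarith
  have hsD : devSum E D e = D * r := by
    rw [hr]; unfold devSum adjSum nbrDev; field_simp
  have hmem : ∀ T ∈ S, T ∈ triangles G ∧ e ∉ T.powersetCard 2 := fun T hT => mem_filter.1 hT
  have hcard : (S.card : ℝ) = Q - Y := by
    have h1 := sum_alive (G := G) e (fun _ => (1 : ℝ))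
    simp only [sum_const, nsmul_eq_mul, mul_one] at h1
    rw [hS, ← h1, card_alive, ← hE, hY, hQdef, triCount_eq]
  have hloss : ∑ T ∈ S, (loss E (T.powersetCard 2) e : ℝ)
      = Y * (2 * D - 2) + D * (D * r) := by
    rw [← hsD, hS, ← sum_alive e (fun R => (loss E R e : ℝ)), ← hlin.sum_loss_at hD.ne' e]
  set A := c * (1 + u) * (gg - 1) + c * (1 - gg⁻¹) with hA
  have hX : ∀ T ∈ S, xU (rmTri G T) (stepD G D) e
      = xU G D e + (A - gg / c * (loss E (T.powersetCard 2) e : ℝ)) := by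
    intro T hT
    have h1 : ((deg (nextE E (T.powersetCard 2)) e : ℕ) : ℝ) + loss E (T.powersetCard 2) e = Y := by
      rw [hY]; exact_mod_cast deg_next E (T.powersetCard 2) e
    have hs : √(stepD G D) = c * gg⁻¹ := by rw [f.sqrt_stepD, ← Real.exp_neg]
    have hd' : stepD G D = c * gg⁻¹ * (c * gg⁻¹) := by
      rw [← hs, Real.mul_self_sqrt f.stepD_pos.le]
    unfold xU
    rw [triHyper_rmTri, ← hE, ← hc, ← hu, hs]
    unfold dev
    rw [show ((deg (nextE E (T.powersetCard 2)) e : ℕ) : ℝ) = Y - loss E (T.powersetCard 2) e by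
      linarith, hd', hA, hYe, ← hcD]
    field_simp
    ring
  rw [sum_congr rfl fun T hT => by rw [hX T hT]]
  have hA0 : 0 ≤ A := by
    have : 0 ≤ 1 - gg⁻¹ := sub_nonneg.2 (inv_le_one_of_one_le₀ hg1)
    rw [hA]
    exact add_nonneg (mul_nonneg (mul_nonneg hc0.le (by linarith)) (by linarith))
      (mul_nonneg hc0.le this)
  have hA1 : A ≤ 3 * (c * ds) := by
    have h1 : 1 - gg⁻¹ ≤ ds := by
      have : 1 - gg⁻¹ ≤ gg - 1 := by
        have : 0 ≤ gg + gg⁻¹ - 2 := by
          rw [show gg + gg⁻¹ - 2 = (gg - 1) ^ 2 / gg by field_simp; ring]; positivity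
        linarith
      linarith
    rw [hA]
    have h2 : c * (1 + u) * (gg - 1) ≤ c * 2 * ds := by
      refine mul_le_mul ?_ hgd (by linarith) (by positivity)
      exact mul_le_mul_of_nonneg_left (by linarith) hc0.le
    have := mul_le_mul_of_nonneg_left h1 hc0.le
    linarith
  have hcds : c * ds ≤ 1 / c := by
    rw [le_div_iff₀ hc0]
    calc c * ds * c = ds * D := by rw [← hcD]; ring
      _ ≤ 1 := hdsD
  have hinvc : 1 / c ≤ 1 := by rw [div_le_one hc0]; exact hc1
  have hJ : ∀ T ∈ S, 0 ≤ gg / c * (loss E (T.powersetCard 2) e : ℝ) ∧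
      gg / c * (loss E (T.powersetCard 2) e : ℝ) ≤ 6 / c := by
    intro T hT
    refine ⟨by positivity, ?_⟩
    have : (loss E (T.powersetCard 2) e : ℝ) ≤ 3 := by
      exact_mod_cast hlin.loss_le_three (mem_image_of_mem _ (hmem T hT).1) (hmem T hT).2
    calc gg / c * (loss E (T.powersetCard 2) e : ℝ) ≤ 2 / c * 3 := by gcongr
      _ = 6 / c := by ring
  set κ := (1 - Real.exp (-h)) / h with hκ
  obtain ⟨hκ1, hκ2⟩ := rate_bounds hh f.h_small
  have hκh : κ * h = 1 - gg⁻¹ := by rw [hκ, div_mul_cancel₀ _ hh.ne', Real.exp_neg]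
  set B := -(D * r) + (2 * (1 + u) - Y * (gg - 1) * ((1 + u) * gg + 1)
    - 2 * ds * (D * (2 * (1 + u) + r)) + 4 * ds * (1 + u)) with hB
  have hmean : ∑ T ∈ S, (A - gg / c * (loss E (T.powersetCard 2) e : ℝ))
      = -κ * xU G D e * (Q * h) + c / gg * B := by
    rw [sum_sub_distrib, sum_const, nsmul_eq_mul, hcard, ← mul_sum, hloss, hA, hB,
      edge_drift_identity hQ.ne' hc0.ne' hg0.ne' hYe hgg hcD, ← hκh]
    unfold xU
    ring
  have hQh : D ≤ 2 * (Q * h) := by
    have := f.ds_le_two_h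
    rw [← hQdef, ← hhdef, div_le_iff₀ hQ] at this
    linarith
  have hBb : |B| ≤ D * |r| + 30 :=
    edge_rest_bound hD hds0.le hds1 hdsD hg1 hgd hu1 hYe hr1
  have hrest : |c / gg * B| ≤ Q * h * (6 * ell n ^ 5 + 60) := by
    rw [abs_mul, abs_of_pos (by positivity : (0:ℝ) < c / gg)]
    have h1 : c / gg ≤ c := div_le_self hc0.le hg1
    calc c / gg * |B| ≤ c * (D * |r| + 30) := mul_le_mul h1 hBb (abs_nonneg _) hc0.le
      _ = D * (c * |r|) + 30 * c := by ring
      _ ≤ D * (3 * ell n ^ 5) + 30 * D := by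
          gcongr
          calc c ≤ c * c := le_mul_of_one_le_right hc0.le hc1
            _ = D := hcD
      _ = D * (3 * ell n ^ 5 + 30) := by ring
      _ ≤ 2 * (Q * h) * (3 * ell n ^ 5 + 30) :=
          mul_le_mul_of_nonneg_right hQh (by have := hn.pow_ge_one 5; linarith)
      _ = _ := by ring
  refine potC_step hn f S _ (κ := κ) (F := 6 * ell n ^ 5 + 60) (s2 := 200) ?_ (by linarith)
    (by linarith) ?_ ?_ ?_ ?_ ?_ (g.u_le e he)
  · rw [hcard, ← hQdef]; linarith
  · intro T hT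
    obtain ⟨j0, j1⟩ := hJ T hT
    have : |A - gg / c * (loss E (T.powersetCard 2) e : ℝ)| ≤ 9 := by
      have : 6 / c ≤ 6 := div_le_self (by norm_num) hc1
      rw [abs_le]; constructor <;> linarith
    calc 2 * ell n ^ 2 * |A - gg / c * (loss E (T.powersetCard 2) e : ℝ)|
        ≤ 2 * ell n ^ 2 * 9 := by gcongr
      _ = 18 * ell n ^ 2 := by ring
      _ ≤ ell n ^ 6 := hn.mul_pow_le (by norm_num) (by norm_num)
  · rw [hmean, ← hQdef, ← hhdef]
    have := (abs_le.1 hrest).2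
    linarith
  · rw [hmean, ← hQdef, ← hhdef]
    have := (abs_le.1 hrest).1
    linarith
  · rw [← hQdef, ← hhdef]
    refine edge_sq S _ hc0 hcD hQh (by rw [hds]; field_simp) hds0.le hdsD hg1 hg2 hA0 hA1
      (fun T hT => ⟨Nat.cast_nonneg _, ?_⟩) hcard hY0 hY2 hloss ((le_abs_self r).trans hr1)
    exact_mod_cast hlin.loss_le_three (mem_image_of_mem _ (hmem T hT).1) (hmem T hT).2
  · have h1 : 2 * ell n ^ 2 / ell n ^ 6 * 200 ≤ 400 := by
      have : ell n ^ 2 / ell n ^ 6 ≤ 1 := by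
        rw [div_le_one (by positivity)]; exact hn.pow_le (by norm_num)
      rw [mul_div_assoc]; linarith
    have h2 := hn.mul_pow_le (by norm_num : 5 < 6) (c := 2000) (by norm_num)
    have h3 := mul_le_mul_of_nonneg_right hκ1
      (by positivity : (0:ℝ) ≤ ell n ^ 6 / 2)
    have h4 := hn.pow_ge_one 5
    rw [← hκ] at h3
    linarith

theorem stepU : StepU := by
  intro n hn G D b g
  classical
  show ∑ T ∈ triangles G, potU (rmTri G T) (stepD G D)
    ≤ triCount G * (potU G D + err n * hStep G D)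
  have f := g.fax hn
  unfold potU
  rw [sum_survivors (triangles G) (fun T => rmTri G T) G fun T _ => rmTri_sub T]
  refine (sum_le_sum fun e he => (le_of_eq_of_le ?_ (edge_step hn g he))).trans ?_
  · refine sum_congr (filter_congr fun T _ => ?_) fun _ _ => rfl
    simp [rmTri, he]
  · rw [← mul_sum, sum_add_distrib, sum_const, nsmul_eq_mul]
    refine mul_le_mul_of_nonneg_left (add_le_add le_rfl ?_) f.Q_pos.le
    rw [mul_left_comm, mul_comm (err n)]
    refine mul_le_mul_of_nonneg_left ?_ f.h_pos.le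
    refine err_ge hn ?_ (by nlinarith [hn.ell_ge]) (by positivity)
    have h1 : G.card ≤ n ^ 2 := by
      refine (card_le_card g.sub).trans ?_
      rw [completeEdges, card_powersetCard, card_univ, Fintype.card_fin]
      exact Nat.choose_le_pow n 2
    calc (G.card : ℝ) ≤ (n : ℝ) ^ 2 := by exact_mod_cast h1
      _ ≤ (n : ℝ) ^ 3 := pow_le_pow_right₀ (by linarith [hn.n_ge]) (by norm_num)

end

end Vale.Agent.P046.Full.Stage
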