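import Vale.Agent.P046.Bridge
import Vale.Agent.P046.Full.Stage.NbrDrift

/-!
The triangle hypergraph in the language of common neighbourhoods.
-/

namespace Vale.Agent.P046.Full

open Finset

noncomputable section

variable {n : ℕ}

/-- The common neighbourhood in `G` of a set of vertices. -/
def cn (G : Finset (Finset (Fin n))) (S : Finset (Fin n)) : Finset (Fin n) :=
  univ.filter fun z => ∀ v ∈ S, ({v, z} : Finset (Fin n)) ∈ G

variable {G : Finset (Finset (Fin n))}

lemma mem_cn {S : Finset (Fin n)} {z : Fin n} :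
    z ∈ cn G S ↔ ∀ v ∈ S, ({v, z} : Finset (Fin n)) ∈ G := by simp [cn]

lemma card_edge (hG : G ⊆ completeEdges n) {e : Finset (Fin n)} (he : e ∈ G) : e.card = 2 :=
  (mem_powersetCard.1 (hG he)).2

lemma ne_of_edge (hG : G ⊆ completeEdges n) {a b : Fin n} (h : ({a, b} : Finset (Fin n)) ∈ G) :
    a ≠ b := by
  rintro rfl
  simpa using card_edge hG h

lemma notMem_cn (hG : G ⊆ completeEdges n) {S : Finset (Fin n)} {z : Fin n}
    (hz : z ∈ cn G S) : z ∉ S := fun h => ne_of_edge hG (mem_cn.1 hz z h) rfl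

lemma pair_mem_powerset {U : Finset (Fin n)} {a b : Fin n} :
    ({a, b} : Finset (Fin n)) ∈ U.powersetCard 2 ↔ a ∈ U ∧ b ∈ U ∧ a ≠ b := by
  rw [mem_powersetCard, insert_subset_iff, singleton_subset_iff]
  constructor
  · rintro ⟨⟨ha, hb⟩, hc⟩
    refine ⟨ha, hb, ?_⟩
    rintro rfl
    simp at hc
  · rintro ⟨ha, hb, hab⟩
    exact ⟨⟨ha, hb⟩, card_pair hab⟩

lemma pair_mem_of_triangle {U : Finset (Fin n)} (hU : U ∈ triangles G) {a b : Fin n}
    (ha : a ∈ U) (hb : b ∈ U) (hab : a ≠ b) : ({a, b} : Finset (Fin n)) ∈ G :=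
  (mem_filter.1 hU).2 (pair_mem_powerset.2 ⟨ha, hb, hab⟩)

lemma cn_next {S U : Finset (Fin n)} (hG : G ⊆ completeEdges n) :
    cn (G \ U.powersetCard 2) S = (cn G S).filter fun z => ¬ (z ∈ U ∧ ∃ v ∈ S, v ∈ U) := by
  ext z
  simp only [mem_filter, mem_cn, mem_sdiff]
  constructor
  · intro h
    refine ⟨fun v hv => (h v hv).1, ?_⟩
    rintro ⟨hz, v, hv, hvU⟩
    exact (h v hv).2 (pair_mem_powerset.2 ⟨hvU, hz, ne_of_edge hG (h v hv).1⟩)
  · rintro ⟨h1, h2⟩ v hv
    refine ⟨h1 v hv, fun hc => h2 ?_⟩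
    obtain ⟨a, b, -⟩ := pair_mem_powerset.1 hc
    exact ⟨b, v, hv, a⟩

lemma edge_eq {e : Finset (Fin n)} (he : e ∈ G) (hG : G ⊆ completeEdges n) :
    ∃ x y : Fin n, x ≠ y ∧ e = {x, y} := card_eq_two.1 (card_edge hG he)

lemma insert_mem_triangles {e : Finset (Fin n)} (hG : G ⊆ completeEdges n) (he : e ∈ G)
    {z : Fin n} (hz : z ∈ cn G e) : insert z e ∈ triangles G := by
  have h3 : (insert z e).card = 3 := by
    rw [card_insert_of_notMem (notMem_cn hG hz), card_edge hG he]
  refine mem_filter.2 ⟨mem_powersetCard.2 ⟨subset_univ _, h3⟩, fun t ht => ?_⟩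
  obtain ⟨hts, ht2⟩ := mem_powersetCard.1 ht
  by_cases hzt : z ∈ t
  · obtain ⟨v, hv, hvz⟩ := exists_mem_ne (s := t) (by omega) z
    have : t = {v, z} := (eq_of_subset_of_card_le
      (by simp [insert_subset_iff, hv, hzt]) (by rw [ht2, card_pair hvz])).symm
    rw [this]
    exact mem_cn.1 hz v ((mem_insert.1 (hts hv)).resolve_left hvz)
  · have : t ⊆ e := fun v hv => (mem_insert.1 (hts hv)).resolve_left fun h => hzt (h ▸ hv)
    rw [eq_of_subset_of_card_le this (by rw [ht2, card_edge hG he])]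
    exact he

/-- The hyperedges through `e`, indexed by the common neighbours of its two ends. -/
lemma filter_at {e : Finset (Fin n)} (hG : G ⊆ completeEdges n) (he : e ∈ G) :
    (triHyper G).filter (fun R => e ∈ R)
      = (cn G e).image fun z => (insert z e).powersetCard 2 := by
  ext R
  simp only [mem_filter, mem_image, triHyper]
  constructor
  · rintro ⟨⟨U, hU, rfl⟩, heU⟩
    obtain ⟨hsub, he2⟩ := mem_powersetCard.1 heU
    obtain ⟨z, hz⟩ := card_eq_one.1 (show (U \ e).card = 1 by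
      rw [card_sdiff_of_subset hsub, card_triangle hU, he2])
    have hz' : z ∈ U \ e := by rw [hz]; simp
    obtain ⟨hzU, hze⟩ := mem_sdiff.1 hz'
    refine ⟨z, mem_cn.2 fun v hv => pair_mem_of_triangle hU (hsub hv) hzU
      fun hh => hze (hh ▸ hv), ?_⟩
    rw [insert_eq, ← hz, sdiff_union_of_subset hsub]
  · rintro ⟨z, hz, rfl⟩
    exact ⟨⟨_, insert_mem_triangles hG he hz, rfl⟩,
      mem_powersetCard.2 ⟨subset_insert _ _, card_edge hG he⟩⟩

lemma injOn_at {e : Finset (Fin n)} (hG : G ⊆ completeEdges n) (he : e ∈ G) :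
    Set.InjOn (fun z => (insert z e).powersetCard 2) (cn G e : Set (Fin n)) := by
  intro z hz w hw h
  have hz' := notMem_cn hG hz
  have := powersetTwo_injOn (card_triangle (insert_mem_triangles hG he hz))
    (card_triangle (insert_mem_triangles hG he hw)) h
  have hzw : z ∈ insert w e := this ▸ mem_insert_self z e
  exact (mem_insert.1 hzw).resolve_right hz'

lemma sum_at {β : Type*} [AddCommMonoid β] {e : Finset (Fin n)} (hG : G ⊆ completeEdges n)
    (he : e ∈ G) (F : Finset (Finset (Fin n)) → β) :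
    ∑ R ∈ (triHyper G).filter (fun R => e ∈ R), F R
      = ∑ z ∈ cn G e, F ((insert z e).powersetCard 2) := by
  rw [filter_at hG he, sum_image (injOn_at hG he)]

lemma deg_eq_card_cn {e : Finset (Fin n)} (hG : G ⊆ completeEdges n) (he : e ∈ G) :
    deg (triHyper G) e = (cn G e).card := by
  unfold deg
  rw [filter_at hG he, card_image_of_injOn (injOn_at hG he)]

lemma erase_at {e : Finset (Fin n)} (he : e.card = 2) {z : Fin n} (hz : z ∉ e) :
    ((insert z e).powersetCard 2).erase e = e.image fun v => ({v, z} : Finset (Fin n)) := by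
  ext t
  simp only [mem_erase, mem_image, mem_powersetCard]
  constructor
  · rintro ⟨hte, hts, ht2⟩
    have hzt : z ∈ t := by
      by_contra hzt
      exact hte (eq_of_subset_of_card_le
        (fun v hv => (mem_insert.1 (hts hv)).resolve_left fun h => hzt (h ▸ hv)) (by omega))
    obtain ⟨v, hv, hvz⟩ := exists_mem_ne (s := t) (by omega) z
    exact ⟨v, (mem_insert.1 (hts hv)).resolve_left hvz, eq_of_subset_of_card_le
      (by simp [insert_subset_iff, hv, hzt]) (by rw [ht2, card_pair hvz])⟩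
  · rintro ⟨v, hv, rfl⟩
    have hvz : v ≠ z := fun h => hz (h ▸ hv)
    refine ⟨fun h => hz (h ▸ by simp), ?_, card_pair hvz⟩
    simp [insert_subset_iff, hv]

lemma sum_erase_at {β : Type*} [AddCommMonoid β] {e : Finset (Fin n)} (he : e.card = 2)
    {z : Fin n} (hz : z ∉ e) (F : Finset (Fin n) → β) :
    ∑ f ∈ ((insert z e).powersetCard 2).erase e, F f = ∑ v ∈ e, F {v, z} := by
  rw [erase_at he hz, sum_image]
  intro a ha b _ h
  have : a ∈ ({b, z} : Finset (Fin n)) := by
    rw [← show ({a, z} : Finset (Fin n)) = {b, z} from h]; simp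
  rcases mem_insert.1 this with h1 | h1
  · exact h1
  · exact absurd ((mem_singleton.1 h1) ▸ ha) hz

lemma adjSum_eq {e : Finset (Fin n)} (hG : G ⊆ completeEdges n) (he : e ∈ G)
    (F : Finset (Fin n) → ℝ) :
    adjSum (triHyper G) F e = ∑ z ∈ cn G e, ∑ v ∈ e, F {v, z} := by
  unfold adjSum
  rw [sum_at hG he]
  exact sum_congr rfl fun z hz => sum_erase_at (card_edge hG he) (notMem_cn hG hz) F

/-- The adjacency operator applied to a function coming from the vertices. -/
lemma adjSum_vertex {e : Finset (Fin n)} (hG : G ⊆ completeEdges n) (he : e ∈ G)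
    (b : Fin n → ℝ) :
    adjSum (triHyper G) (fun f => ∑ v ∈ f, b v) e
      = deg (triHyper G) e * (∑ v ∈ e, b v) + 2 * ∑ z ∈ cn G e, b z := by
  rw [adjSum_eq hG he, deg_eq_card_cn hG he]
  have : ∀ z ∈ cn G e, ∑ v ∈ e, ∑ w ∈ ({v, z} : Finset (Fin n)), b w
      = (∑ v ∈ e, b v) + 2 * b z := by
    intro z hz
    rw [sum_congr rfl (g := fun v => b v + b z) fun v hv =>
      sum_pair (fun h : v = z => notMem_cn hG hz (h ▸ hv)), sum_add_distrib, sum_const,
      card_edge hG he, nsmul_eq_mul]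
    norm_num
  rw [sum_congr rfl this, sum_add_distrib, sum_const, nsmul_eq_mul, ← mul_sum]

/-- A triangle destroys the hyperedge at `e` through `z` iff it contains `z` and an end of `e`. -/
lemma not_disjoint_at {e U : Finset (Fin n)} (he : e.card = 2) {z : Fin n} (hz : z ∉ e)
    (heU : e ∉ U.powersetCard 2) :
    ¬ Disjoint (U.powersetCard 2) ((insert z e).powersetCard 2)
      ↔ z ∈ U ∧ ∃ v ∈ e, v ∈ U := by
  rw [not_disjoint_iff]
  constructor
  · rintro ⟨t, ht, ht'⟩
    have hte : t ≠ e := fun h => heU (h ▸ ht)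
    have h' : t ∈ ((insert z e).powersetCard 2).erase e := mem_erase.2 ⟨hte, ht'⟩
    rw [erase_at he hz, mem_image] at h'
    obtain ⟨v, hv, rfl⟩ := h'
    obtain ⟨a, b, -⟩ := pair_mem_powerset.1 ht
    exact ⟨b, v, hv, a⟩
  · rintro ⟨hzU, v, hv, hvU⟩
    have hvz : v ≠ z := fun h => hz (h ▸ hv)
    exact ⟨{v, z}, pair_mem_powerset.2 ⟨hvU, hzU, hvz⟩,
      pair_mem_powerset.2 ⟨mem_insert_of_mem hv, mem_insert_self z e, hvz⟩⟩

lemma loss_eq {e U : Finset (Fin n)} (hG : G ⊆ completeEdges n) (he : e ∈ G)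
    (heU : e ∉ U.powersetCard 2) :
    loss (triHyper G) (U.powersetCard 2) e
      = ((cn G e).filter fun z => z ∈ U ∧ ∃ v ∈ e, v ∈ U).card := by
  unfold loss
  rw [← filter_filter, filter_at hG he, filter_image,
    card_image_of_injOn ((injOn_at hG he).mono (by intro z hz; exact (mem_filter.1 hz).1))]
  congr 1
  exact filter_congr fun z hz =>
    not_disjoint_at (card_edge hG he) (notMem_cn hG hz) heU

lemma sum_triHyper {β : Type*} [AddCommMonoid β] (F : Finset (Finset (Fin n)) → β) :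
    ∑ R ∈ triHyper G, F R = ∑ U ∈ triangles G, F (U.powersetCard 2) := by
  rw [triHyper, sum_image fun _ hT _ hR h =>
    powersetTwo_injOn (card_triangle hT) (card_triangle hR) h]

lemma sum_alive {β : Type*} [AddCommMonoid β] (e : Finset (Fin n))
    (F : Finset (Finset (Fin n)) → β) :
    ∑ R ∈ (triHyper G).filter (fun R => e ∉ R), F R
      = ∑ U ∈ (triangles G).filter (fun U => e ∉ U.powersetCard 2), F (U.powersetCard 2) := by
  rw [sum_filter, sum_triHyper, ← sum_filter]

lemma card_two_mem_le (hG : G ⊆ completeEdges n) {a b : Fin n}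
    (h : ({a, b} : Finset (Fin n)) ∈ G) :
    ((triangles G).filter fun U => a ∈ U ∧ b ∈ U).card = (cn G {a, b}).card := by
  rw [← deg_eq_card_cn hG h, deg, triHyper, filter_image,
    card_image_of_injOn fun _ hT _ hR h' =>
      powersetTwo_injOn (card_triangle (mem_filter.1 hT).1) (card_triangle (mem_filter.1 hR).1) h']
  congr 1
  refine filter_congr fun U _ => ?_
  rw [pair_mem_powerset]
  exact ⟨fun hh => ⟨hh.1, hh.2, ne_of_edge hG h⟩, fun hh => ⟨hh.1, hh.2.1⟩⟩

/-- Double counting of the other vertices of the triangles at `x`. -/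
lemma sum_star (hG : G ⊆ completeEdges n) (x : Fin n) (F : Fin n → ℝ) :
    ∑ U ∈ (triangles G).filter (fun U => x ∈ U), ∑ w ∈ U.erase x, F w
      = ∑ w ∈ cn G {x}, ((cn G {x, w}).card : ℝ) * F w := by
  calc ∑ U ∈ (triangles G).filter (fun U => x ∈ U), ∑ w ∈ U.erase x, F w
      = ∑ U ∈ (triangles G).filter (fun U => x ∈ U), ∑ w ∈ cn G {x},
          if w ∈ U then F w else 0 := by
        refine sum_congr rfl fun U hU => ?_
        obtain ⟨hU, hxU⟩ := mem_filter.1 hU
        rw [← sum_filter]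
        refine sum_congr ?_ fun _ _ => rfl
        ext w
        simp only [mem_erase, mem_filter, mem_cn, mem_singleton, forall_eq]
        exact ⟨fun hw => ⟨pair_mem_of_triangle hU hxU hw.2 (Ne.symm hw.1), hw.2⟩,
          fun hw => ⟨(ne_of_edge hG hw.1).symm, hw.2⟩⟩
    _ = _ := by
        rw [sum_comm]
        refine sum_congr rfl fun w hw => ?_
        rw [← sum_filter, filter_filter, sum_const, nsmul_eq_mul,
          card_two_mem_le hG (by simpa [mem_cn] using hw)]

/-- Rate at which the common neighbourhood of `S` shrinks. -/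
lemma sum_leave (hG : G ⊆ completeEdges n) (S : Finset (Fin n)) :
    ∑ U ∈ triangles G, ((((cn G S).filter fun z => z ∈ U ∧ ∃ v ∈ S, v ∈ U).card : ℕ) : ℝ)
        ≤ ∑ z ∈ cn G S, ∑ v ∈ S, ((cn G {v, z}).card : ℝ) ∧
    (∑ z ∈ cn G S, ∑ v ∈ S, ((cn G {v, z}).card : ℝ))
        - ((S.card + 1).choose 3) * ((cn G S).card : ℝ)
      ≤ ∑ U ∈ triangles G, ((((cn G S).filter fun z => z ∈ U ∧ ∃ v ∈ S, v ∈ U).card : ℕ) : ℝ) := by
  have h1 : ∑ U ∈ triangles G, ((((cn G S).filter fun z => z ∈ U ∧ ∃ v ∈ S, v ∈ U).card : ℕ) : ℝ)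
      = ∑ z ∈ cn G S, ((((triangles G).filter fun U => z ∈ U ∧ ∃ v ∈ S, v ∈ U).card : ℕ) : ℝ) := by
    simp only [← sum_boole]
    rw [sum_comm]
  have key : ∀ z ∈ cn G S,
      ((triangles G).filter fun U => z ∈ U ∧ ∃ v ∈ S, v ∈ U).card
          ≤ ∑ v ∈ S, (cn G {v, z}).card ∧
      ∑ v ∈ S, (cn G {v, z}).card
          ≤ ((triangles G).filter fun U => z ∈ U ∧ ∃ v ∈ S, v ∈ U).card
            + (S.card + 1).choose 3 := by
    intro z hz
    have hzS := notMem_cn hG hz
    have e1 : ∑ v ∈ S, (cn G {v, z}).card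
        = ∑ U ∈ (triangles G).filter (fun U => z ∈ U), (S.filter fun v => v ∈ U).card := by
      rw [sum_congr rfl fun v hv => (card_two_mem_le hG (mem_cn.1 hz v hv)).symm]
      simp only [card_filter]
      rw [sum_comm, sum_filter]
      refine sum_congr rfl fun U _ => ?_
      by_cases hzU : z ∈ U
      · simp [hzU]
      · simp [hzU]
    have e2 : ((triangles G).filter fun U => z ∈ U ∧ ∃ v ∈ S, v ∈ U).card
        = ∑ U ∈ (triangles G).filter (fun U => z ∈ U), if ∃ v ∈ S, v ∈ U then 1 else 0 := by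
      rw [← filter_filter, card_filter]
    rw [e1, e2]
    constructor
    · refine sum_le_sum fun U _ => ?_
      split_ifs with h
      · obtain ⟨v, hv, hvU⟩ := h
        exact card_pos.2 ⟨v, mem_filter.2 ⟨hv, hvU⟩⟩
      · exact Nat.zero_le _
    · have e3 : (((triangles G).filter fun U => z ∈ U).filter fun U => U ⊆ insert z S).card
          ≤ (S.card + 1).choose 3 := by
        rw [← card_insert_of_notMem hzS, ← card_powersetCard]
        refine card_le_card fun U hU => ?_
        obtain ⟨hU1, hU2⟩ := mem_filter.1 hU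
        exact mem_powersetCard.2 ⟨hU2, card_triangle (mem_filter.1 hU1).1⟩
      refine le_trans ?_ (Nat.add_le_add_left e3 _)
      rw [card_filter, ← sum_add_distrib]
      refine sum_le_sum fun U hU => ?_
      obtain ⟨hU, hzU⟩ := mem_filter.1 hU
      set A := S.filter fun v => v ∈ U with hA
      have hsub : A ⊆ U.erase z := fun v hv =>
        mem_erase.2 ⟨fun h => hzS (h ▸ (mem_filter.1 hv).1), (mem_filter.1 hv).2⟩
      have hle : A.card ≤ 2 := by
        have := card_le_card hsub
        rw [card_erase_of_mem hzU, card_triangle hU] at this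
        omega
      by_cases h2 : A.card = 2
      · have hEq : A = U.erase z := eq_of_subset_of_card_le hsub (by
          rw [card_erase_of_mem hzU, card_triangle hU]; omega)
        have hUS : U ⊆ insert z S := fun v hv => by
          by_cases hvz : v = z
          · simp [hvz]
          · exact mem_insert_of_mem (mem_filter.1 (hEq ▸ mem_erase.2 ⟨hvz, hv⟩ : v ∈ A)).1
        obtain ⟨v, hv⟩ := card_pos.1 (by omega : 0 < A.card)
        rw [if_pos ⟨v, (mem_filter.1 hv).1, (mem_filter.1 hv).2⟩, if_pos hUS]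
        omega
      · rcases A.eq_empty_or_nonempty with h0 | ⟨v, hv⟩
        · simp [h0]
        · rw [if_pos ⟨v, (mem_filter.1 hv).1, (mem_filter.1 hv).2⟩]
          omega
  rw [h1]
  constructor
  · refine sum_le_sum fun z hz => ?_
    exact_mod_cast (key z hz).1
  · rw [sub_le_iff_le_add, show (((S.card + 1).choose 3 : ℕ) : ℝ) * ((cn G S).card : ℝ)
      = ∑ _z ∈ cn G S, (((S.card + 1).choose 3 : ℕ) : ℝ) by
        rw [sum_const, nsmul_eq_mul, mul_comm], ← sum_add_distrib]
    refine sum_le_sum fun z hz => ?_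
    exact_mod_cast (key z hz).2

end

end Vale.Agent.P046.Full
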