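import Vale.Agent.P046.Full.Stage.Config
import Vale.Agent.P046.Full.Stage.StepU

/-!
# The backwards induction of the self-correcting stage
-/

namespace Vale.Agent.P046.Full.Stage

open Finset

noncomputable section

variable {n : ℕ}

/-- All six potentials, and the remaining allowance for their growth. -/
def totPot (G : Finset (Finset (Fin n))) (D : ℝ) (b : Fin n → ℝ) : ℝ :=
  potZ G D + potb D b + potU G D + potB G b + potN G D + potR G D b
    + 6 * err n * (ell n - clock n D)

lemma potC_nonneg (n p : ℕ) (X : ℝ) : 0 ≤ potC n p X := pot2_nonneg _ _ _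

lemma clock_le (hn : Big n) {D : ℝ} (hD1 : 1 ≤ D) (hD2 : D ≤ (n : ℝ) - 2) :
    clock n D ≤ ell n := by
  have : Real.log (((n : ℝ) - 2) / D) ≤ ell n := by
    refine Real.log_le_log (div_pos (by linarith) (by linarith)) ?_
    rw [div_le_iff₀ (by linarith)]
    nlinarith [hn.n_pos]
  unfold clock
  linarith [hn.ell_ge]

lemma err_nonneg (n : ℕ) : 0 ≤ err n := by unfold err; positivity

/-- Outside the good states the potential is at least one. -/
lemma one_le_totPot (hn : Big n) {G : Finset (Finset (Fin n))} {D : ℝ} {b : Fin n → ℝ}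
    (hG : G ⊆ completeEdges n) (hD1 : ell n ^ 9000 / 3 ≤ D) (hD2 : D ≤ (n : ℝ) - 2)
    (hbad : ¬ Good n G D b) : 1 ≤ totPot G D b := by
  classical
  have h1 : 1 ≤ D := by
    have := hn.mul_pow_le (a := 0) (b := 9000) (by norm_num) (c := 3) (by norm_num)
    rw [pow_zero, mul_one] at this
    linarith
  have hs : 0 ≤ 6 * err n * (ell n - clock n D) :=
    mul_nonneg (mul_nonneg (by norm_num) (err_nonneg n)) (sub_nonneg.2 (clock_le hn h1 hD2))
  have nz : 0 ≤ potZ G D := sum_nonneg fun _ _ => potC_nonneg _ _ _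
  have nb : 0 ≤ potb D b := sum_nonneg fun _ _ => potC_nonneg _ _ _
  have nu : 0 ≤ potU G D := sum_nonneg fun _ _ => potC_nonneg _ _ _
  have nB : 0 ≤ potB G b := sum_nonneg fun _ _ => potC_nonneg _ _ _
  have nN : 0 ≤ potN G D := sum_nonneg fun _ _ => potC_nonneg _ _ _
  have nR : 0 ≤ potR G D b := sum_nonneg fun _ _ => pot2_nonneg _ _ _
  have one : ∀ (p : ℕ) (X : ℝ), ¬ |X| ≤ ell n ^ p → 1 ≤ potC n p X := fun p X hX =>
    one_le_pot2 (div_nonneg (by positivity) (zero_le_one.trans (hn.pow_ge_one p)))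
      (not_le.1 hX).le
  unfold totPot
  by_contra hlt
  refine hbad ⟨hG, hD1, hD2, fun x => ?_, fun x => ?_, fun e he => ?_, fun e he => ?_,
    fun t ht => ?_, fun e he => ?_⟩ <;> by_contra hX
  · have : 1 ≤ potZ G D := (one 8 _ hX).trans
      (single_le_sum (f := fun x => potC n 8 (xZ G D x)) (fun _ _ => potC_nonneg _ _ _) (mem_univ x))
    linarith
  · have : 1 ≤ potb D b := (one 5 _ hX).trans
      (single_le_sum (f := fun x => potC n 5 (xb D b x)) (fun _ _ => potC_nonneg _ _ _) (mem_univ x))
    linarith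
  · have : 1 ≤ potU G D := (one 6 _ hX).trans
      (single_le_sum (f := fun e => potC n 6 (xU G D e)) (fun _ _ => potC_nonneg _ _ _) he)
    linarith
  · have : 1 ≤ potB G b := (one 13 _ hX).trans
      (single_le_sum (f := fun e => potC n 13 (xB G b e)) (fun _ _ => potC_nonneg _ _ _) he)
    linarith
  · have : 1 ≤ potN G D := (one 12 _ hX).trans
      (single_le_sum (f := fun t => potC n 12 (xN G D t)) (fun _ _ => potC_nonneg _ _ _) ht)
    linarith
  · have : 1 ≤ potR G D b := (one_le_pot2 (div_nonneg (by positivity)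
        (zero_le_one.trans (hn.pow_ge_one 17))) (not_le.1 hX).le).trans
      (single_le_sum (f := fun e => pot2 (4 * ell n ^ 2 / ell n ^ 17) (thR n D) (xR G D b e))
        (fun _ _ => pot2_nonneg _ _ _) he)
    linarith

/-- A function bounded by `C` up to the size of the graph keeps that bound in expectation. -/
lemma leaveExp_le_of_le {φ : ℕ → ℝ} {C : ℝ} : ∀ G : Finset (Finset (Fin n)),
    (∀ x ≤ G.card, φ x ≤ C) → leaveExp φ G ≤ C := by
  intro G
  induction G using Finset.strongInduction with
  | _ G ih =>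
    intro hφ
    rw [leaveExp]
    split_ifs with h0
    · exact hφ _ le_rfl
    · have hq : (0 : ℝ) < (triangles G).card := by
        exact_mod_cast card_pos.2 (nonempty_iff_ne_empty.2 h0)
      rw [div_le_iff₀ hq, sum_attach (triangles G) (fun T => leaveExp φ (G \ T.powersetCard 2)),
        mul_comm, ← nsmul_eq_mul, ← sum_const]
      refine sum_le_sum fun T hT => ?_
      have hss : G \ T.powersetCard 2 ⊂ G := by
        refine sdiff_ssubset (mem_filter.1 hT).2 ?_
        rw [powersetCard_nonempty, card_triangle hT]; norm_num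
      exact ih _ hss fun x hx => hφ x (hx.trans (card_le_card sdiff_subset))

/-- The weighted number of configurations. -/
def cfg (n k : ℕ) (G : Finset (Finset (Fin n))) (D : ℝ) : ℝ :=
  conf (2 * k + 3) ((1 - 1 / ell n) / 2) (ell n ^ 9000) G D

/-- What is needed of `n`. -/
structure Ready (n k : ℕ) (ε : ℝ) : Prop where
  big : Big n
  cfg_small : 2 * (k : ℝ) + 3 ≤ ell n
  eps : 4 ≤ ε * ell n
  poly : ell n ^ 40000 ≤ n

/-- A good state at the end of the stage is a hand-over state. -/
lemma reached_of_good {ε : ℝ} {k : ℕ} (hr : Ready n k ε) {G : Finset (Finset (Fin n))} {D : ℝ}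
    {b : Fin n → ℝ} (g : Good n G D b) (hend : D ≤ ell n ^ 9000) : Reached ε n G := by
  have hn := hr.big
  have f := g.fax hn
  have hD := f.D_pos
  have hs : 0 < √D := Real.sqrt_pos.2 hD
  have hL := hn.ell_ge
  have hL20 : (1 : ℝ) ≤ ell n ^ 20 := hn.pow_ge_one 20
  refine ⟨D, g.D_lo, hend, ⟨triHyper_lin G, hL20, ?_, fun e he => ?_, fun e he => ?_⟩, ?_⟩
  · show (ell n ^ 20) ^ 400 ≤ D
    rw [← pow_mul]
    have h3 : 3 * ell n ^ 8000 ≤ ell n ^ 9000 := hn.mul_pow_le (by norm_num) (by norm_num)
    have := g.D_lo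
    norm_num
    linarith
  · exact (f.u_abs e he).trans (div_le_div_of_nonneg_right (hn.pow_le (by norm_num)) hs.le)
  · show |nbrDev (triHyper G) D e| ≤ ell n ^ 20 / D
    obtain ⟨x, y, hxy, rfl⟩ := card_eq_two.1 (card_edge g.sub he)
    set r := nbrDev (triHyper G) D {x, y}
    have h1 : |r - (b x + b y)| * D ≤ ell n ^ 19 := by
      have := (g.R_le _ he).trans (g.thR_le hn)
      rw [xR, sum_pair hxy, abs_mul, abs_of_pos hD] at this
      linarith
    have hb : ∀ z, |b z| * D ≤ 1 := by
      intro z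
      refine (mul_le_mul_of_nonneg_right (g.b_abs hn z) hD.le).trans ?_
      have hq : ell n ^ 10000 ≤ √(√((n : ℝ) * D)) := by
        refine Real.le_sqrt_of_sq_le (Real.le_sqrt_of_sq_le ?_)
        rw [← pow_mul, ← pow_mul]
        norm_num
        calc ell n ^ 40000 ≤ n := hr.poly
          _ ≤ n * D := le_mul_of_one_le_right hn.n_pos.le (f.one_le_D hn)
      have hq0 : 0 < √(√((n : ℝ) * D)) :=
        Real.sqrt_pos.2 (Real.sqrt_pos.2 (mul_pos hn.n_pos hD))
      rw [div_mul_eq_mul_div, div_le_one hq0]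
      calc ell n ^ 5 * D ≤ ell n ^ 5 * ell n ^ 9000 := by gcongr
        _ = ell n ^ 9005 := by rw [← pow_add]
        _ ≤ ell n ^ 10000 := hn.pow_le (by norm_num)
        _ ≤ _ := hq
    have h3 : |r| ≤ |r - (b x + b y)| + (|b x| + |b y|) := by
      have := abs_sub_abs_le_abs_sub r (b x + b y)
      have := abs_add_le (b x) (b y)
      linarith
    rw [le_div_iff₀ hD]
    have h4 := mul_le_mul_of_nonneg_right h3 hD.le
    have h5 := hn.mul_pow_le (a := 19) (b := 20) (by norm_num) (c := 3) (by norm_num)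
    have h6 := hn.pow_ge_one 19
    linarith [hb x, hb y]
  · set S : ℝ := (n : ℝ) * √(n : ℝ) / 2 with hS
    have hN := hn.n_ge
    have hsn : 0 < √(n : ℝ) := Real.sqrt_pos.2 hn.n_pos
    have hS0 : 0 ≤ S := by positivity
    have e1 : ((completeEdges n).card : ℝ) / √(n : ℝ) = S * (1 - 1 / n) := by
      rw [completeEdges, card_powersetCard, card_univ, Fintype.card_fin, Nat.cast_choose_two, hS]
      field_simp
      rw [Real.sq_sqrt hn.n_pos.le]
      ring
    have hδ : ell n ^ 8 / √D ≤ 1 / ell n := by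
      rw [div_le_div_iff₀ hs (by linarith), one_mul, ← pow_succ]
      exact (hn.pow_le (by norm_num)).trans f.sqrtD_ge
    have h1 : |(G.card : ℝ) / √D - S| ≤ 1 / ell n * S := by
      have hm := f.m_close
      rw [Real.sqrt_mul hn.n_pos.le] at hm
      have e : (G.card : ℝ) / √D - S = (2 * (G.card : ℝ) - n * (√(n : ℝ) * √D)) / (2 * √D) := by
        rw [hS]; field_simp
      rw [e, abs_div, abs_of_pos (by positivity : (0:ℝ) < 2 * √D), div_le_iff₀ (by positivity)]
      calc |2 * (G.card : ℝ) - n * (√(n : ℝ) * √D)|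
          ≤ ell n ^ 8 / √D * (n * (√(n : ℝ) * √D)) := hm
        _ ≤ 1 / ell n * (n * (√(n : ℝ) * √D)) := by gcongr
        _ = _ := by rw [hS]; ring
    have h2 : 1 / (n : ℝ) ≤ 1 / ell n := div_le_div_of_nonneg_left zero_le_one (by linarith) hn.ell_le
    have h3 : |(G.card : ℝ) / √D - ((completeEdges n).card : ℝ) / √(n : ℝ)| ≤ 2 / ell n * S := by
      rw [e1]
      have hb2 := mul_le_mul_of_nonneg_right h2 hS0
      have : 0 ≤ 1 / (n : ℝ) * S := by positivity
      obtain ⟨p, q⟩ := abs_le.1 h1
      rw [abs_le, show 2 / ell n * S = 1 / ell n * S + 1 / ell n * S by ring]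
      constructor <;> linarith
    refine h3.trans ?_
    rw [e1, ← mul_assoc, mul_comm (2 / ell n) S, mul_comm ε S, mul_assoc]
    refine mul_le_mul_of_nonneg_left ?_ hS0
    have he : 4 / ell n ≤ ε := by rw [div_le_iff₀ (by linarith)]; exact hr.eps
    have hh : (1 : ℝ) / 2 ≤ 1 - 1 / (n : ℝ) := by
      have : 1 / (n : ℝ) ≤ 1 / 2 := div_le_div_of_nonneg_left zero_le_one two_pos (by linarith)
      linarith
    have h0 : 0 ≤ ε := le_trans (div_nonneg (by norm_num) (by linarith)) he
    have := mul_le_mul_of_nonneg_left hh h0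
    have : 2 / ell n = 4 / ell n / 2 := by ring
    linarith

/-- One step of the configurations in a good state. -/
lemma cfg_step {ε : ℝ} {k : ℕ} (hr : Ready n k ε) {G : Finset (Finset (Fin n))} {D : ℝ}
    {b : Fin n → ℝ} (g : Good n G D b) :
    ∑ T ∈ triangles G, cfg n k (rmTri G T) (stepD G D) ≤ triCount G * cfg n k G D := by
  have hn := hr.big
  have f := g.fax hn
  have hD := f.D_pos
  have hL := hn.ell_ge
  have hs : 0 < √D := Real.sqrt_pos.2 hD
  unfold cfg rmTri
  rw [← nextD_eq, triCount_eq,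
    ← sum_triHyper (G := G) (fun R => conf (2 * k + 3) ((1 - 1 / ell n) / 2) (ell n ^ 9000) (G \ R)
      (nextD (triHyper G) D))]
  have hD2 : 4 * ell n ^ 2 ≤ D := by
    have : 12 * ell n ^ 2 ≤ ell n ^ 9000 := hn.mul_pow_le (by norm_num) (by norm_num)
    linarith [g.D_lo]
  refine conf_step hD (by positivity) ?_ ?_ (lo := D * (1 - ell n ^ 6 / √D)) (fun e he => ?_) ?_
  · have : 1 / ell n ≤ 1 := by rw [div_le_one (by linarith)]; linarith
    linarith
  · have := f.Q_pos
    rw [triCount_eq] at this
    exact_mod_cast this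
  · have h1 := (abs_le.1 (f.u_abs e he)).1
    have h2 := one_add_dev (triHyper G) D e
    rw [eq_div_iff hD.ne'] at h2
    rw [← h2, mul_comm]
    exact mul_le_mul_of_nonneg_right (by linarith) hD.le
  · have h1 : D * (ell n ^ 6 / √D) ≤ D / ell n / 2 := by
      rw [div_div, mul_div_assoc', div_le_div_iff₀ hs (by linarith)]
      calc D * ell n ^ 6 * (ell n * 2) = D * (2 * ell n ^ 7) := by ring
        _ ≤ D * √D := mul_le_mul_of_nonneg_left
            ((hn.mul_pow_le (by norm_num) (by norm_num)).trans f.sqrtD_ge) hD.le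
    have h2 : 2 * ((2 * k + 3 : ℕ) : ℝ) ≤ D / ell n / 2 := by
      push_cast
      refine (mul_le_mul_of_nonneg_left hr.cfg_small two_pos.le).trans ?_
      rw [le_div_iff₀ two_pos, le_div_iff₀ (by linarith)]
      linarith
    calc 2 * ((1 - 1 / ell n) / 2) * D + 2 * ((2 * k + 3 : ℕ) : ℝ)
        = D - D / ell n + 2 * ((2 * k + 3 : ℕ) : ℝ) := by ring
      _ ≤ D - D * (ell n ^ 6 / √D) := by linarith
      _ = _ := by ring

/-- One step of the total potential in a good state. -/
lemma totPot_step (hn : Big n) (hZ : StepZ) (hb : Stepb) (hB : StepB) (hN : StepN) (hR : StepR)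
    {G : Finset (Finset (Fin n))} {D : ℝ} {b : Fin n → ℝ} (g : Good n G D b) :
    ∑ T ∈ triangles G, totPot (rmTri G T) (stepD G D) (stepb G D b T)
      ≤ triCount G * totPot G D b := by
  have f := g.fax hn
  have hslack : ∑ _T ∈ triangles G, 6 * err n * (ell n - clock n (stepD G D))
      = triCount G * (6 * err n * (ell n - clock n D) - 6 * err n * hStep G D) := by
    rw [sum_const, nsmul_eq_mul, f.clock_step (by linarith [hn.n_ge]), triCount]; ring
  have h1 := hZ n hn G D b g
  have h2 := hb n hn G D b g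
  have h3 := stepU n hn G D b g
  have h4 := hB n hn G D b g
  have h5 := hN n hn G D b g
  have h6 := hR n hn G D b g
  beta_reduce at h1 h2 h3 h4 h5 h6
  unfold totPot
  simp only [sum_add_distrib]
  rw [hslack]
  linarith

/-- The value function. -/
theorem leaveExp_le_value {ε : ℝ} {k : ℕ} (hr : Ready n k ε) (hZ : StepZ) (hb : Stepb)
    (hB : StepB) (hN : StepN) (hR : StepR) {φ : ℕ → ℝ}
    (hφ : ∀ x, x ≤ n ^ 2 → 0 ≤ φ x ∧ φ x ≤ (n : ℝ) ^ 2) {B c : ℝ} (hB0 : 0 ≤ B) (hc : 0 ≤ c)
    (hend : ∀ G, Reached ε n G → leaveExp φ G ≤ B + c * (defects G (triHyper G) k).card) :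
    ∀ (G : Finset (Finset (Fin n))) (D : ℝ) (b : Fin n → ℝ), G ⊆ completeEdges n →
      ell n ^ 9000 / 3 ≤ D → D ≤ (n : ℝ) - 2 →
      leaveExp φ G ≤ B + c * cfg n k G D + (n : ℝ) ^ 2 * totPot G D b := by
  have hn := hr.big
  intro G
  induction G using Finset.strongInduction with
  | _ G ih =>
  intro D b hG hD1 hD2
  have hL := hn.ell_ge
  have hDpos : 0 < D := lt_of_lt_of_le (by positivity) hD1
  have hcfg : 0 ≤ c * cfg n k G D := mul_nonneg hc (conf_nonneg G (by positivity) hDpos.le)
  by_cases g : Good n G D b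
  · have f := g.fax hn
    have htot : 0 ≤ (n : ℝ) ^ 2 * totPot G D b := by
      refine mul_nonneg (by positivity) ?_
      unfold totPot
      have h1 : 0 ≤ 6 * err n * (ell n - clock n D) :=
        mul_nonneg (mul_nonneg (by norm_num) (err_nonneg n))
          (sub_nonneg.2 (g.clock_mem hn).2)
      have := sum_nonneg fun x (_ : x ∈ univ) => potC_nonneg n 8 (xZ G D x)
      have := sum_nonneg fun x (_ : x ∈ univ) => potC_nonneg n 5 (xb D b x)
      have := sum_nonneg fun e (_ : e ∈ G) => potC_nonneg n 6 (xU G D e)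
      have := sum_nonneg fun e (_ : e ∈ G) => potC_nonneg n 13 (xB G b e)
      have := sum_nonneg fun t (_ : t ∈ tri3 n) => potC_nonneg n 12 (xN G D t)
      have := sum_nonneg fun e (_ : e ∈ G) =>
        pot2_nonneg (4 * ell n ^ 2 / ell n ^ 17) (thR n D) (xR G D b e)
      unfold potZ potb potU potB potN potR
      linarith
    rcases le_or_gt D (ell n ^ 9000) with hstop | hgo
    · refine (hend G (reached_of_good hr g hstop)).trans ?_
      have hd : ((defects G (triHyper G) k).card : ℝ) ≤ cfg n k G D :=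
        defects_le_conf hG hDpos hstop (by
          have : 1 / ell n ≤ 1 := by rw [div_le_one (by linarith)]; linarith
          linarith)
      have := mul_le_mul_of_nonneg_left hd hc
      linarith
    · have hne : triangles G ≠ ∅ := by
        intro h
        have := f.Q_pos
        rw [triCount, h] at this
        simp at this
      rw [leaveExp, if_neg hne,
        sum_attach (triangles G) (fun T => leaveExp φ (G \ T.powersetCard 2)),
        div_le_iff₀ (show (0:ℝ) < ((triangles G).card : ℝ) from f.Q_pos)]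
      have hlo : ell n ^ 9000 / 3 ≤ stepD G D := by
        have hq : 2 * D / triCount G ≤ 1 := by
          have := f.ds_le
          rw [mul_div_assoc]; linarith
        have : D / 2 ≤ stepD G D := by
          unfold stepD
          refine div_le_div_of_nonneg_left hDpos.le ?_ (by linarith)
          have := f.Q_pos
          positivity
        linarith [show 0 ≤ ell n ^ 9000 by positivity]
      refine (sum_le_sum fun T hT => ih (rmTri G T) ?_ (stepD G D) (stepb G D b T)
        ((rmTri_sub T).trans hG) hlo (f.stepD_le.trans hD2)).trans ?_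
      · refine sdiff_ssubset (mem_filter.1 hT).2 ?_
        rw [powersetCard_nonempty, card_triangle hT]; norm_num
      · rw [sum_add_distrib, sum_add_distrib, sum_const, nsmul_eq_mul, ← mul_sum, ← mul_sum]
        have h1 := mul_le_mul_of_nonneg_left (cfg_step hr g) hc
        have h2 := mul_le_mul_of_nonneg_left (totPot_step hn hZ hb hB hN hR g)
          (by positivity : (0:ℝ) ≤ (n : ℝ) ^ 2)
        unfold triCount at h1 h2
        linarith
  · have h1 := mul_le_mul_of_nonneg_left (one_le_totPot hn hG hD1 hD2 g)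
      (by positivity : (0:ℝ) ≤ (n : ℝ) ^ 2)
    refine (leaveExp_le_of_le G fun x hx => (hφ x ?_).2).trans (by linarith)
    refine hx.trans ((card_le_card hG).trans ?_)
    rw [completeEdges, card_powersetCard, card_univ, Fintype.card_fin]
    exact Nat.choose_le_pow n 2

end

end Vale.Agent.P046.Full.Stage
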