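import Vale.Agent.P046.Full.Stage.Facts

/-!
# The vertex families: scaled degrees and corrections
-/

namespace Vale.Agent.P046.Full.Stage

open Finset

noncomputable section

variable {n : ℕ} {G : Finset (Finset (Fin n))} {D : ℝ}

/-- The degree of a vertex after removing a triangle. -/
lemma degv_rmTri {T : Finset (Fin n)} (hT : T ∈ triangles G) (x : Fin n) :
    (degv (rmTri G T) x : ℝ) = degv G x - 2 * (if x ∈ T then (1 : ℝ) else 0) := by
  have hsub := (mem_filter.1 hT).2
  have h3 := card_triangle hT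
  have e1 : (rmTri G T).filter (fun e => x ∈ e)
      = G.filter (fun e => x ∈ e) \ (T.powersetCard 2).filter (fun e => x ∈ e) := by
    ext e; simp only [rmTri, mem_filter, mem_sdiff]; tauto
  have e2 : ((T.powersetCard 2).filter fun e => x ∈ e).card = if x ∈ T then 2 else 0 := by
    by_cases hx : x ∈ T
    · rw [if_pos hx]
      have : (T.powersetCard 2).filter (fun e => x ∈ e)
          = (T.erase x).image fun v => ({x, v} : Finset (Fin n)) := by
        ext f
        simp only [mem_filter, mem_image, mem_erase]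
        constructor
        · rintro ⟨hf, hxf⟩
          obtain ⟨hfT, hf2⟩ := mem_powersetCard.1 hf
          obtain ⟨v, hvf, hvx⟩ := exists_mem_ne (s := f) (by omega) x
          refine ⟨v, ⟨hvx, hfT hvf⟩,
            eq_of_subset_of_card_le (by simp [insert_subset_iff, hxf, hvf]) ?_⟩
          rw [hf2, card_pair hvx.symm]
        · rintro ⟨v, ⟨hvx, hvT⟩, rfl⟩
          exact ⟨pair_mem_powerset.2 ⟨hx, hvT, hvx.symm⟩, by simp⟩
      rw [this, card_image_of_injOn, card_erase_of_mem hx, h3]
      intro v hv w hw h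
      have hvx := (mem_erase.1 hv).1
      have : v ∈ ({x, w} : Finset (Fin n)) := by
        rw [← show ({x, v} : Finset (Fin n)) = {x, w} from h]; simp
      simpa [hvx] using this
    · rw [if_neg hx, card_eq_zero, filter_eq_empty_iff]
      exact fun f hf hxf => hx ((mem_powersetCard.1 hf).1 hxf)
  have e3 := card_sdiff_add_card_eq_card
    (s := (T.powersetCard 2).filter fun e => x ∈ e) (t := G.filter fun e => x ∈ e)
    (filter_subset_filter _ hsub)
  rw [← e1, e2] at e3
  have : (degv (rmTri G T) x : ℝ) + ((if x ∈ T then 2 else 0 : ℕ) : ℝ) = degv G x := by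
    unfold degv; exact_mod_cast e3
  rw [← this]
  split_ifs <;> simp

lemma sum_hit (x : Fin n) :
    ∑ T ∈ triangles G, (if x ∈ T then (1 : ℝ) else 0)
      = ((triangles G).filter fun T => x ∈ T).card := by
  rw [sum_boole]

lemma sum_hit_centred (f : Fax n G D) (x : Fin n) :
    ∑ T ∈ triangles G, ((if x ∈ T then (1 : ℝ) else 0) - hitProb G x) = 0 ∧
      ∑ T ∈ triangles G, ((if x ∈ T then (1 : ℝ) else 0) - hitProb G x) ^ 2
        ≤ triCount G * hitProb G x := by
  have hQ := f.Q_pos
  set p := hitProb G x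
  have hp : ((triangles G).filter fun T => x ∈ T).card = triCount G * p := by
    unfold p hitProb; field_simp
  have h1 : ∑ T ∈ triangles G, ((if x ∈ T then (1 : ℝ) else 0) - p) = 0 := by
    rw [sum_sub_distrib, sum_hit, hp, sum_const, nsmul_eq_mul]; unfold triCount; ring
  refine ⟨h1, ?_⟩
  have e : ∀ T ∈ triangles G, ((if x ∈ T then (1 : ℝ) else 0) - p) ^ 2
      = (1 - 2 * p) * (if x ∈ T then (1 : ℝ) else 0) + p ^ 2 := by
    intro T _; split_ifs <;> ring
  rw [sum_congr rfl e, sum_add_distrib, ← mul_sum, sum_hit, hp, sum_const, nsmul_eq_mul]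
  have : 0 ≤ p ^ 2 * triCount G := mul_nonneg (sq_nonneg p) hQ.le
  unfold triCount at *
  linarith

lemma sqrt_nD_step (f : Fax n G D) :
    √((n : ℝ) * stepD G D) = √((n : ℝ) * D) * Real.exp (-hStep G D) := by
  rw [Real.sqrt_mul (Nat.cast_nonneg n), f.sqrt_stepD, Real.sqrt_mul (Nat.cast_nonneg n), mul_assoc]

lemma D_le_sqrt_nD (f : Fax n G D) : D ≤ √((n : ℝ) * D) :=
  Real.le_sqrt_of_sq_le (by rw [sq]; exact mul_le_mul_of_nonneg_right f.D_le f.D_pos.le)

/-- Powers of `log n` are negligible against the time of a step. -/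
lemma pow_ds_le (hn : Big n) (f : Fax n G D) {p : ℕ} (hp : p ≤ 4000) :
    ell n ^ p * (D / triCount G) ≤ 1 := by
  have hD := f.D_pos
  have h1 : ell n ^ p ≤ D := by
    refine ((hn.pow_le hp).trans f.sqrtD_ge).trans ?_
    exact (Real.sqrt_le_left hD.le).2 (le_self_pow₀ (f.one_le_D hn) (by norm_num))
  have := f.Q_pos
  calc ell n ^ p * (D / triCount G) ≤ D * (1 / D) :=
        mul_le_mul h1 f.ds_le_inv (by positivity) hD.le
    _ = 1 := by field_simp

lemma exp_neg_err {y : ℝ} (h0 : 0 ≤ y) (h1 : y ≤ 1) :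
    0 ≤ Real.exp (-y) - 1 + y ∧ Real.exp (-y) - 1 + y ≤ y ^ 2 := by
  have h2 := (abs_le.1 (Real.abs_exp_sub_one_sub_id_le
    (x := -y) (by rw [abs_neg, abs_of_nonneg h0]; exact h1))).2
  have h3 := Real.add_one_le_exp (-y)
  rw [neg_sq] at h2
  constructor <;> linarith

lemma sq_sub_le (a c t : ℝ) (ht : t = 0 ∨ t = 1) :
    (a - 2 * c * t) ^ 2 ≤ 2 * a ^ 2 + 8 * c ^ 2 * t := by
  rcases ht with rfl | rfl <;> nlinarith [sq_nonneg (a + 2 * c), sq_nonneg a]

lemma abs_sub_le_three {a c t : ℝ} (ha : 0 ≤ a) (ha1 : a ≤ 1) (hc : 0 ≤ c) (hc1 : c ≤ 1)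
    (ht : t = 0 ∨ t = 1) : |a - 2 * c * t| ≤ 3 := by
  rcases ht with rfl | rfl <;> rw [abs_le] <;> constructor <;> linarith

/-- The correction stays small. -/
theorem stepb_ok : Stepb := by
  intro n hn G D b g
  have f := g.fax hn
  have hD := f.D_pos
  have hQ := f.Q_pos
  set h := hStep G D with hh
  have h0 : 0 ≤ h := f.h_pos.le
  have hsmall : h ≤ 1 / 100 := f.h_small
  set d := √((n : ℝ) * D) with hd
  have hd0 : 0 < d := Real.sqrt_pos.2 (mul_pos hn.n_pos hD)
  have hd1 : 1 ≤ d := (f.one_le_D hn).trans (D_le_sqrt_nD f)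
  have hsd : 0 < √d := Real.sqrt_pos.2 hd0
  have hL := hn.ell_ge
  show ∑ T ∈ triangles G, potb (stepD G D) (stepb G D b T)
    ≤ triCount G * (potb D b + err n * h)
  unfold potb
  rw [sum_comm]
  have key : ∀ x : Fin n, ∑ T ∈ triangles G, potC n 5 (xb (stepD G D) (stepb G D b T) x)
      ≤ triCount G * (potC n 5 (xb D b x) + h * (128 * ell n ^ 2 * Real.exp (-(ell n ^ 2)))) := by
    intro x
    set X := xb D b x with hX
    have hX5 : |X| ≤ ell n ^ 5 := g.b_le x
    set p := hitProb G x with hp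
    set c := 2 * Real.exp (-(h / 2)) / √d with hc
    set q := Real.exp (-(3 / 2 * h)) - 1 with hq
    set Δ : Finset (Fin n) → ℝ := fun T => q * X - c * ((if x ∈ T then (1 : ℝ) else 0) - p)
    have hnew : ∀ T, xb (stepD G D) (stepb G D b T) x = X + Δ T := by
      intro T
      have e1 : √(√((n : ℝ) * stepD G D)) = √d * Real.exp (-(h / 2)) := by
        rw [sqrt_nD_step f, ← hd, ← hh, show -h = -(h / 2) + -(h / 2) by ring, Real.exp_add,
          Real.sqrt_mul hd0.le, Real.sqrt_mul_self (Real.exp_pos _).le]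
      simp only [xb, stepb, Δ, q, X, c, ← hd, ← hh, e1]
      rw [show -(3 / 2 * h) = -(h / 2) + -h by ring, Real.exp_add]
      field_simp
      rw [Real.sq_sqrt hd0.le]
      ring
    simp only [hnew]
    obtain ⟨hs1, hs2⟩ := sum_hit_centred f x
    rw [← hp] at hs1 hs2
    obtain ⟨hq0, hq1⟩ := exp_neg_err (y := 3 / 2 * h) (by positivity) (by linarith)
    rw [← hq] at hq0 hq1
    have hqa : |q| ≤ 2 * h := by
      rw [abs_le]; constructor <;> nlinarith
    have hhX : h * (3 * |X|) ≤ 3 := by
      have := pow_ds_le hn f (p := 5) (by norm_num)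
      calc h * (3 * |X|) ≤ D / triCount G * (3 * ell n ^ 5) :=
            mul_le_mul f.h_le (by linarith) (by positivity) (by positivity)
        _ ≤ 3 := by linarith
    have hsum : ∑ T ∈ triangles G, Δ T = triCount G * (q * X) := by
      simp only [Δ]
      rw [sum_sub_distrib, ← mul_sum (a := c), hs1, sum_const, nsmul_eq_mul]; unfold triCount; ring
    have hdev : |q * X + 3 / 2 * h * X| ≤ h * 3 := by
      rw [← add_mul, abs_mul, abs_of_nonneg (by linarith)]
      calc (q + 3 / 2 * h) * |X| ≤ h * (h * (3 * |X|)) := by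
            calc (q + 3 / 2 * h) * |X| ≤ (3 / 2 * h) ^ 2 * |X| := by gcongr
              _ ≤ _ := by nlinarith [mul_nonneg (mul_nonneg h0 h0) (abs_nonneg X)]
        _ ≤ h * 3 := by gcongr
    obtain ⟨hd_l, hd_u⟩ := abs_le.1 hdev
    have hc0 : 0 ≤ c := by positivity
    have hc1 : c ≤ 2 / √d := by
      rw [hc]; gcongr
      exact mul_le_of_le_one_right (by norm_num) (Real.exp_le_one_iff.2 (by linarith))
    have hc2 : c ^ 2 ≤ 4 / d := by
      refine (pow_le_pow_left₀ hc0 hc1 2).trans (le_of_eq ?_)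
      rw [div_pow, Real.sq_sqrt hd0.le]; norm_num
    refine potC_step hn f (triangles G) Δ (κ := 3 / 2) (F := 3) (s2 := 104) le_rfl (by norm_num)
      (by norm_num) (fun T hT => ?_) ?_ ?_ ?_ ?_ hX5
    · have hsd1 : 1 ≤ √d := Real.one_le_sqrt.2 hd1
      have hp0 : 0 ≤ p := by rw [hp]; unfold hitProb; positivity
      have hp1 : p ≤ 1 := by
        rw [hp]; unfold hitProb
        rw [div_le_one hQ]
        exact Nat.cast_le.2 (card_filter_le _ _)
      have hi : |(if x ∈ T then (1 : ℝ) else 0) - p| ≤ 1 := by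
        rw [abs_le]; split_ifs <;> constructor <;> linarith
      have : |Δ T| ≤ 4 := by
        refine (abs_sub _ _).trans ?_
        rw [abs_mul, abs_mul, abs_of_nonneg hc0]
        have a1 : |q| * |X| ≤ 2 := by
          calc |q| * |X| ≤ 2 * h * |X| := by gcongr
            _ ≤ 2 := by linarith
        have a2 : c * |(if x ∈ T then (1 : ℝ) else 0) - p| ≤ 2 * 1 := by
          gcongr
          exact hc1.trans (div_le_self (by norm_num) hsd1)
        linarith
      calc 2 * ell n ^ 2 * |Δ T| ≤ 2 * ell n ^ 2 * 4 := by gcongr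
        _ = 8 * ell n ^ 2 := by ring
        _ ≤ ell n ^ 5 := hn.mul_pow_le (by norm_num) (by norm_num)
    · rw [hsum]; exact mul_le_mul_of_nonneg_left (by linarith) hQ.le
    · rw [hsum, ← mul_neg]; exact mul_le_mul_of_nonneg_left (by linarith) hQ.le
    · have e : ∀ T ∈ triangles G, Δ T ^ 2
          ≤ 2 * (q * X) ^ 2 + 2 * c ^ 2 * ((if x ∈ T then (1 : ℝ) else 0) - p) ^ 2 := by
        intro T _
        simp only [Δ]
        nlinarith [sq_nonneg (q * X + c * ((if x ∈ T then (1 : ℝ) else 0) - p))]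
      refine (sum_le_sum e).trans ?_
      rw [sum_add_distrib, ← mul_sum, ← mul_sum, sum_const, nsmul_eq_mul]
      have a1 : (q * X) ^ 2 ≤ h * 4 := by
        have h10 := pow_ds_le hn f (p := 10) (by norm_num)
        calc (q * X) ^ 2 = |q| ^ 2 * |X| ^ 2 := by rw [mul_pow, sq_abs, sq_abs]
          _ ≤ (2 * h) ^ 2 * (ell n ^ 5) ^ 2 := by gcongr
          _ = 4 * h * (ell n ^ 10 * h) := by ring
          _ ≤ 4 * h * (ell n ^ 10 * (D / triCount G)) := by gcongr; exact f.h_le
          _ ≤ 4 * h * 1 := by gcongr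
          _ = _ := by ring
      have a2 : p ≤ 4 * d * h := by
        refine (f.hit_le x).trans ?_
        rw [← hd]
        have := mul_le_mul_of_nonneg_left f.ds_le_two_h (by positivity : (0 : ℝ) ≤ 2 * d)
        linarith
      have a3 : c ^ 2 * (triCount G * p) ≤ triCount G * (16 * h) := by
        calc c ^ 2 * (triCount G * p) ≤ 4 / d * (triCount G * (4 * d * h)) := by
              refine mul_le_mul hc2 (mul_le_mul_of_nonneg_left a2 hQ.le) ?_ (by positivity)
              exact mul_nonneg hQ.le (by rw [hp]; unfold hitProb; positivity)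
          _ = _ := by field_simp; ring
      have a4 := mul_le_mul_of_nonneg_left hs2 (sq_nonneg c)
      have a5 := mul_le_mul_of_nonneg_left a1 hQ.le
      rw [show ((triangles G).card : ℝ) = triCount G from rfl]
      linarith [mul_nonneg hQ.le h0]
    · have h5 : (0 : ℝ) < ell n ^ 5 := pow_pos (by linarith [hn.ell_ge]) 5
      have : 2 * ell n ^ 2 / ell n ^ 5 * 104 ≤ 1 := by
        rw [div_mul_eq_mul_div, div_le_one h5]
        have := hn.mul_pow_le (a := 2) (b := 5) (c := 208) (by norm_num) (by norm_num)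
        linarith
      have := hn.mul_pow_le (a := 0) (b := 5) (c := 10) (by norm_num) (by norm_num)
      linarith
  refine (sum_le_sum fun x _ => key x).trans ?_
  rw [← mul_sum, sum_add_distrib, sum_const, card_univ, Fintype.card_fin, nsmul_eq_mul]
  refine mul_le_mul_of_nonneg_left (add_le_add le_rfl ?_) hQ.le
  have := err_ge hn (c := (n : ℝ)) (le_self_pow₀ (by linarith [hn.n_ge]) (by norm_num))
    (K := 128 * ell n ^ 2) (by nlinarith [sq_nonneg (ell n)]) (by positivity)
  have := mul_le_mul_of_nonneg_left this h0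
  linarith

/-- The vertex degrees stay close to their reference. -/
theorem stepZ : StepZ := by
  intro n hn G D b g
  have f := g.fax hn
  have hD := f.D_pos
  have hQ := f.Q_pos
  set h := hStep G D with hh
  set s := D / triCount G with hs
  have h0 : 0 ≤ h := f.h_pos.le
  set d := √((n : ℝ) * D) with hd
  have hd0 : 0 < d := Real.sqrt_pos.2 (mul_pos hn.n_pos hD)
  have hDd : D ≤ d := D_le_sqrt_nD f
  have hD1 := f.one_le_D hn
  have hsD : 0 < √D := Real.sqrt_pos.2 hD
  have hsD1 : √D ≤ D := (Real.sqrt_le_left hD.le).2 (le_self_pow₀ hD1 (by norm_num))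
  have hs0 : 0 ≤ s := by positivity
  have hDs : D * s ≤ 1 := by
    calc D * s ≤ D * (1 / D) := by gcongr; exact f.ds_le_inv
      _ = 1 := by field_simp
  have hs2h : s ≤ 2 * h := f.ds_le_two_h
  have hsh : 0 ≤ s - h ∧ s - h ≤ 2 * s ^ 2 := by
    have a1 := f.h_le; have a2 := f.h_ge
    rw [← hh, ← hs] at a1 a2
    constructor <;> linarith
  show ∑ T ∈ triangles G, potZ (rmTri G T) (stepD G D)
    ≤ triCount G * (potZ G D + err n * h)
  unfold potZ
  rw [sum_comm]
  have key : ∀ x : Fin n, ∑ T ∈ triangles G, potC n 8 (xZ (rmTri G T) (stepD G D) x)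
      ≤ triCount G * (potC n 8 (xZ G D x) + h * (128 * ell n ^ 2 * Real.exp (-(ell n ^ 2)))) := by
    intro x
    set X := xZ G D x with hX
    have hX8 : |X| ≤ ell n ^ 8 := g.z_le x
    set Δ : Finset (Fin n) → ℝ := fun T =>
      √D * (1 - Real.exp (-h)) - 2 * (√D / d) * (if x ∈ T then (1 : ℝ) else 0)
    have hnew : ∀ T ∈ triangles G, xZ (rmTri G T) (stepD G D) x = X + Δ T := by
      intro T hT
      simp only [xZ, X, Δ]
      rw [sqrt_nD_step f, f.sqrt_stepD, degv_rmTri hT, ← hd, ← hh]
      have := (Real.exp_pos (-h)).ne'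
      field_simp
      ring
    rw [sum_congr rfl fun T hT => congrArg (potC n 8) (hnew T hT)]
    set Nx := (((triangles G).filter fun T => x ∈ T).card : ℝ) with hNx
    have hsum : ∑ T ∈ triangles G, Δ T
        = triCount G * (√D * (1 - Real.exp (-h))) - √D / d * (2 * Nx) := by
      simp only [Δ]
      rw [sum_sub_distrib, ← mul_sum (a := 2 * (√D / d)), sum_hit, sum_const, nsmul_eq_mul]
      unfold triCount; ring
    set θ := ∑ e ∈ G.filter (fun e => x ∈ e), dev (triHyper G) D e
    have hN2 : 2 * Nx = D * degv G x + D * θ := by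
      rw [hNx, card_tri_vertex g.sub x]
      simp only [θ, mul_sum]
      rw [sum_congr rfl (g := fun e => D + D * dev (triHyper G) D e) fun e _ => by
        unfold dev; field_simp; ring, sum_add_distrib, sum_const, nsmul_eq_mul]
      unfold degv; ring
    have hθ : |√D / d * θ| ≤ 2 * ell n ^ 6 := by
      have a1 : |θ| ≤ degv G x * (ell n ^ 6 / √D) := by
        refine (abs_sum_le_sum_abs _ _).trans ((sum_le_sum fun e he =>
          f.u_abs e (mem_filter.1 he).1).trans_eq ?_)
        rw [sum_const, nsmul_eq_mul]; rfl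
      rw [abs_mul, abs_of_pos (by positivity : 0 < √D / d)]
      calc √D / d * |θ| ≤ √D / d * (2 * d * (ell n ^ 6 / √D)) := by
            gcongr
            exact a1.trans (mul_le_mul_of_nonneg_right (f.deg_le x) (by positivity))
        _ = _ := by field_simp
    -- the drift
    have hdr : ∑ T ∈ triangles G, Δ T = triCount G * (-(s * X) - s * (√D / d * θ)
        + √D * (1 - Real.exp (-h) - s)) := by
      rw [hsum, hN2]
      simp only [X, xZ, s, ← hd]
      field_simp
      ring
    obtain ⟨he0, he1⟩ := exp_neg_err h0 (by linarith [f.h_small])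
    have hhs : h ≤ s := f.h_le
    have k1 : |√D * (1 - Real.exp (-h) - s)| ≤ 6 * h := by
      rw [abs_mul, abs_of_pos hsD]
      have a1 : |1 - Real.exp (-h) - s| ≤ 3 * s ^ 2 := by
        have : h ^ 2 ≤ s ^ 2 := pow_le_pow_left₀ h0 hhs 2
        rw [abs_le]; constructor <;> linarith [hsh.1, hsh.2, sq_nonneg s]
      calc √D * |1 - Real.exp (-h) - s| ≤ D * (3 * s ^ 2) := by gcongr
        _ = 3 * s * (D * s) := by ring
        _ ≤ 3 * s * 1 := by gcongr
        _ ≤ _ := by linarith
    have k2 : |(s - h) * X| ≤ 4 * h := by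
      rw [abs_mul, abs_of_nonneg hsh.1]
      calc (s - h) * |X| ≤ 2 * s ^ 2 * ell n ^ 8 :=
            mul_le_mul hsh.2 hX8 (abs_nonneg _) (by positivity)
        _ = 2 * s * (ell n ^ 8 * s) := by ring
        _ ≤ 2 * s * 1 := by gcongr; exact pow_ds_le hn f (by norm_num)
        _ ≤ _ := by linarith
    have k3 : |s * (√D / d * θ)| ≤ 4 * ell n ^ 6 * h := by
      rw [abs_mul, abs_of_nonneg hs0]
      calc s * |√D / d * θ| ≤ 2 * h * (2 * ell n ^ 6) :=
            mul_le_mul hs2h hθ (abs_nonneg _) (by positivity)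
        _ = _ := by ring
    have hdev : |(-(s * X) - s * (√D / d * θ) + √D * (1 - Real.exp (-h) - s)) + h * X|
        ≤ h * (4 * ell n ^ 6 + 10) := by
      rw [abs_le]
      obtain ⟨a1, a2⟩ := abs_le.1 k1
      obtain ⟨b1, b2⟩ := abs_le.1 k2
      obtain ⟨c1, c2⟩ := abs_le.1 k3
      constructor <;> linarith
    obtain ⟨hd_l, hd_u⟩ := abs_le.1 hdev
    have hsdd : √D / d ≤ 1 := (div_le_one hd0).2 (hsD1.trans hDd)
    have he : 0 ≤ 1 - Real.exp (-h) ∧ 1 - Real.exp (-h) ≤ h :=
      ⟨sub_nonneg.2 (Real.exp_le_one_iff.2 (by linarith)), by linarith⟩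
    refine potC_step hn f (triangles G) Δ (κ := 1) (F := 4 * ell n ^ 6 + 10) (s2 := 34) le_rfl
      zero_le_one (by norm_num) (fun T _ => ?_) ?_ ?_ ?_ ?_ hX8
    · have a0 : √D * (1 - Real.exp (-h)) ≤ 1 :=
        (mul_le_mul hsD1 (he.2.trans hhs) he.1 hD.le).trans hDs
      have a1 : 0 ≤ √D * (1 - Real.exp (-h)) := mul_nonneg hsD.le he.1
      have a2 : 0 ≤ √D / d := by positivity
      have : |Δ T| ≤ 3 := abs_sub_le_three a1 a0 a2 hsdd (by split_ifs <;> simp)
      calc 2 * ell n ^ 2 * |Δ T| ≤ 2 * ell n ^ 2 * 3 := by gcongr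
        _ = 6 * ell n ^ 2 := by ring
        _ ≤ ell n ^ 8 := hn.mul_pow_le (by norm_num) (by norm_num)
    · rw [hdr]; exact mul_le_mul_of_nonneg_left (by linarith) hQ.le
    · rw [hdr, ← mul_neg]; exact mul_le_mul_of_nonneg_left (by linarith) hQ.le
    · have e : ∀ T ∈ triangles G, Δ T ^ 2
          ≤ 2 * (√D * (1 - Real.exp (-h))) ^ 2
            + 8 * (√D / d) ^ 2 * (if x ∈ T then (1 : ℝ) else 0) := by
        intro T _
        exact sq_sub_le _ _ _ (by split_ifs <;> simp)
      refine (sum_le_sum e).trans ?_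
      rw [sum_add_distrib, ← mul_sum, ← mul_sum, sum_hit, sum_const, nsmul_eq_mul]
      have a1 : (√D * (1 - Real.exp (-h))) ^ 2 ≤ h := by
        rw [mul_pow, Real.sq_sqrt hD.le]
        calc D * (1 - Real.exp (-h)) ^ 2 ≤ D * h ^ 2 := by gcongr; exacts [he.1, he.2]
          _ = h * (D * h) := by ring
          _ ≤ h * (D * s) := by gcongr
          _ ≤ h * 1 := by gcongr
          _ = h := mul_one h
      have a2 : Nx ≤ triCount G * (4 * d * h) := by
        have hp := f.hit_le x
        unfold hitProb at hp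
        rw [← hNx, div_le_iff₀ hQ, ← hd] at hp
        refine hp.trans ?_
        have : 2 * d * s ≤ 2 * d * (2 * h) := by gcongr
        calc 2 * d * s * triCount G ≤ 2 * d * (2 * h) * triCount G :=
              mul_le_mul_of_nonneg_right this hQ.le
          _ = _ := by ring
      have a3 : (√D / d) ^ 2 * Nx ≤ triCount G * (4 * h) := by
        calc (√D / d) ^ 2 * Nx ≤ (√D / d) ^ 2 * (triCount G * (4 * d * h)) := by gcongr
          _ = triCount G * (4 * h) * (D / d) := by
              rw [div_pow, Real.sq_sqrt hD.le]; field_simp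
          _ ≤ triCount G * (4 * h) * 1 := by gcongr; exact (div_le_one hd0).2 hDd
          _ = _ := mul_one _
      have a4 := mul_le_mul_of_nonneg_left a1 hQ.le
      rw [show ((triangles G).card : ℝ) = triCount G from rfl]
      linarith [mul_nonneg hQ.le h0]
    · have h8 : (0 : ℝ) < ell n ^ 8 := pow_pos (by linarith [hn.ell_ge]) 8
      have : 2 * ell n ^ 2 / ell n ^ 8 * 34 ≤ 1 := by
        rw [div_mul_eq_mul_div, div_le_one h8]
        have := hn.mul_pow_le (a := 2) (b := 8) (c := 68) (by norm_num) (by norm_num)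
        linarith
      have := hn.mul_pow_le (a := 6) (b := 8) (c := 32) (by norm_num) (by norm_num)
      have := hn.pow_ge_one 6
      linarith
  refine (sum_le_sum fun x _ => key x).trans ?_
  rw [← mul_sum, sum_add_distrib, sum_const, card_univ, Fintype.card_fin, nsmul_eq_mul]
  refine mul_le_mul_of_nonneg_left (add_le_add le_rfl ?_) hQ.le
  have := err_ge hn (c := (n : ℝ)) (le_self_pow₀ (by linarith [hn.n_ge]) (by norm_num))
    (K := 128 * ell n ^ 2) (by nlinarith [sq_nonneg (ell n)]) (by positivity)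
  have := mul_le_mul_of_nonneg_left this h0
  linarith

end

end Vale.Agent.P046.Full.Stage
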